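import Vale.Agent.P159.H276.Eta
import Vale.Agent.P159.H159.Drec3
import Vale.Agent.P159.H972.Good

/-!
P159 / module ETA (helper276), part 2: the matrix `Wt` is symmetric, translation invariant, positive
semidefinite and its trace is small: with the flat profiles (`H972.FL`) at the masses `t` and `4 t`
and a free scale `ρ`,
`t tr Wt <= C (η (N / ρ)² + t N² (t ρ²)^c + t l² (1 + t N² (1 + log (N / l))))`.
-/

namespace Vale.Agent.P159.H276

open Finset Matrix MeasureTheory ProbabilityTheory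
open Vale.Agent.P159.TM.H104 (EM Ex Cv K3 Lg li nh Gr)
open Vale.Agent.P159.H37
open Vale.Agent.P159.TM.H764 (EE cN sN dt grd)
open Vale.Agent.P159.TM.Spec (V)
open Vale.Agent.P159.TM.SpecC (wT)
open Vale.Agent.P159.H864 (TI sym fc ti_fc sym_fc Gc cobV qf_le_iff lapM Wl rd)
open Vale.Agent.P159.H963
open Vale.Agent.P159.H859 (Rk ti_Rk sym_Rk)
open Vale.Agent.P159.H972 (FL)

noncomputable section

section symbols

variable {N : ℕ} [NeZero N] {b : ℝ}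

/-- the gain against the covariances -/
lemma sym_Wm_le (hb : 0 < b) {t τ : ℝ} (ht : 0 < t) (h : t ≤ τ) (k : V N) :
    sym (Wm N b t τ) k ≤ Gnh N b t k - Gnh N b τ k := by
  have hτ : 0 < τ := ht.trans_le h
  rw [sym_Wm]
  have h1 := one_sub_pos (N := N) hb.le hτ (q := τ - t) (by linarith) (by linarith) k
  have h2 := H963.Gnh_nonneg (N := N) hb.le hτ k
  have h3 : Gnh N b τ k ≤ Gnh N b τ k / (1 - (τ - t) * Gnh N b τ k) := by
    rw [le_div_iff₀ h1]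
    have := mul_nonneg (mul_nonneg (sub_nonneg.2 h) h2) h2
    nlinarith
  linarith

/-- the self energy is at least the bare one -/
lemma Pin_ge (hb : 0 < b) {t : ℝ} (ht : 0 < t) {k : V N} (hk : k ≠ 0) :
    1 / b * EE k ≤ Pin N b t k := by
  have h1 := Gnh_dom (N := N) hb ht k
  rw [Gnh_inv hb ht hk] at h1
  have h2 := H963.Pin_nonneg (N := N) hb ht hk
  have h3 : 0 < t + Pin N b t k := by linarith
  have h4 : 0 < t + 1 / b * EE k := by
    have := mul_nonneg (show (0 : ℝ) ≤ 1 / b by positivity) (TM.H764.EE_nonneg k)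
    linarith
  have := (inv_le_inv₀ h3 h4).1 h1
  linarith

/-- arithmetic of `sym_Wm_FL` -/
lemma flat_aux {b t η E x y z z1 a1 z4 a4 n : ℝ} (hb : 0 < b) (ht : 0 < t)
    (htN : 1 ≤ t * n) (hη : 0 ≤ η) (hE : 0 ≤ E) (hz1 : 0 ≤ z1) (hz4 : 0 ≤ z4)
    (hz4n : z4 * n ≤ η) (ha : a4 - a1 ≤ 2 * η) (pb : 1 / b * E ≤ x) (p1 : x ≤ y) (p2 : y ≤ z)
    (f1 : z1 + a1 * E - η * E ^ 2 / t ≤ x) (f4 : z ≤ z4 + a4 * E + η * E ^ 2 / (4 * t)) :
    (t + x)⁻¹ - (t + y)⁻¹ ≤ 2 * (1 + b) ^ 2 * (η / t) := by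
  have hx : 0 ≤ x := le_trans (by positivity) pb
  have q0 : 0 < t + x := by linarith
  have q1 : 0 < t + y := by linarith
  have g1 : η * E ^ 2 / (4 * t) = η / t * E ^ 2 / 4 := by
    field_simp
  have g2 : η * E ^ 2 / t = η / t * E ^ 2 := by
    field_simp
  have g3 : z4 ≤ η / t * t ^ 2 := by
    have e1 : η / t * t ^ 2 = η * t := by
      field_simp
    rw [e1]
    have e2 : z4 * 1 ≤ z4 * (t * n) := mul_le_mul_of_nonneg_left htN hz4
    have e3 : z4 * (t * n) = t * (z4 * n) := by ring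
    have e4 : t * (z4 * n) ≤ t * η := mul_le_mul_of_nonneg_left hz4n ht.le
    linarith
  have g4 : (a4 - a1) * E ≤ η / t * (2 * t * E) := by
    have e1 : η / t * (2 * t * E) = 2 * η * E := by
      field_simp
    rw [e1]
    exact mul_le_mul_of_nonneg_right ha hE
  rw [g1] at f4
  rw [g2] at f1
  have hηt : 0 ≤ η / t := div_nonneg hη ht.le
  have num : y - x ≤ 5 / 4 * (η / t * (t + E) ^ 2) := by
    have e1 : 0 ≤ η / t * t ^ 2 := by positivity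
    have e2 : 0 ≤ η / t * (2 * t * E) := by positivity
    have e3 : 5 / 4 * (η / t * (t + E) ^ 2) = η / t * t ^ 2 + η / t * (2 * t * E) +
        η / t * E ^ 2 + η / t * E ^ 2 / 4 + (η / t * t ^ 2 / 4 + η / t * (2 * t * E) / 4) := by
      ring
    rw [e3]
    have e4 : (a4 - a1) * E = a4 * E - a1 * E := by ring
    linarith
  have den : (t + E) ^ 2 ≤ (1 + b) ^ 2 * ((t + x) * (t + y)) := by
    have e1 : t + E ≤ (1 + b) * (t + x) := by
      have e2 : (1 + b) * (t + 1 / b * E) = t + E + (b * t + 1 / b * E) := by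
        field_simp
        ring
      have e3 : 0 ≤ b * t + 1 / b * E := by positivity
      have e4 : (1 + b) * (t + 1 / b * E) ≤ (1 + b) * (t + x) :=
        mul_le_mul_of_nonneg_left (by linarith) (by positivity)
      linarith
    have e5 : (t + E) ^ 2 ≤ ((1 + b) * (t + x)) ^ 2 :=
      pow_le_pow_left₀ (by positivity) e1 2
    have e6 : (t + x) * (t + x) ≤ (t + x) * (t + y) :=
      mul_le_mul_of_nonneg_left (by linarith) q0.le
    have e7 : (1 + b) ^ 2 * ((t + x) * (t + x)) ≤ (1 + b) ^ 2 * ((t + x) * (t + y)) :=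
      mul_le_mul_of_nonneg_left e6 (by positivity)
    calc (t + E) ^ 2 ≤ ((1 + b) * (t + x)) ^ 2 := e5
      _ = (1 + b) ^ 2 * ((t + x) * (t + x)) := by ring
      _ ≤ _ := e7
  have e0 : (t + x)⁻¹ - (t + y)⁻¹ = (y - x) / ((t + x) * (t + y)) := by
    field_simp
    ring
  rw [e0, div_le_iff₀ (mul_pos q0 q1)]
  calc y - x ≤ 5 / 4 * (η / t * (t + E) ^ 2) := num
    _ ≤ 5 / 4 * (η / t * ((1 + b) ^ 2 * ((t + x) * (t + y)))) :=
        mul_le_mul_of_nonneg_left (mul_le_mul_of_nonneg_left den hηt) (by norm_num)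
    _ ≤ 2 * (η / t * ((1 + b) ^ 2 * ((t + x) * (t + y)))) := by
        refine mul_le_mul_of_nonneg_right (by norm_num) ?_
        have := mul_pos q0 q1
        positivity
    _ = _ := by ring

/-- **pointwise bound of the response defect from the flat profiles at `t` and `4 t`** -/
theorem sym_Wm_FL (hb : 0 < b) {t τ a η : ℝ} (ht : 0 < t) (h1 : t ≤ τ) (h2 : τ ≤ 4 * t)
    (htN : 1 ≤ t * (N : ℝ) ^ 2) (F1 : FL b t a η N) (F4 : FL b (4 * t) a η N) (k : V N) :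
    sym (Wm N b t τ) k ≤ 2 * (1 + b) ^ 2 * (η / t) := by
  obtain ⟨z1, a1, hz1, hzN1, ha1, hF1⟩ := F1
  obtain ⟨z4, a4, hz4, hzN4, ha4, hF4⟩ := F4
  have hN : (0 : ℝ) < (N : ℝ) ^ 2 := by
    have : (0 : ℝ) < N := by exact_mod_cast NeZero.pos N
    positivity
  have hη : 0 ≤ η := le_trans (by positivity) hzN1
  by_cases hk : k = 0
  · rw [hk, sym_Wm_zero]
    positivity
  have hτ : 0 < τ := ht.trans_le h1
  have f1 := (abs_le.1 (hF1 k hk)).1
  have f4 := (abs_le.1 (hF4 k hk)).2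
  have e2 := (abs_le.1 ha4).2
  have e3 := (abs_le.1 ha1).1
  rw [sym_Wm, lin_inv hb ht h1 hk, Gnh_inv hb ht hk]
  exact flat_aux (a1 := a1) (a4 := a4) hb ht htN hη (TM.H764.EE_nonneg k) hz1 hz4 hzN4 (by linarith)
    (Pin_ge (N := N) hb ht hk) (Pin_mono (N := N) hb ht h1 hk) (Pin_mono (N := N) hb hτ h2 hk)
    (by linarith) (by linarith)

end symbols

section cells

variable {N l : ℕ} [NeZero N] [NeZero (N / l)] {b : ℝ}

lemma ti_GcWm (hb : 0 < b) (hl : l ∣ N) {t : ℝ} (ht : 0 < t) (τ : ℝ) :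
    TI (Gc l (Wm N b t τ)) := H864.ti_Gc hl (ti_Wm hb.le ht τ).ct

theorem ti_Wt (hb : 0 < b) (hl : l ∣ N) {t τ : ℝ} (ht : 0 < t) (h : t ≤ τ) :
    TI (Wt N l b t τ) :=
  ((ti_GcWm hb hl ht τ).smul _).add ((H963.ti_Gnc hb.le hl (ht.trans_le h) le_rfl).smul _)

theorem Wt_tr (hb : 0 < b) (hl : l ∣ N) {t τ : ℝ} (ht : 0 < t) (h : t ≤ τ) :
    (Wt N l b t τ)ᵀ = Wt N l b t τ := (ti_Wt hb hl ht h).transpose

lemma sym_GcWm_nonneg (hb : 0 < b) (hl : l ∣ N) {t τ : ℝ} (ht : 0 < t) (h : t ≤ τ)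
    (k : V (N / l)) : 0 ≤ sym (Gc l (Wm N b t τ)) k := by
  rw [H864.sym_Gc hl (ti_Wm hb.le ht τ)]
  unfold H864.als
  exact Finset.sum_nonneg fun p _ => mul_nonneg (sym_Wm_nonneg hb.le ht h p) (H864.Wl_nonneg p)

theorem sym_Wt_nonneg (hb : 0 < b) (hl : l ∣ N) {t τ : ℝ} (ht : 0 < t) (h : t ≤ τ)
    (k : V (N / l)) : 0 ≤ sym (Wt N l b t τ) k := by
  unfold Wt
  rw [H864.sym_add, H864.sym_smul, H864.sym_smul]
  have h1 := sym_GcWm_nonneg hb hl ht h k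
  have h2 := H963.sym_Gnc_nonneg hb.le hl (ht.trans_le h) le_rfl k
  positivity

theorem Wt_psd (hb : 0 < b) (hl : l ∣ N) {t τ : ℝ} (ht : 0 < t) (h : t ≤ τ)
    (φ : V (N / l) → ℝ) : 0 ≤ qf (Wt N l b t τ) φ :=
  (H864.psd_iff (ti_Wt hb hl ht h)).2 (fun k => sym_Wt_nonneg hb hl ht h k) φ

theorem trWt_nonneg (hb : 0 < b) (hl : l ∣ N) {t τ : ℝ} (ht : 0 < t) (h : t ≤ τ) :
    0 ≤ (Wt N l b t τ).trace := by
  rw [(ti_Wt hb hl ht h).trace_eq]
  exact Finset.sum_nonneg fun k _ => sym_Wt_nonneg hb hl ht h k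

/-- the symbol of `E` -/
lemma sym_Eop (t τ : ℝ) (k : V (N / l)) :
    sym (Eop N l b t τ) k = 1 - (τ - t) * sym (Gnc N l b τ τ) k := by
  unfold Eop
  rw [H864.sym_sub, H864.sym_one, H864.sym_smul]

theorem ti_Eop (hb : 0 < b) (hl : l ∣ N) (t : ℝ) {τ : ℝ} (hτ : 0 < τ) : TI (Eop N l b t τ) :=
  TI.one.sub ((H963.ti_Gnc hb.le hl hτ le_rfl).smul _)

/-- the cell symbols of the gain at the smooth modes -/
lemma sym_GcWm_le (hb : 0 < b) (hl : l ∣ N) {t : ℝ} (ht : 0 < t) {τ w : ℝ}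
    (hw : ∀ p : V N, sym (Wm N b t τ) p ≤ w) (k : V (N / l)) :
    sym (Gc l (Wm N b t τ)) k ≤ w := by
  rw [H864.sym_Gc hl (ti_Wm hb.le ht τ)]
  unfold H864.als
  calc ∑ p ∈ univ.filter (fun p : V N => rd p = k), sym (Wm N b t τ) p * Wl l p
      ≤ ∑ p ∈ univ.filter (fun p : V N => rd p = k), w * Wl l p :=
        Finset.sum_le_sum fun p _ => mul_le_mul_of_nonneg_right (hw p) (H864.Wl_nonneg p)
    _ = w := by rw [← Finset.mul_sum, H864.sum_Wl hl, mul_one]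

/-- the cell symbols of the gain at the rough modes -/
lemma sym_GcWm_diff (hb : 0 < b) (hl : l ∣ N) {t τ : ℝ} (ht : 0 < t) (h : t ≤ τ) (k : V (N / l)) :
    sym (Gc l (Wm N b t τ)) k ≤ sym (Gnc N l b t t) k - sym (Gnc N l b τ τ) k := by
  have hτ : 0 < τ := ht.trans_le h
  rw [H963.Gnc_self, H963.Gnc_self, H864.sym_Gc hl (ti_Wm hb.le ht τ),
    H864.sym_Gc hl (H963.ti_Gn hb.le ht), H864.sym_Gc hl (H963.ti_Gn hb.le hτ)]
  unfold H864.als
  rw [← Finset.sum_sub_distrib]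
  refine Finset.sum_le_sum fun p _ => ?_
  rw [← sub_mul]
  exact mul_le_mul_of_nonneg_right (sym_Wm_le hb ht h p) (H864.Wl_nonneg p)

/-- the trace of the response part -/
theorem trGcWm (hb : 0 < b) (hl : l ∣ N) {ρ : ℕ} (h8 : 8 * l ∣ ρ) (hρ : ρ ∣ N) {t τ a η E : ℝ}
    (ht : 0 < t) (h1 : t ≤ τ) (h2 : τ ≤ 4 * t) (htN : 1 ≤ t * (N : ℝ) ^ 2) (F1 : FL b t a η N)
    (F4 : FL b (4 * t) a η N)
    (hE : Ex (nwt N b t 0) 0 (fun h => qf (1 - cellP N ρ) (re h)) -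
      Ex (nwt N b τ 0) 0 (fun h => qf (1 - cellP N ρ) (re h)) ≤ E) :
    (Gc l (Wm N b t τ)).trace ≤
      256 * (1 + b) ^ 2 * (η / t) * ((N : ℝ) / ρ) ^ 2 + 4 / 3 * E := by
  classical
  have hl0 : 0 < l := H864.l_pos hl
  have hρ0 : 0 < ρ := Nat.pos_of_dvd_of_pos hρ (NeZero.pos N)
  have hlR : (0 : ℝ) < l := by exact_mod_cast hl0
  have hρR : (0 : ℝ) < ρ := by exact_mod_cast hρ0
  have hN0 : 0 < N := NeZero.pos N
  have hη : 0 ≤ η := by
    obtain ⟨z1, a1, hz1, hzN1, -⟩ := F1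
    exact le_trans (by positivity) hzN1
  obtain ⟨m, hm⟩ := h8
  obtain ⟨M, hM⟩ := hρ
  have hm0 : 0 < m := by
    rcases Nat.eq_zero_or_pos m with h0 | h0
    · rw [h0, mul_zero] at hm
      omega
    · exact h0
  have hM0 : 0 < M := by
    rcases Nat.eq_zero_or_pos M with h0 | h0
    · rw [h0, mul_zero] at hM
      omega
    · exact h0
  have hNl : N / l = m * (8 * M) := by
    rw [hM, hm]
    have : 8 * l * m * M = l * (m * (8 * M)) := by ring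
    rw [this, Nat.mul_div_cancel_left _ hl0]
  have hmd : m ∣ N / l := ⟨8 * M, hNl⟩
  have hNlm : N / l / m = 8 * M := by
    rw [hNl, Nat.mul_div_cancel_left _ hm0]
  have inst1 : NeZero (N / l / m) := ⟨by rw [hNlm]; omega⟩
  have hρd : ρ ∣ N := ⟨M, hM⟩
  rw [(ti_GcWm hb hl ht τ).trace_eq]
  set w : ℝ := 2 * (1 + b) ^ 2 * (η / t) with hw
  have hw0 : 0 ≤ w := by positivity
  set H : Finset (V (N / l)) := univ.filter fun k => 32 * (l : ℝ) ^ 2 ≤ (ρ : ℝ) ^ 2 * EE k with hH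
  rw [← Finset.sum_add_sum_compl H]
  have a1 : ∑ k ∈ H, sym (Gc l (Wm N b t τ)) k ≤ 4 / 3 * E := by
    refine (Finset.sum_le_sum fun k _ => sym_GcWm_diff hb hl ht h1 k).trans ?_
    exact H159.high_sum hb.le hl hρd ht h1 hE H fun k hk => (Finset.mem_filter.1 hk).2
  have a2 : (Hᶜ.card : ℝ) ≤ 128 * ((N : ℝ) / ρ) ^ 2 := by
    have b1 := H159.card_low (N := N / l) (ρ := m) hmd Hᶜ fun p hp => by
      rw [Finset.mem_compl, hH, Finset.mem_filter, not_and, not_le] at hp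
      have c1 := hp (Finset.mem_univ p)
      have c2 : (ρ : ℝ) = 8 * l * m := by
        rw [hm]
        push_cast
        ring
      rw [c2] at c1
      have c3 : (8 * (l : ℝ) * m) ^ 2 * EE p = (l : ℝ) ^ 2 * (32 * (2 * ((m : ℝ) ^ 2 * EE p))) := by
        ring
      rw [c3] at c1
      have c4 : (l : ℝ) ^ 2 * (32 * (2 * ((m : ℝ) ^ 2 * EE p))) < (l : ℝ) ^ 2 * 32 := by linarith
      have c5 := lt_of_mul_lt_mul_left c4 (by positivity)
      linarith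
    refine b1.trans (le_of_eq ?_)
    have b2 : (N : ℝ) / ρ = M := by
      rw [hM]
      push_cast
      field_simp
    rw [hNlm, b2]
    push_cast
    ring
  have a3 : ∑ k ∈ Hᶜ, sym (Gc l (Wm N b t τ)) k ≤ 128 * ((N : ℝ) / ρ) ^ 2 * w := by
    calc ∑ k ∈ Hᶜ, sym (Gc l (Wm N b t τ)) k ≤ ∑ k ∈ Hᶜ, w :=
          Finset.sum_le_sum fun k _ => sym_GcWm_le hb hl ht
            (fun p => sym_Wm_FL hb ht h1 h2 htN F1 F4 p) k
      _ = (Hᶜ.card : ℝ) * w := by rw [Finset.sum_const, nsmul_eq_mul]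
      _ ≤ _ := mul_le_mul_of_nonneg_right a2 hw0
  have a4 : 128 * ((N : ℝ) / ρ) ^ 2 * w = 256 * (1 + b) ^ 2 * (η / t) * ((N : ℝ) / ρ) ^ 2 := by
    rw [hw]
    ring
  linarith

/-- the trace of the cell covariance -/
theorem trGnc (hb : 0 < b) (hl : l ∣ N) {τ : ℝ} (hτ : 0 < τ) :
    (Gnc N l b τ τ).trace ≤ 1 / τ + b * (N : ℝ) ^ 2 * (1 + Real.log ((N / l : ℕ) : ℝ)) := by
  have hlR : (0 : ℝ) < l := by exact_mod_cast H864.l_pos hl
  have hκ : (0 : ℝ) < 1 / b / (l : ℝ) ^ 2 := by positivity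
  have hn : (0 : ℝ) < ((N / l : ℕ) : ℝ) := by exact_mod_cast NeZero.pos (N / l)
  rw [(H963.ti_Gnc hb.le hl hτ le_rfl).trace_eq]
  have h1 : ∑ k, sym (Gnc N l b τ τ) k ≤ ∑ k : V (N / l), (τ + 1 / b / (l : ℝ) ^ 2 * EE k)⁻¹ :=
    Finset.sum_le_sum fun k _ => H859.Gnck_dom hb.le hl hτ le_rfl (by positivity)
      (by rw [mul_one_div_cancel hb.ne']) k
  have h2 := H859.gd_le (n := N / l) hτ hκ
  rw [H859.gd_eq hτ hκ.le, inv_mul_le_iff₀ (by positivity)] at h2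
  refine h1.trans (h2.trans (le_of_eq ?_))
  have h3 := H963.N_eq hl
  rw [h3]
  field_simp

/-- **(E3)** the trace of `Wt` -/
theorem trWt (hb : 0 < b) : ∃ C c : ℝ, 0 < C ∧ 0 < c ∧
    ∀ (N l ρ : ℕ) [NeZero N] [NeZero (N / l)] (t τ a η : ℝ), l ∣ N → 8 * l ∣ ρ → ρ ∣ N →
      0 < t → t ≤ τ → τ ≤ 4 * t → 9 ≤ t * (N : ℝ) ^ 2 → 4 * t * (ρ : ℝ) ^ 2 ≤ 1 →
      FL b t a η N → FL b (4 * t) a η N →
      t * (Wt N l b t τ).trace ≤ C * (η * ((N : ℝ) / ρ) ^ 2 +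
        t * (N : ℝ) ^ 2 * (4 * t * (ρ : ℝ) ^ 2) ^ c +
        t * (l : ℝ) ^ 2 * (1 + t * (N : ℝ) ^ 2 * (1 + Real.log ((N / l : ℕ) : ℝ)))) := by
  obtain ⟨C, c, hC, hc, hF⟩ := H159.fine_N (b := b) hb.le
  refine ⟨128 * (1 + b) ^ 2 + C + 144 * b * (1 + b), c, by positivity, hc, ?_⟩
  intro N l ρ _ _ t τ a η hl h8 hρ ht h1 h2 htN htρ F1 F4
  have hτ : 0 < τ := ht.trans_le h1
  have hlR : (0 : ℝ) < l := by exact_mod_cast H864.l_pos hl
  have hρR : (0 : ℝ) < ρ := by exact_mod_cast Nat.pos_of_dvd_of_pos hρ (NeZero.pos N)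
  have hNR : (0 : ℝ) < N := by exact_mod_cast NeZero.pos N
  have hη : 0 ≤ η := by
    obtain ⟨z1, a1, hz1, hzN1, -⟩ := F1
    exact le_trans (by positivity) hzN1
  have e1 := (hF N (4 * t) (by linarith) (by linarith) ρ hρ htρ t (t • (1 : Matrix (V N) (V N) ℝ))
    (τ • (1 : Matrix (V N) (V N) ℝ)) t τ (H159.masN_sc ht h1 h2) 0).2
  have e2 := trGcWm hb hl h8 hρ ht h1 h2 (by linarith) F1 F4 e1
  have e3 := trGnc (N := N) hb hl hτ
  have hL : 0 ≤ Real.log ((N / l : ℕ) : ℝ) := Real.log_natCast_nonneg _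
  set L : ℝ := Real.log ((N / l : ℕ) : ℝ) with hLd
  set R : ℝ := (4 * t * (ρ : ℝ) ^ 2) ^ c with hR
  have hR0 : 0 ≤ R := Real.rpow_nonneg (by positivity) _
  unfold Wt
  rw [Matrix.trace_add, Matrix.trace_smul, Matrix.trace_smul, smul_eq_mul, smul_eq_mul]
  have e4 : t * (1 / 2 * (Gc l (Wm N b t τ)).trace) ≤
      128 * (1 + b) ^ 2 * (η * ((N : ℝ) / ρ) ^ 2) + C * (t * (N : ℝ) ^ 2 * R) := by
    have f1 : t * (1 / 2 * (Gc l (Wm N b t τ)).trace) ≤ t * (1 / 2 *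
        (256 * (1 + b) ^ 2 * (η / t) * ((N : ℝ) / ρ) ^ 2 + 4 / 3 * (C * (N : ℝ) ^ 2 * R))) :=
      mul_le_mul_of_nonneg_left (mul_le_mul_of_nonneg_left e2 (by norm_num)) ht.le
    have f2 : t * (1 / 2 *
        (256 * (1 + b) ^ 2 * (η / t) * ((N : ℝ) / ρ) ^ 2 + 4 / 3 * (C * (N : ℝ) ^ 2 * R))) =
        128 * (1 + b) ^ 2 * (η * ((N : ℝ) / ρ) ^ 2) + 2 / 3 * (C * (t * (N : ℝ) ^ 2 * R)) := by
      field_simp
      ring
    have f3 : 0 ≤ C * (t * (N : ℝ) ^ 2 * R) := by positivity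
    linarith
  have e5 : t * (16 * b * (τ - t) ^ 2 * (l : ℝ) ^ 2 / t * (Gnc N l b τ τ).trace) ≤
      144 * b * (1 + b) * (t * (l : ℝ) ^ 2 * (1 + t * (N : ℝ) ^ 2 * (1 + L))) := by
    have f0 : (τ - t) ^ 2 ≤ (3 * t) ^ 2 := pow_le_pow_left₀ (by linarith) (by linarith) 2
    have f1 : (Gnc N l b τ τ).trace ≤ 1 / t + b * (N : ℝ) ^ 2 * (1 + L) := by
      refine e3.trans ?_
      have := one_div_le_one_div_of_le ht h1
      linarith
    have f2 : 0 ≤ 1 / t + b * (N : ℝ) ^ 2 * (1 + L) := by positivity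
    have f3 : t * (16 * b * (τ - t) ^ 2 * (l : ℝ) ^ 2 / t * (Gnc N l b τ τ).trace) =
        16 * b * (l : ℝ) ^ 2 * ((τ - t) ^ 2 * (Gnc N l b τ τ).trace) := by
      field_simp
    have f4 : (τ - t) ^ 2 * (Gnc N l b τ τ).trace ≤
        (3 * t) ^ 2 * (1 / t + b * (N : ℝ) ^ 2 * (1 + L)) := by
      calc (τ - t) ^ 2 * (Gnc N l b τ τ).trace
          ≤ (τ - t) ^ 2 * (1 / t + b * (N : ℝ) ^ 2 * (1 + L)) :=
            mul_le_mul_of_nonneg_left f1 (sq_nonneg _)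
        _ ≤ _ := mul_le_mul_of_nonneg_right f0 f2
    rw [f3]
    calc 16 * b * (l : ℝ) ^ 2 * ((τ - t) ^ 2 * (Gnc N l b τ τ).trace)
        ≤ 16 * b * (l : ℝ) ^ 2 * ((3 * t) ^ 2 * (1 / t + b * (N : ℝ) ^ 2 * (1 + L))) :=
          mul_le_mul_of_nonneg_left f4 (by positivity)
      _ = 144 * b * (t * (l : ℝ) ^ 2 * (1 + b * (t * (N : ℝ) ^ 2 * (1 + L)))) := by
          field_simp
          ring
      _ ≤ 144 * b * (t * (l : ℝ) ^ 2 * ((1 + b) * (1 + t * (N : ℝ) ^ 2 * (1 + L)))) := by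
          refine mul_le_mul_of_nonneg_left (mul_le_mul_of_nonneg_left ?_ (by positivity))
            (by positivity)
          have g1 : 0 ≤ t * (N : ℝ) ^ 2 * (1 + L) := by positivity
          nlinarith
      _ = _ := by ring
  have x1 : 0 ≤ η * ((N : ℝ) / ρ) ^ 2 := by positivity
  have x2 : 0 ≤ t * (N : ℝ) ^ 2 * R := by positivity
  have x3 : 0 ≤ t * (l : ℝ) ^ 2 * (1 + t * (N : ℝ) ^ 2 * (1 + L)) := by positivity
  rw [mul_add]
  have y1 : 0 ≤ 128 * (1 + b) ^ 2 := by positivity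
  have y2 : 0 ≤ 144 * b * (1 + b) := by positivity
  nlinarith [mul_nonneg y1 x2, mul_nonneg y1 x3, mul_nonneg hC.le x1, mul_nonneg hC.le x3,
    mul_nonneg y2 x1, mul_nonneg y2 x2]

end cells

end

end Vale.Agent.P159.H276
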