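import Vale.Agent.P159.H276.DownA

/-!
P159 / module DOWN (helper276), part 3: the neutral torus model with scalar masses `t <= τ`.

`W = G_t - (G_τ⁻¹ - (τ - t))⁻¹` (translation invariant, positive semidefinite, no zero mode); for
every neutral `J`, `e = J - (τ - t) G_τ J`,

`R_τ(J) <= R_t(e) + <e, W e> / 2 + (τ - t) tr W / 2`.
-/

namespace Vale.Agent.P159.H276

open Finset Matrix MeasureTheory ProbabilityTheory
open Vale.Agent.P159.TM.H104 (EM Ex Cv K3 Lg li nh Gr)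
open Vale.Agent.P159.H37
open Vale.Agent.P159.TM.H764 (EE cN sN dt)
open Vale.Agent.P159.TM.Spec (V)
open Vale.Agent.P159.TM.SpecC (wT)
open Vale.Agent.P159.H864 (TI sym fc ti_fc sym_fc)
open Vale.Agent.P159.H963

noncomputable section

variable {N : ℕ} [NeZero N] {b : ℝ}

/-- the channel between two scalar masses -/
def chn (N : ℕ) [NeZero N] (q : ℝ) : Matrix (V N) (V N) ℝ :=
  √q • (Pn : Matrix (V N) (V N) ℝ)

lemma chn_tr (q : ℝ) : (chn N q)ᵀ = chn N q := by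
  unfold chn
  rw [transpose_smul, Pn_transpose]

lemma chn_gram {q : ℝ} (hq : 0 ≤ q) :
    (chn N q)ᵀ * chn N q = q • (Pn : Matrix (V N) (V N) ℝ) := by
  rw [chn_tr]
  unfold chn
  rw [Matrix.smul_mul, Matrix.mul_smul, smul_smul, Real.mul_self_sqrt hq, Pn_mul_Pn]

/-- the posterior of mass `s` under the channel is mass `s'` -/
theorem post_chn (b : ℝ) {s s' : ℝ} (h : s ≤ s') :
    post (nwt N b s 0) (chn N (s' - s)) = nwt N b s' 0 := by
  unfold nwt
  rw [post_nM, chn_gram (sub_nonneg.2 h)]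
  refine nM_congr _ ?_ _
  ext x y
  rw [ntr_apply, ntr_apply]
  unfold Pn
  rw [Matrix.add_apply, Matrix.smul_apply, Matrix.smul_apply, Matrix.smul_apply, ntr_apply]
  simp only [smul_eq_mul]
  ring


/-! ### the neutral covariance -/

lemma Gn_def (s : ℝ) : Gn N b s =
    (Pn : Matrix (V N) (V N) ℝ) * Gm (nwt N b s 0) * Pn := rfl

lemma Pn_Gm_neu (s : ℝ) {u : V N → ℝ} (hu : Neu u) :
    (Pn : Matrix (V N) (V N) ℝ) *ᵥ (Gm (nwt N b s 0) *ᵥ u) = Gn N b s *ᵥ u := by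
  rw [Gn_def, ← mulVec_mulVec, ← mulVec_mulVec, Pn_of_neu hu]

/-- the source of the prior in terms of the source of the posterior -/
lemma chn_src (s : ℝ) {q : ℝ} (hq : 0 ≤ q) {u : V N → ℝ} (hu : Neu u) :
    u - (chn N q)ᵀ *ᵥ (chn N q *ᵥ (Gm (nwt N b s 0) *ᵥ u)) = u - q • (Gn N b s *ᵥ u) := by
  rw [mulVec_mulVec, chn_gram hq, Matrix.smul_mulVec, Pn_Gm_neu s hu]

lemma neu_Gn (s : ℝ) (u : V N → ℝ) : Neu (Gn N b s *ᵥ u) := by
  rw [Gn_def, Matrix.mul_assoc, ← mulVec_mulVec]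
  exact neu_Pn _

lemma bf_Gm_neu (s : ℝ) {u v : V N → ℝ} (hu : Neu u) (hv : Neu v) :
    bf (Gm (nwt N b s 0)) u v = bf (Gn N b s) u v := by
  rw [Gn_def, H37.bf_eq, H37.bf_eq, ← mulVec_mulVec, ← mulVec_mulVec, Pn_of_neu hv,
    dotProduct_mulVec u (Pn : Matrix (V N) (V N) ℝ), ← mulVec_transpose, Pn_transpose,
    Pn_of_neu hu]

lemma qf_chn (s : ℝ) {q : ℝ} (hq : 0 ≤ q) (g : V N → ℝ) :
    qf (Gm (nwt N b s 0)) ((chn N q)ᵀ *ᵥ g) = q * qf (Gn N b s) g := by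
  have h1 : (chn N q)ᵀ *ᵥ g = √q • ((Pn : Matrix (V N) (V N) ℝ) *ᵥ g) := by
    rw [chn_tr]
    unfold chn
    rw [Matrix.smul_mulVec]
  have h2 : ∀ (c : ℝ) (u : V N → ℝ), qf (Gm (nwt N b s 0)) (c • u) =
      c ^ 2 * qf (Gm (nwt N b s 0)) u := by
    intro c u
    unfold qf
    rw [Finset.mul_sum]
    refine Finset.sum_congr rfl fun x _ => ?_
    rw [Finset.mul_sum]
    refine Finset.sum_congr rfl fun y _ => ?_
    simp only [Pi.smul_apply, smul_eq_mul]
    ring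
  rw [h1, h2, Real.sq_sqrt hq, ← H963.qf_Gn_neu N b s (neu_Pn g)]
  congr 1
  have h3 : (Pn : Matrix (V N) (V N) ℝ) * Gn N b s * Pn = Gn N b s := by
    rw [Gn_def]
    have := Pn_mul_Pn (V := V N)
    calc Pn * (Pn * Gm (nwt N b s 0) * Pn) * Pn
        = (Pn * Pn) * Gm (nwt N b s 0) * (Pn * Pn) := by simp only [Matrix.mul_assoc]
      _ = _ := by rw [this]
  conv_rhs => rw [← h3]
  rw [H37.qf_eq, H37.qf_eq, ← mulVec_mulVec, ← mulVec_mulVec,
    dotProduct_mulVec g (Pn : Matrix (V N) (V N) ℝ), ← mulVec_transpose, Pn_transpose]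

/-- the linear response of the covariance of mass `s'` to the decrease `q` of the mass -/
def lin (N : ℕ) [NeZero N] (b s' q : ℝ) : Matrix (V N) (V N) ℝ :=
  fc (fun x => x / (1 - q * x)) (Gn N b s')

lemma ti_lin (s' q : ℝ) : TI (lin N b s' q) := ti_fc _ _

lemma sym_lin (s' q : ℝ) (k : V N) :
    sym (lin N b s' q) k = Gnh N b s' k / (1 - q * Gnh N b s' k) := sym_fc _ _ k

lemma one_sub_pos (hb : 0 ≤ b) {s' q : ℝ} (hs : 0 < s') (hq : q < s') (hq0 : 0 ≤ q) (k : V N) :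
    0 < 1 - q * Gnh N b s' k := by
  have h1 := H963.Gnh_le (N := N) hb hs k
  have h2 : q * Gnh N b s' k ≤ q * s'⁻¹ := mul_le_mul_of_nonneg_left h1 hq0
  have h3 : q * s'⁻¹ < 1 := by
    rw [← div_eq_mul_inv, div_lt_one hs]
    exact hq
  linarith

/-- `W` -/
def Wm (N : ℕ) [NeZero N] (b s s' : ℝ) : Matrix (V N) (V N) ℝ := Gn N b s - lin N b s' (s' - s)

lemma ti_Wm (hb : 0 ≤ b) {s : ℝ} (hs : 0 < s) (s' : ℝ) : TI (Wm N b s s') :=
  (H963.ti_Gn hb hs).sub (ti_lin _ _)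

lemma sym_Wm (s s' : ℝ) (k : V N) : sym (Wm N b s s') k =
    Gnh N b s k - Gnh N b s' k / (1 - (s' - s) * Gnh N b s' k) := by
  unfold Wm
  rw [H864.sym_sub, sym_lin]
  rfl

lemma sym_Wm_zero (s s' : ℝ) : sym (Wm N b s s') 0 = 0 := by
  rw [sym_Wm, H963.Gnh_zero, H963.Gnh_zero]
  simp

lemma sym_Gn_eq (s : ℝ) (k : V N) : sym (Gn N b s) k = Gnh N b s k := rfl

/-- inverse of the symbols -/
lemma lin_inv (hb : 0 < b) {s s' : ℝ} (hs : 0 < s) (h : s ≤ s') {k : V N} (hk : k ≠ 0) :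
    Gnh N b s' k / (1 - (s' - s) * Gnh N b s' k) = (s + Pin N b s' k)⁻¹ := by
  have hs' : 0 < s' := hs.trans_le h
  have hp := H963.Gnh_pos hb hs' hk
  have h1 := one_sub_pos (N := N) hb.le hs' (q := s' - s) (by linarith) (by linarith) k
  have h2 : s + Pin N b s' k = (1 - (s' - s) * Gnh N b s' k) / Gnh N b s' k := by
    unfold H963.Pin
    field_simp
    ring
  rw [h2, inv_div]

lemma Gnh_inv (hb : 0 < b) {s : ℝ} (hs : 0 < s) {k : V N} (hk : k ≠ 0) :
    Gnh N b s k = (s + Pin N b s k)⁻¹ := by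
  have h := lin_inv (N := N) hb hs le_rfl hk
  rwa [sub_self, zero_mul, sub_zero, div_one] at h

/-- one-sided comparison of the quadratic forms on neutral vectors (MET) -/
lemma met_wave (hb : 0 ≤ b) {s s' : ℝ} (hs : 0 < s) (h : s ≤ s') {u : V N → ℝ} (hu : Neu u)
    {k : V N} (hw : Gn N b s' *ᵥ u = Gnh N b s' k • u) :
    (1 - (s' - s) * Gnh N b s' k) * qf (Gn N b s') u ≤
      (1 - (s' - s) * Gnh N b s' k) ^ 2 * qf (Gn N b s) u := by
  have hs' : 0 < s' := hs.trans_le h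
  have hp := post_chn (N := N) b h
  have hE : Ev (nwt N b s' 0) := H963.ev_nwt hb s' 0
  have hK : PK (nwt N b s' 0) := H963.pk_nwt hb hs' 0
  have hM : EM (nwt N b s' 0) := H963.em_nwt hb hs' 0
  set c : ℝ := 1 - (s' - s) * Gnh N b s' k with hc
  have he : c • u = u - (chn N (s' - s))ᵀ *ᵥ
      (chn N (s' - s) *ᵥ (Gm (post (nwt N b s 0) (chn N (s' - s))) *ᵥ u)) := by
    rw [hp, chn_src s' (by linarith) hu, hw, hc]
    module
  have hGC : H663.GC (post (nwt N b s 0) (chn N (s' - s))) := by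
    rw [hp]
    exact fun J u => H789.qf_mono hM hE hK J u
  have h1 := H663.Gm_ge (H963.em_nwt hb hs 0) (chn N (s' - s)) hGC he
  rw [hp] at h1
  have hcu : Neu (c • u) := hu.smul c
  have e1 : bf (Gm (nwt N b s' 0)) u (c • u) = c * qf (Gn N b s') u := by
    rw [bf_Gm_neu s' hu hcu, H37.bf_eq, mulVec_smul, dotProduct_smul, ← H37.qf_eq, smul_eq_mul]
  have e2 : qf (Gm (nwt N b s 0)) (c • u) = c ^ 2 * qf (Gn N b s) u := by
    rw [← H963.qf_Gn_neu N b s hcu, H37.qf_eq, mulVec_smul, dotProduct_smul, smul_dotProduct,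
      ← H37.qf_eq, smul_eq_mul, smul_eq_mul]
    ring
  rw [e1, e2] at h1
  exact h1

/-- `W` is positive semidefinite -/
theorem sym_Wm_nonneg (hb : 0 ≤ b) {s s' : ℝ} (hs : 0 < s) (h : s ≤ s') (k : V N) :
    0 ≤ sym (Wm N b s s') k := by
  by_cases hk : k = 0
  · subst hk
    rw [sym_Wm_zero]
  have hs' : 0 < s' := hs.trans_le h
  have t' := H963.ti_Gn (N := N) hb hs'
  have t0 := H963.ti_Gn (N := N) hb hs
  have hc := one_sub_pos (N := N) hb hs' (q := s' - s) (by linarith) (by linarith) k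
  have h1 := met_wave (N := N) hb hs h (neu_cN hk) (k := k) (t'.mulVec_cN k)
  have h2 := met_wave (N := N) hb hs h (neu_sN k) (k := k) (t'.mulVec_sN k)
  have h3 := H864.qf_wave t' k
  have h4 := H864.qf_wave t0 k
  rw [sym_Gn_eq] at h3 h4
  set c : ℝ := 1 - (s' - s) * Gnh N b s' k with hcd
  have hN := H864.N_pos (N := N)
  have h5 : c * ((N : ℝ) ^ 2 * Gnh N b s' k) ≤ c ^ 2 * ((N : ℝ) ^ 2 * Gnh N b s k) := by
    rw [← h3, ← h4]
    linarith
  have h6 : Gnh N b s' k ≤ c * Gnh N b s k := by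
    have h7 : (c * (N : ℝ) ^ 2) * Gnh N b s' k ≤ (c * (N : ℝ) ^ 2) * (c * Gnh N b s k) := by
      linarith
    exact le_of_mul_le_mul_left h7 (by positivity)
  rw [sym_Wm, ← hcd, sub_nonneg, div_le_iff₀ hc]
  linarith

/-- the neutral self energy increases with the mass -/
theorem Pin_mono (hb : 0 < b) {s s' : ℝ} (hs : 0 < s) (h : s ≤ s') {k : V N} (hk : k ≠ 0) :
    Pin N b s k ≤ Pin N b s' k := by
  have h1 := sym_Wm_nonneg (N := N) hb.le hs h k
  have hs' : 0 < s' := hs.trans_le h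
  rw [sym_Wm, lin_inv hb hs h hk, Gnh_inv hb hs hk, sub_nonneg] at h1
  have p1 := H963.Pin_nonneg (N := N) hb hs hk
  have p2 := H963.Pin_nonneg (N := N) hb hs' hk
  have q1 : 0 < s + Pin N b s k := by linarith
  have q2 : 0 < s + Pin N b s' k := by linarith
  have h2 := (inv_le_inv₀ q2 q1).1 h1
  linarith

lemma mid_aux {t s x y z : ℝ} (ht : 0 < t) (h1 : t ≤ s) (p0 : 0 ≤ x) (p1 : x ≤ y) (p2 : y ≤ z) :
    (s + y)⁻¹ - (s + z)⁻¹ ≤ (t + x)⁻¹ - (t + z)⁻¹ := by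
  have hy : 0 ≤ y := p0.trans p1
  have hz : 0 ≤ z := hy.trans p2
  have hs : 0 < s := ht.trans_le h1
  have a1 : (s + y)⁻¹ - (s + z)⁻¹ = (z - y) / ((s + y) * (s + z)) := by
    have : s + y ≠ 0 := by positivity
    have : s + z ≠ 0 := by positivity
    field_simp
    ring
  have a2 : (t + x)⁻¹ - (t + z)⁻¹ = (z - x) / ((t + x) * (t + z)) := by
    have : t + x ≠ 0 := by positivity
    have : t + z ≠ 0 := by positivity
    field_simp
    ring
  rw [a1, a2]
  have b1 : 0 < (t + x) * (t + z) := by positivity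
  have b2 : (t + x) * (t + z) ≤ (s + y) * (s + z) :=
    mul_le_mul (by linarith) (by linarith) (by positivity) (by positivity)
  calc (z - y) / ((s + y) * (s + z)) ≤ (z - y) / ((t + x) * (t + z)) :=
        div_le_div_of_nonneg_left (by linarith) b1 b2
    _ ≤ _ := div_le_div_of_nonneg_right (by linarith) b1.le

/-- the defect of the intermediate mass is at most `W` -/
lemma sym_mid_le (hb : 0 < b) {t s τ : ℝ} (ht : 0 < t) (h1 : t ≤ s) (h2 : s ≤ τ) (k : V N) :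
    sym (Wm N b s τ) k ≤ sym (Wm N b t τ) k := by
  by_cases hk : k = 0
  · subst hk
    rw [sym_Wm_zero, sym_Wm_zero]
  have hs : 0 < s := ht.trans_le h1
  have hτ : 0 < τ := hs.trans_le h2
  rw [sym_Wm, sym_Wm, lin_inv hb hs h2 hk, Gnh_inv hb hs hk, lin_inv hb ht (h1.trans h2) hk,
    Gnh_inv hb ht hk]
  have p0 := H963.Pin_nonneg (N := N) hb ht hk
  have p1 := Pin_mono (N := N) hb ht h1 hk
  have p2 := Pin_mono (N := N) hb hs h2 hk
  exact mid_aux ht h1 p0 p1 p2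

/-! ### the free energy defect -/

lemma dB_chn (s : ℝ) {q : ℝ} (hq : 0 ≤ q) :
    dB (nwt N b s 0) (chn N q) = Hq (Gn N b s) q := by
  unfold dB Hq
  refine integral_congr_ae (Filter.Eventually.of_forall fun g => ?_)
  simp only
  rw [qf_chn s hq]

lemma int_chn (hb : 0 ≤ b) {t τ : ℝ} (ht : 0 < t) (h : t ≤ τ) :
    Integrable (fun g : V N → ℝ => Real.exp ((τ - t) * qf (Gn N b τ) g / 2)) (gau (V N)) := by
  have hτ : 0 < τ := ht.trans_le h
  have hp := post_chn (N := N) b h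
  have h1 := dB_int (H963.em_nwt hb ht 0) (chn N (τ - t)) (by rw [hp]; exact H963.ev_nwt hb τ 0)
    (by rw [hp]; exact H963.pk_nwt hb hτ 0)
  rw [hp] at h1
  refine h1.congr (Filter.Eventually.of_forall fun g => ?_)
  simp only
  rw [qf_chn τ (by linarith)]

lemma Gn_psd (hb : 0 ≤ b) {s : ℝ} (hs : 0 < s) (g : V N → ℝ) : 0 ≤ qf (Gn N b s) g :=
  (H864.psd_iff (H963.ti_Gn hb hs)).2 (fun k => H963.Gnh_nonneg hb hs k) g

/-- root of the covariance of the tilted Gaussian -/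
lemma root_lin (hb : 0 ≤ b) {τ u : ℝ} (hτ : 0 < τ) (hu : 0 ≤ u) (huτ : u < τ) :
    ∃ B : Matrix (V N) (V N) ℝ, B * Bᵀ * (1 - u • Gn N b τ) = 1 ∧
      (Gn N b τ * (B * Bᵀ)).trace = (lin N b τ u).trace := by
  have tG := H963.ti_Gn (N := N) hb hτ
  have hpos := one_sub_pos (N := N) hb hτ huτ hu
  set B : Matrix (V N) (V N) ℝ := fc (fun x => √(1 / (1 - u * x))) (Gn N b τ) with hB
  have tB : TI B := ti_fc _ _
  have sB : ∀ k, sym B k = √(1 / (1 - u * Gnh N b τ k)) := fun k => sym_fc _ _ k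
  have sBB : ∀ k, sym (B * B) k = 1 / (1 - u * Gnh N b τ k) := fun k => by
    rw [H864.sym_mul tB tB, sB, Real.mul_self_sqrt (one_div_pos.2 (hpos k)).le]
  have t1 : TI (1 - u • Gn N b τ : Matrix (V N) (V N) ℝ) := TI.one.sub (tG.smul u)
  refine ⟨B, ?_, ?_⟩
  · rw [tB.transpose]
    refine H864.sym_inj ((tB.mul tB).mul t1) TI.one fun k => ?_
    rw [H864.sym_mul (tB.mul tB) t1, sBB, H864.sym_one, H864.sym_sub, H864.sym_one,
      H864.sym_smul, sym_Gn_eq]
    have := (hpos k).ne'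
    field_simp
  · rw [tB.transpose, (tG.mul (tB.mul tB)).trace_eq, (ti_lin τ u).trace_eq]
    refine Finset.sum_congr rfl fun k _ => ?_
    rw [H864.sym_mul tG (tB.mul tB), sBB, sym_lin, sym_Gn_eq]
    ring

lemma trace_Pn_Gm (s : ℝ) :
    ((Pn : Matrix (V N) (V N) ℝ) * Gm (nwt N b s 0)).trace = (Gn N b s).trace := by
  rw [Gn_def, Matrix.trace_mul_comm _ (Pn : Matrix (V N) (V N) ℝ), ← Matrix.mul_assoc, Pn_mul_Pn]

/-- the free energy defect between the masses `s <= τ` -/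
def Thn (N : ℕ) [NeZero N] (b τ s : ℝ) : ℝ :=
  Real.log (Zs (nwt N b s 0) 0) - Real.log (Zs (nwt N b τ 0) 0) -
    Real.log (Hq (Gn N b τ) (τ - s))

lemma Th_chn (b : ℝ) {s τ : ℝ} (h : s ≤ τ) :
    Th (nwt N b s 0) (chn N (τ - s)) = Thn N b τ s := by
  unfold Th Thn
  rw [post_chn b h, dB_chn τ (by linarith)]

lemma Thn_self (τ : ℝ) : Thn N b τ τ = 0 := by
  unfold Thn Hq
  simp

theorem Thn_step (hb : 0 < b) {t s s' τ : ℝ} (ht : 0 < t) (h1 : t ≤ s') (h2 : s' ≤ s)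
    (h3 : s ≤ τ) : Thn N b τ s' - Thn N b τ s ≤
      (s - s') / 2 * ((Wm N b t τ).trace + (Gn N b s').trace - (Gn N b s).trace) := by
  have hs' : 0 < s' := ht.trans_le h1
  have hs : 0 < s := hs'.trans_le h2
  have hτ : 0 < τ := hs.trans_le h3
  -- the weight
  have a1 := Lg_post_ge (H963.em_nwt (N := N) hb.le hs' 0) (H963.ev_nwt hb.le s' 0)
    (chn N (s - s'))
  rw [post_chn b h2, chn_gram (by linarith : (0 : ℝ) ≤ s - s'), Matrix.smul_mul,
    Matrix.trace_smul, trace_Pn_Gm, smul_eq_mul] at a1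
  -- the Gaussian integral
  obtain ⟨B, hB, hBt⟩ := root_lin (N := N) hb.le hτ (u := τ - s) (by linarith) (by linarith)
  have a2 := Hq_step (K := Gn N b τ) (H963.ti_Gn hb.le hτ).transpose (Gn_psd hb.le hτ)
    (u := τ - s) (u' := τ - s') (by linarith) (by linarith)
    (int_chn hb.le hs' (h2.trans h3)) hB
  rw [hBt] at a2
  have e1 : (τ - s' - (τ - s)) / 2 = (s - s') / 2 := by ring
  rw [e1] at a2
  -- the two traces
  have a3 : (Gn N b s).trace - (lin N b τ (τ - s)).trace ≤ (Wm N b t τ).trace := by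
    have e2 : (Gn N b s).trace - (lin N b τ (τ - s)).trace = (Wm N b s τ).trace := by
      unfold Wm
      rw [Matrix.trace_sub]
    rw [e2, (ti_Wm hb.le hs τ).trace_eq, (ti_Wm hb.le ht τ).trace_eq]
    exact Finset.sum_le_sum fun k _ => sym_mid_le hb ht (h1.trans h2) h3 k
  have a4 : (s - s') / 2 * ((Gn N b s).trace - (lin N b τ (τ - s)).trace) ≤
      (s - s') / 2 * (Wm N b t τ).trace := mul_le_mul_of_nonneg_left a3 (by linarith)
  unfold Thn
  linarith

/-- **the free energy defect is at most `(τ - t) tr W / 2`** -/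
theorem Thn_le (hb : 0 < b) {t τ : ℝ} (ht : 0 < t) (h : t ≤ τ) :
    Thn N b τ t ≤ (τ - t) / 2 * (Wm N b t τ).trace := by
  have h1 := part_le (f := Thn N b τ) (g := fun s => (Gn N b s).trace) (w := (Wm N b t τ).trace) h
    fun s s' hs' hss hs => Thn_step hb ht hs' hss hs
  rw [Thn_self, sub_zero] at h1
  exact h1

/-! ### the quadratic term -/

lemma lin_mul (hb : 0 ≤ b) {τ q : ℝ} (hτ : 0 < τ) (hq : 0 ≤ q) (hqτ : q < τ) :
    lin N b τ q * (1 - q • Gn N b τ) = Gn N b τ := by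
  have tG := H963.ti_Gn (N := N) hb hτ
  have t1 : TI (1 - q • Gn N b τ : Matrix (V N) (V N) ℝ) := TI.one.sub (tG.smul q)
  refine H864.sym_inj ((ti_lin τ q).mul t1) tG fun k => ?_
  rw [H864.sym_mul (ti_lin τ q) t1, sym_lin, H864.sym_sub, H864.sym_one, H864.sym_smul, sym_Gn_eq]
  exact div_mul_cancel₀ _ (one_sub_pos (N := N) hb hτ hqτ hq k).ne'

/-- **DOWN for the neutral torus model** -/
theorem down_n (hb : 0 < b) {t τ : ℝ} (ht : 0 < t) (h : t ≤ τ) {J e : V N → ℝ} (hJ : Neu J)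
    (he : e = J - (τ - t) • (Gn N b τ *ᵥ J)) :
    Rs (nwt N b τ 0) J ≤ Rs (nwt N b t 0) e + qf (Wm N b t τ) e / 2 +
      (τ - t) / 2 * (Wm N b t τ).trace := by
  have hτ : 0 < τ := ht.trans_le h
  have hq : 0 ≤ τ - t := by linarith
  have hp := post_chn (N := N) b h
  have he' : e = J - (chn N (τ - t))ᵀ *ᵥ
      (chn N (τ - t) *ᵥ (Gm (post (nwt N b t 0) (chn N (τ - t))) *ᵥ J)) := by
    rw [hp, chn_src τ hq hJ, he]
  have h1 := down (H963.em_nwt hb.le ht 0) (chn N (τ - t))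
    (by rw [hp]; exact H963.ev_nwt hb.le τ 0) (by rw [hp]; exact H963.pk_nwt hb.le hτ 0) he'
  rw [hp, Th_chn b h] at h1
  have h2 := Thn_le (N := N) hb ht h
  have hne : Neu e := by
    rw [he]
    exact hJ.sub ((neu_Gn τ J).smul _)
  have h3 : qf (Gm (nwt N b t 0)) e = qf (Gn N b t) e := (H963.qf_Gn_neu N b t hne).symm
  have h4 : bf (Gm (nwt N b τ 0)) J e = qf (lin N b τ (τ - t)) e := by
    rw [bf_Gm_neu τ hJ hne]
    have e1 : e = (1 - (τ - t) • Gn N b τ) *ᵥ J := by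
      rw [Matrix.sub_mulVec, Matrix.one_mulVec, Matrix.smul_mulVec, he]
    have e2 : lin N b τ (τ - t) *ᵥ e = Gn N b τ *ᵥ J := by
      rw [e1, mulVec_mulVec, lin_mul hb.le hτ hq (by linarith)]
    have tG := H963.ti_Gn (N := N) hb.le hτ
    rw [H37.qf_eq, e2, H37.bf_eq, dotProduct_mulVec J, ← mulVec_transpose, tG.transpose,
      dotProduct_comm]
  have h5 : qf (Wm N b t τ) e = qf (Gn N b t) e - qf (lin N b τ (τ - t)) e := by
    unfold Wm
    rw [H864.qf_sub_mat]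
  rw [h3, h4] at h1
  rw [h5]
  linarith

end

end Vale.Agent.P159.H276
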