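import Vale.Agent.P159.H859.NeuE
import Vale.Agent.P159.H963.NeuP
import Vale.Agent.P159.H114.AE1

/-!
P159, row 6628 (helper270), Ed3 (ii), part 1 (helper276): the moving box average `bxT` of the torus.
`h - bxT h` is the divergence of a flow of size `q sup |h - c|` (every constant `c`), so the non
quadratic part of the neutral model at a rough field `s (h - bxT h)` is at most
`C b (N s t q sup |h - c|) ^ 2`.
-/

namespace Vale.Agent.P159.H276

open Finset Matrix
open Vale.Agent.P159.TM.H104 (EM Ex Cv Lg li nh Gr)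
open Vale.Agent.P159.TM.Spec (V)
open Vale.Agent.P159.TM.SpecC (wT Tor)
open Vale.Agent.P159.H37 (wM qf bf Rs Gm Zs)
open Vale.Agent.P159.H963 (ntr nM Pn MF)
open Vale.Agent.P159.H513 (dvT nC nK oK eE2)

noncomputable section

variable {N : ℕ} [NeZero N]

/-- moving box average -/
def bxT (N q : ℕ) [NeZero N] (h : V N → ℝ) (x : V N) : ℝ :=
  ((q : ℝ) ^ 2)⁻¹ * ∑ i ∈ range q, ∑ j ∈ range q, h (x + ((i : ZMod N), (j : ZMod N)))

lemma bxT_add (q : ℕ) (h g : V N → ℝ) : bxT N q (h + g) = bxT N q h + bxT N q g := by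
  funext x
  simp only [bxT, Pi.add_apply, sum_add_distrib, mul_add]

lemma bxT_smul (q : ℕ) (s : ℝ) (h : V N → ℝ) : bxT N q (s • h) = s • bxT N q h := by
  funext x
  simp only [bxT, Pi.smul_apply, smul_eq_mul, ← mul_sum]
  ring

lemma bxT_neg (q : ℕ) (h : V N → ℝ) : bxT N q (-h) = -bxT N q h := by
  funext x
  simp only [bxT, Pi.neg_apply, sum_neg_distrib, mul_neg]

lemma bxT_sub (q : ℕ) (h g : V N → ℝ) : bxT N q (h - g) = bxT N q h - bxT N q g := by
  rw [sub_eq_add_neg, bxT_add, bxT_neg, sub_eq_add_neg]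

lemma bxT_const {q : ℕ} (hq : 1 ≤ q) (c : ℝ) : bxT N q (fun _ => c) = fun _ => c := by
  funext x
  have hq0 : (q : ℝ) ≠ 0 := by
    have : (0 : ℝ) < q := by exact_mod_cast hq
    exact this.ne'
  simp only [bxT, sum_const, card_range, nsmul_eq_mul]
  field_simp

lemma bxT_addc {q : ℕ} (hq : 1 ≤ q) (h : V N → ℝ) (c : ℝ) :
    bxT N q (fun x => h x + c) = fun x => bxT N q h x + c := by
  have e : (fun x => h x + c) = h + fun _ => c := rfl
  rw [e, bxT_add, bxT_const hq]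
  rfl

lemma bxT_one (h : V N → ℝ) : bxT N 1 h = h := by
  funext x
  have e : x + (((0 : ℕ) : ZMod N), ((0 : ℕ) : ZMod N)) = x := by
    ext <;> simp
  simp only [bxT, range_one, sum_singleton, Nat.cast_one, one_pow, inv_one, one_mul, e]

lemma sum_bxT {q : ℕ} (hq : 1 ≤ q) (h : V N → ℝ) : ∑ x, bxT N q h x = ∑ x, h x := by
  have hq0 : (q : ℝ) ≠ 0 := by
    have : (0 : ℝ) < q := by exact_mod_cast hq
    exact this.ne'
  unfold bxT
  rw [← mul_sum, sum_comm]
  have e : ∀ i ∈ range q, ∑ x : V N, ∑ j ∈ range q, h (x + ((i : ZMod N), (j : ZMod N))) =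
      q * ∑ x, h x := by
    intro i _
    rw [sum_comm]
    have e1 : ∀ j ∈ range q, ∑ x : V N, h (x + ((i : ZMod N), (j : ZMod N))) = ∑ x, h x :=
      fun j _ => Equiv.sum_comp (Equiv.addRight (((i : ZMod N), (j : ZMod N)) : V N)) h
    rw [sum_congr rfl e1, sum_const, card_range, nsmul_eq_mul]
  rw [sum_congr rfl e, sum_const, card_range, nsmul_eq_mul]
  field_simp

omit [NeZero N] in
/-- telescoping in one direction -/
lemma tel_dir (h : V N → ℝ) (x e : V N) (i : ℕ) :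
    ∑ k ∈ range i, h (x - e + (k + 1) • e) - ∑ k ∈ range i, h (x + (k + 1) • e) =
      h x - h (x + i • e) := by
  rw [← sum_sub_distrib]
  induction i with
  | zero => simp
  | succ i ih =>
    rw [sum_range_succ, ih]
    have e1 : x - e + (i + 1) • e = x + i • e := by
      rw [add_smul, one_smul]
      abel
    rw [e1]
    ring

/-- the flow of `h - bxT h` -/
def bxC (N q : ℕ) [NeZero N] (h : V N → ℝ) (x : V N) (s : Bool) : ℝ :=
  ((q : ℝ) ^ 2)⁻¹ * ∑ i ∈ range q, ∑ j ∈ range q,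
    if s then ∑ k ∈ range i, h (x + (k + 1) • ((1, 0) : V N))
    else ∑ k ∈ range j, h (x + i • ((1, 0) : V N) + (k + 1) • ((0, 1) : V N))

lemma dvT_bxC {q : ℕ} (hq : 1 ≤ q) (h : V N → ℝ) (x : V N) :
    dvT (bxC N q h) x = h x - bxT N q h x := by
  have hq0 : (q : ℝ) ≠ 0 := by
    have : (0 : ℝ) < q := by exact_mod_cast hq
    exact this.ne'
  have key : ∀ i ∈ range q, ∀ j ∈ range q,
      (∑ k ∈ range i, h (x - (1, 0) + (k + 1) • ((1, 0) : V N)) -
        ∑ k ∈ range i, h (x + (k + 1) • ((1, 0) : V N))) +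
      (∑ k ∈ range j, h (x - (0, 1) + i • ((1, 0) : V N) + (k + 1) • ((0, 1) : V N)) -
        ∑ k ∈ range j, h (x + i • ((1, 0) : V N) + (k + 1) • ((0, 1) : V N))) =
      h x - h (x + ((i : ZMod N), (j : ZMod N))) := by
    intro i _ j _
    have e2 : ∀ k : ℕ, x - (0, 1) + i • ((1, 0) : V N) + (k + 1) • ((0, 1) : V N) =
        (x + i • ((1, 0) : V N)) - (0, 1) + (k + 1) • ((0, 1) : V N) := fun k => by abel
    simp only [e2]
    rw [tel_dir h x (1, 0) i, tel_dir h (x + i • ((1, 0) : V N)) (0, 1) j]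
    have e3 : x + i • ((1, 0) : V N) + j • ((0, 1) : V N) = x + ((i : ZMod N), (j : ZMod N)) := by
      rw [add_assoc]
      congr 1
      ext <;> simp
    rw [e3]
    ring
  unfold dvT bxC bxT
  simp only [if_true, Bool.false_eq_true, if_false]
  have h1 : h x = ((q : ℝ) ^ 2)⁻¹ * ∑ i ∈ range q, ∑ j ∈ range q, h x := by
    simp only [sum_const, card_range, nsmul_eq_mul]
    field_simp
  rw [← mul_sub, ← mul_sub, ← mul_add]
  conv_rhs => rw [h1]
  rw [← mul_sub]
  congr 1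
  simp only [← sum_sub_distrib, ← sum_add_distrib]
  refine sum_congr rfl fun i hi => sum_congr rfl fun j hj => ?_
  have := key i hi j hj
  simp only [← sum_sub_distrib] at this
  exact this

lemma bxC_le {q : ℕ} (hq : 1 ≤ q) {h : V N → ℝ} {A : ℝ} (hA : ∀ x, |h x| ≤ A) (x : V N)
    (s : Bool) : |bxC N q h x s| ≤ q * A := by
  have hq0 : (0 : ℝ) < q := by exact_mod_cast hq
  have hA0 : 0 ≤ A := (abs_nonneg _).trans (hA x)
  unfold bxC
  rw [abs_mul, abs_of_pos (by positivity : 0 < ((q : ℝ) ^ 2)⁻¹)]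
  have h1 : ∀ (m : ℕ), m ∈ range q → ∀ f : ℕ → V N, |∑ k ∈ range m, h (f k)| ≤ q * A := by
    intro m hm f
    refine (abs_sum_le_sum_abs _ _).trans ?_
    refine (sum_le_sum fun k _ => hA (f k)).trans ?_
    rw [sum_const, card_range, nsmul_eq_mul]
    refine mul_le_mul_of_nonneg_right ?_ hA0
    exact_mod_cast (mem_range.1 hm).le
  have h2 : |∑ i ∈ range q, ∑ j ∈ range q,
      if s then ∑ k ∈ range i, h (x + (k + 1) • ((1, 0) : V N))
      else ∑ k ∈ range j, h (x + i • ((1, 0) : V N) + (k + 1) • ((0, 1) : V N))| ≤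
      ∑ i ∈ range q, ∑ j ∈ range q, (q * A : ℝ) := by
    refine (abs_sum_le_sum_abs _ _).trans (sum_le_sum fun i hi => ?_)
    refine (abs_sum_le_sum_abs _ _).trans (sum_le_sum fun j hj => ?_)
    cases s
    · simp only [Bool.false_eq_true, if_false]
      exact h1 j hj fun k => x + i • ((1, 0) : V N) + (k + 1) • ((0, 1) : V N)
    · simp only [if_true]
      exact h1 i hi fun k => x + (k + 1) • ((1, 0) : V N)
  have h3 := mul_le_mul_of_nonneg_left h2 (by positivity : 0 ≤ ((q : ℝ) ^ 2)⁻¹)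
  refine h3.trans (le_of_eq ?_)
  simp only [sum_const, card_range, nsmul_eq_mul]
  field_simp

/-- **`h - bxT h` is the divergence of a flow of size `q sup |h - c|`** -/
theorem bx_flow {q : ℕ} (hq : 1 ≤ q) (h : V N → ℝ) {c A : ℝ} (hA : ∀ x, |h x - c| ≤ A) :
    ∃ j : V N → Bool → ℝ, (∀ x, h x - bxT N q h x = dvT j x) ∧ ∀ x s, |j x s| ≤ q * A := by
  refine ⟨bxC N q fun x => h x + -c, fun x => ?_, fun x s => bxC_le hq (fun x => ?_) x s⟩
  · rw [dvT_bxC hq, bxT_addc hq]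
    ring
  · simpa [sub_eq_add_neg] using hA x

/-! ### the bare cost -/

/-- the bare cost of a flow in the neutral model -/
theorem Rs_flow {b t : ℝ} (hb : 0 ≤ b) (ht : 0 < t) (x₀ : V N) (J : V N → ℝ)
    (c : V N → Bool → ℝ) {δ : ℝ} (hδ : δ ≤ 1) (hc : ∀ x s, |c x s| ≤ δ)
    (hJ : ∀ x, J x = dvT c x) :
    Rs (H963.nwt N b t x₀) J ≤ (b + 6 * max b 1 ^ 2) * (2 * (N * δ) ^ 2) := by
  have hN : N = N * 1 := (mul_one N).symm
  have hM : MF (t • (1 : Matrix (V N) (V N) ℝ)) t := H963.mf_smul ht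
  have h1 := H859.e2_neu_Lg hN hb le_rfl hM x₀ J 0 c (fun x s => (hc x s).trans hδ)
    (fun x => by rw [Matrix.mulVec_zero, hJ x]; simp) one_pos
  have hE := H963.em_nwt hb ht x₀
  have h2 : 0 ≤ qf (Gm (H963.nwt N b t x₀)) J := H114.qf_Cm_nonneg hE 0 J
  have h3 : Rs (H963.nwt N b t x₀) J ≤ eE2 N 1 N b 1 c := by
    have e0 : qf (ntr (t • (1 : Matrix (V N) (V N) ℝ)) t) (0 : V N → ℝ) = 0 := by
      simp [qf]
    rw [e0] at h1
    unfold Rs
    have e1 : H963.nwt N b t x₀ = nM (wT b N) (t • (1 : Matrix (V N) (V N) ℝ)) t x₀ := rfl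
    rw [e1] at h2 ⊢
    linarith
  refine h3.trans ?_
  have hn0 : 0 ≤ nC c := by
    unfold nC
    exact sum_nonneg fun x _ => by positivity
  have h4 : nC c ≤ 2 * (N * δ) ^ 2 := by
    unfold nC
    have h5 : ∀ x : V N, c x true ^ 2 + c x false ^ 2 ≤ 2 * δ ^ 2 := by
      intro x
      have g1 : c x true ^ 2 ≤ δ ^ 2 := sq_le_sq' (abs_le.1 (hc x true)).1 (abs_le.1 (hc x true)).2
      have g2 : c x false ^ 2 ≤ δ ^ 2 :=
        sq_le_sq' (abs_le.1 (hc x false)).1 (abs_le.1 (hc x false)).2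
      linarith
    refine (sum_le_sum fun x _ => h5 x).trans (le_of_eq ?_)
    rw [sum_const, card_univ, nsmul_eq_mul]
    have : (Fintype.card (V N) : ℝ) = (N : ℝ) ^ 2 := by
      rw [Fintype.card_prod, ZMod.card]
      push_cast
      ring
    rw [this]
    ring
  have h6 : ∑ k, nK N 1 N c k ^ 2 ≤ 2 * nC c := by
    have h7 := H513.sum_nK_sq hN c (δ := 1) (fun x s => (hc x s).trans hδ)
    simpa using h7
  have hs : Vale.Agent.P159.stiff 1 b ≤ b := by rw [stiff_one]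
  unfold eE2
  have e2 : ∑ k, oK N 1 N c k = 0 := sum_eq_zero fun k _ => H859.oK_one c k
  rw [e2]
  have hm : (0 : ℝ) ≤ 3 * max b 1 ^ 2 := by positivity
  have h8 := mul_le_mul_of_nonneg_left h6 hm
  have h9 := mul_le_mul_of_nonneg_right hs hn0
  calc (1 + 1) / 2 * (Vale.Agent.P159.stiff 1 b * nC c) + (1 + 1 / 1) / 2 * (b * 0) +
        3 * max b 1 ^ 2 * ∑ k, nK N 1 N c k ^ 2
      ≤ b * nC c + 3 * max b 1 ^ 2 * (2 * nC c) := by linarith
    _ = (b + 6 * max b 1 ^ 2) * nC c := by ring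
    _ ≤ _ := mul_le_mul_of_nonneg_left h4 (by positivity)

/-- the source of a field with sum zero -/
lemma ntr_neutral {t : ℝ} {F : V N → ℝ} (h0 : ∑ x, F x = 0) :
    ntr (t • (1 : Matrix (V N) (V N) ℝ)) t *ᵥ F = t • F := by
  rw [show ntr (t • (1 : Matrix (V N) (V N) ℝ)) t = t • (Pn : Matrix (V N) (V N) ℝ) from ?_, Matrix.smul_mulVec]
  · congr 1
    rw [H963.Pn_mulVec, h0]
    simp
  · unfold H963.Pn ntr
    rw [smul_sub]
    congr 1
    ext x y
    simp only [Matrix.of_apply, Matrix.smul_apply, smul_eq_mul]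
    ring

/-- **(ii) the rough part**: the non quadratic part at `s (h - bxT h)` -/
theorem Rs_rough {b t : ℝ} (hb : 0 ≤ b) (ht : 0 < t) (x₀ : V N) {q : ℕ} (hq : 1 ≤ q)
    (h : V N → ℝ) {c A s : ℝ} (hA : ∀ x, |h x - c| ≤ A) (hs : 0 ≤ s)
    (h1 : s * t * (q * A) ≤ 1) :
    Rs (H963.nwt N b t x₀) (ntr (t • (1 : Matrix (V N) (V N) ℝ)) t *ᵥ (s • (h - bxT N q h))) ≤
      (b + 6 * max b 1 ^ 2) * (2 * (N * (s * t * (q * A))) ^ 2) := by
  obtain ⟨j, hj, hj1⟩ := bx_flow hq h hA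
  have e0 : ∑ x, (s • (h - bxT N q h)) x = 0 := by
    simp only [Pi.smul_apply, Pi.sub_apply, smul_eq_mul]
    rw [← mul_sum, sum_sub_distrib, sum_bxT hq, sub_self, mul_zero]
  rw [ntr_neutral e0]
  refine Rs_flow hb ht x₀ _ (fun x u => s * t * j x u) h1 (fun x u => ?_) fun x => ?_
  · rw [abs_mul, abs_of_nonneg (by positivity)]
    exact mul_le_mul_of_nonneg_left (hj1 x u) (by positivity)
  · simp only [Pi.smul_apply, Pi.sub_apply, smul_eq_mul, hj x]
    unfold dvT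
    ring

end

end Vale.Agent.P159.H276
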