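import Vale.Agent.P159.H276.Es2

/-!
P159, row 6628 (helper270), Ed3 (ii), part 3 (helper276): the flow inside the aligned cells.  A field
with sum zero in every aligned cell of side `q` is the divergence of a flow of size `2 q sup |y|`; the
rough part `h - T P h` (`P` = average over the aligned cells, `T = bxT`).
-/

namespace Vale.Agent.P159.H276

open Finset Matrix
open Vale.Agent.P159.TM.Spec (V)
open Vale.Agent.P159.H770 (Ed eS eT wTD)
open Vale.Agent.P159.H817 (gr nrm)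
open Vale.Agent.P159.H963 (pin ntr)
open Vale.Agent.P159.H883 (Zp)
open Vale.Agent.P159.H37 (Rs)
open Vale.Agent.P159.H513 (dvT)

noncomputable section

variable {N : ℕ} [NeZero N]

/-! ### one dimension -/

/-- first point of the aligned interval of length `q` -/
def cr1 (N q : ℕ) [NeZero N] (x : ZMod N) : ZMod N := ((x.val / q * q : ℕ) : ZMod N)

omit [NeZero N] in
lemma val_cast_lt {i : ℕ} (h : i < N) : ((i : ℕ) : ZMod N).val = i := ZMod.val_cast_of_lt h

lemma cell_lt {q : ℕ} (hq : 1 ≤ q) (hd : q ∣ N) {v i : ℕ} (hv : v < N) (hi : i < q) :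
    v / q * q + i < N := by
  obtain ⟨m, rfl⟩ := hd
  have h1 : v / q < m := by
    rw [Nat.div_lt_iff_lt_mul (by omega)]
    rwa [mul_comm] at hv
  have h2 : (v / q + 1) * q ≤ m * q := Nat.mul_le_mul_right q h1
  rw [add_mul, one_mul] at h2
  rw [mul_comm q m]
  omega

lemma cr1_add {q : ℕ} (hq : 1 ≤ q) (hd : q ∣ N) (x : ZMod N) {i : ℕ} (hi : i < q) :
    cr1 N q (cr1 N q x + (i : ZMod N)) = cr1 N q x := by
  have h1 := cell_lt hq hd (ZMod.val_lt x) hi
  have e1 : cr1 N q x + (i : ZMod N) = ((x.val / q * q + i : ℕ) : ZMod N) := by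
    unfold cr1
    push_cast
    ring
  unfold cr1 at e1 ⊢
  rw [e1, val_cast_lt h1]
  have e2 : (x.val / q * q + i) / q = x.val / q := by
    rw [mul_comm, Nat.mul_add_div (by omega), Nat.div_eq_of_lt hi, add_zero]
  rw [e2]

/-- sums over an initial segment made of cells vanish -/
lemma block_zero {q : ℕ} (hq : 1 ≤ q) (f : ZMod N → ℝ)
    (h0 : ∀ x, ∑ i ∈ range q, f (cr1 N q x + (i : ZMod N)) = 0) (m : ℕ) (hm : m * q ≤ N) :
    ∑ i ∈ range (m * q), f (i : ZMod N) = 0 := by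
  induction m with
  | zero => simp
  | succ m ih =>
    have h1 : m * q ≤ N := by
      rw [add_mul] at hm
      omega
    have h2 : m * q < N := by
      rw [add_mul] at hm
      omega
    rw [add_mul, one_mul, sum_range_add, ih h1, zero_add]
    have h3 := h0 ((m * q : ℕ) : ZMod N)
    unfold cr1 at h3
    rw [val_cast_lt h2, Nat.mul_div_cancel _ (by omega)] at h3
    rw [← h3]
    refine sum_congr rfl fun i _ => ?_
    congr 1
    push_cast
    ring

/-- **flow on the circle, inside the aligned intervals** -/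
theorem flow_one {q : ℕ} (hq : 1 ≤ q) (hd : q ∣ N) (f : ZMod N → ℝ)
    (h0 : ∀ x, ∑ i ∈ range q, f (cr1 N q x + (i : ZMod N)) = 0) {B : ℝ} (hB : ∀ x, |f x| ≤ B) :
    ∃ g : ZMod N → ℝ, (∀ x, f x = g (x - 1) - g x) ∧ ∀ x, |g x| ≤ q * B := by
  have hN0 : 0 < N := Nat.pos_of_ne_zero (NeZero.ne N)
  have hB0 : 0 ≤ B := (abs_nonneg _).trans (hB 0)
  refine ⟨fun x => -∑ i ∈ range (x.val + 1), f (i : ZMod N), fun x => ?_, fun x => ?_⟩
  · simp only
    by_cases hx : x = 0
    · subst hx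
      have h1 : ((0 : ZMod N) - 1).val + 1 = N := by
        rw [zero_sub]
        obtain ⟨n, rfl⟩ : ∃ n, N = n + 1 := ⟨N - 1, by omega⟩
        rw [ZMod.val_neg_one]
      have h2 : ∑ i ∈ range N, f (i : ZMod N) = 0 := by
        obtain ⟨m, hm⟩ := hd
        have := block_zero hq f h0 m (by rw [hm, mul_comm])
        rwa [mul_comm, ← hm] at this
      rw [h1, h2]
      simp
    · have h1 : 1 ≤ x.val := by
        by_contra h
        exact hx ((ZMod.val_eq_zero x).1 (by omega))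
      have h2 : (x - 1).val = x.val - 1 := by
        have e1 : x - 1 = ((x.val - 1 : ℕ) : ZMod N) := by
          rw [Nat.cast_sub h1, ZMod.natCast_val, ZMod.cast_id', id, Nat.cast_one]
        rw [e1, val_cast_lt (by
          have := ZMod.val_lt x
          omega)]
      rw [h2, show x.val - 1 + 1 = x.val by omega, sum_range_succ]
      have e2 : ((x.val : ℕ) : ZMod N) = x := by simp
      rw [e2]
      ring
  · simp only
    rw [abs_neg]
    have h1 : x.val + 1 = x.val / q * q + (x.val % q + 1) := by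
      have := Nat.div_add_mod' x.val q
      omega
    have h2 : x.val / q * q ≤ N := by
      have := Nat.div_mul_le_self x.val q
      have := ZMod.val_lt x
      omega
    rw [h1, sum_range_add, block_zero hq f h0 _ h2, zero_add]
    refine (abs_sum_le_sum_abs _ _).trans ((sum_le_sum fun i _ => hB _).trans ?_)
    rw [sum_const, card_range, nsmul_eq_mul]
    refine mul_le_mul_of_nonneg_right ?_ hB0
    have := Nat.mod_lt x.val (show 0 < q by omega)
    exact_mod_cast this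

/-! ### two dimensions -/

/-- corner of the aligned cell of side `q` -/
def crq (N q : ℕ) [NeZero N] (x : V N) : V N := (cr1 N q x.1, cr1 N q x.2)

/-- average over the aligned cell -/
def cav (N q : ℕ) [NeZero N] (h : V N → ℝ) (x : V N) : ℝ := bxT N q h (crq N q x)

/-- row mean inside the aligned interval -/
def rmq (N q : ℕ) [NeZero N] (y : V N → ℝ) (x : V N) : ℝ :=
  (q : ℝ)⁻¹ * ∑ i ∈ range q, y (cr1 N q x.1 + (i : ZMod N), x.2)

/-- **cell flow** -/
theorem cell_flow {q : ℕ} (hq : 1 ≤ q) (hd : q ∣ N) (y : V N → ℝ)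
    (h0 : ∀ x, ∑ i ∈ range q, ∑ j ∈ range q, y (crq N q x + ((i : ZMod N), (j : ZMod N))) = 0)
    {B : ℝ} (hB : ∀ x, |y x| ≤ B) :
    ∃ c : V N → Bool → ℝ, (∀ x, y x = dvT c x) ∧ ∀ x s, |c x s| ≤ 2 * (q * B) := by
  have hq0 : (0 : ℝ) < q := by exact_mod_cast hq
  have hB0 : 0 ≤ B := (abs_nonneg _).trans (hB 0)
  have hr : ∀ x, |rmq N q y x| ≤ B := by
    intro x
    unfold rmq
    rw [abs_mul, abs_of_pos (by positivity : 0 < (q : ℝ)⁻¹)]
    have h1 : |∑ i ∈ range q, y (cr1 N q x.1 + (i : ZMod N), x.2)| ≤ q * B := by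
      refine (abs_sum_le_sum_abs _ _).trans ((sum_le_sum fun i _ => hB _).trans ?_)
      rw [sum_const, card_range, nsmul_eq_mul]
    calc (q : ℝ)⁻¹ * _ ≤ (q : ℝ)⁻¹ * (q * B) := mul_le_mul_of_nonneg_left h1 (by positivity)
      _ = B := by field_simp
  -- rows
  have hrow : ∀ x2 : ZMod N, ∃ g : ZMod N → ℝ,
      (∀ x1, y (x1, x2) - rmq N q y (x1, x2) = g (x1 - 1) - g x1) ∧ ∀ x1, |g x1| ≤ q * (2 * B) := by
    intro x2
    refine flow_one hq hd (fun x1 => y (x1, x2) - rmq N q y (x1, x2)) (fun x1 => ?_) fun x1 => ?_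
    · rw [sum_sub_distrib]
      have e1 : ∀ i ∈ range q, rmq N q y (cr1 N q x1 + (i : ZMod N), x2) = rmq N q y (x1, x2) := by
        intro i hi
        unfold rmq
        simp only
        rw [cr1_add hq hd x1 (mem_range.1 hi)]
      rw [sum_congr rfl e1, sum_const, card_range, nsmul_eq_mul]
      unfold rmq
      simp only
      field_simp
      ring
    · have h1 := abs_le.1 (hB (x1, x2))
      have h2 := abs_le.1 (hr (x1, x2))
      rw [abs_le]
      constructor <;> linarith [h1.1, h1.2, h2.1, h2.2]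
  -- columns
  have hcol : ∀ x1 : ZMod N, ∃ g : ZMod N → ℝ,
      (∀ x2, rmq N q y (x1, x2) = g (x2 - 1) - g x2) ∧ ∀ x2, |g x2| ≤ q * B := by
    intro x1
    refine flow_one hq hd (fun x2 => rmq N q y (x1, x2)) (fun x2 => ?_) fun x2 => hr _
    unfold rmq
    simp only
    rw [← mul_sum, sum_comm]
    have h1 := h0 (x1, x2)
    have e1 : ∑ i ∈ range q, ∑ j ∈ range q, y (cr1 N q x1 + (i : ZMod N), cr1 N q x2 + (j : ZMod N)) =
        ∑ i ∈ range q, ∑ j ∈ range q, y (crq N q (x1, x2) + ((i : ZMod N), (j : ZMod N))) := rfl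
    rw [e1, h1, mul_zero]
  choose g hg1 hg2 using hrow
  choose g' hg1' hg2' using hcol
  refine ⟨fun x s => if s then g x.2 x.1 else g' x.1 x.2, fun x => ?_, fun x s => ?_⟩
  · unfold dvT
    simp only [if_true, Bool.false_eq_true, if_false, Prod.fst_sub, Prod.snd_sub, sub_zero]
    rw [← hg1 x.2 x.1, ← hg1' x.1 x.2]
    ring
  · cases s
    · simp only [Bool.false_eq_true, if_false]
      have := hg2' x.1 x.2
      have h3 : 0 ≤ (q : ℝ) * B := by positivity
      linarith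
    · simp only [if_true]
      have := hg2 x.2 x.1
      linarith

lemma crq_add {q : ℕ} (hq : 1 ≤ q) (hd : q ∣ N) (x : V N) {i j : ℕ} (hi : i < q) (hj : j < q) :
    crq N q (crq N q x + ((i : ZMod N), (j : ZMod N))) = crq N q x := by
  unfold crq
  simp only [Prod.mk_add_mk]
  rw [cr1_add hq hd x.1 hi, cr1_add hq hd x.2 hj]

lemma cav_addc {q : ℕ} (hq : 1 ≤ q) (h : V N → ℝ) (c : ℝ) :
    cav N q (fun x => h x + c) = fun x => cav N q h x + c := by
  funext x
  unfold cav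
  rw [bxT_addc hq]

lemma abs_bxT_le {q : ℕ} (hq : 1 ≤ q) {h : V N → ℝ} {B : ℝ} (hB : ∀ x, |h x| ≤ B) (x : V N) :
    |bxT N q h x| ≤ B := by
  have hq0 : (0 : ℝ) < q := by exact_mod_cast hq
  unfold bxT
  rw [abs_mul, abs_of_pos (by positivity : 0 < ((q : ℝ) ^ 2)⁻¹)]
  have h1 : |∑ i ∈ range q, ∑ j ∈ range q, h (x + ((i : ZMod N), (j : ZMod N)))| ≤
      ∑ i ∈ range q, ∑ j ∈ range q, B := by
    refine (abs_sum_le_sum_abs _ _).trans (sum_le_sum fun i _ => ?_)
    exact (abs_sum_le_sum_abs _ _).trans (sum_le_sum fun j _ => hB _)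
  refine (mul_le_mul_of_nonneg_left h1 (by positivity)).trans (le_of_eq ?_)
  simp only [sum_const, card_range, nsmul_eq_mul]
  field_simp

lemma abs_cav_le {q : ℕ} (hq : 1 ≤ q) {h : V N → ℝ} {B : ℝ} (hB : ∀ x, |h x| ≤ B) (x : V N) :
    |cav N q h x| ≤ B := abs_bxT_le hq hB _

/-- the cell sums of `h - cav h` vanish -/
lemma cell_sum {q : ℕ} (hq : 1 ≤ q) (hd : q ∣ N) (h : V N → ℝ) (x : V N) :
    ∑ i ∈ range q, ∑ j ∈ range q, (h (crq N q x + ((i : ZMod N), (j : ZMod N))) -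
      cav N q h (crq N q x + ((i : ZMod N), (j : ZMod N)))) = 0 := by
  have hq0 : (q : ℝ) ≠ 0 := by
    have : (0 : ℝ) < q := by exact_mod_cast hq
    exact this.ne'
  have e1 : ∀ i ∈ range q, ∀ j ∈ range q, cav N q h (crq N q x + ((i : ZMod N), (j : ZMod N))) =
      cav N q h x := by
    intro i hi j hj
    unfold cav
    rw [crq_add hq hd x (mem_range.1 hi) (mem_range.1 hj)]
  have e2 : ∑ i ∈ range q, ∑ j ∈ range q, cav N q h (crq N q x + ((i : ZMod N), (j : ZMod N))) =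
      (q : ℝ) ^ 2 * cav N q h x := by
    rw [sum_congr rfl fun i hi => sum_congr rfl fun j hj => e1 i hi j hj]
    simp only [sum_const, card_range, nsmul_eq_mul]
    ring
  simp only [sum_sub_distrib]
  rw [e2]
  unfold cav bxT
  field_simp
  ring

/-- **the rough part `h - T P h` is the divergence of a flow of size `5 q sup |h - c|`** -/
theorem tp_flow {q : ℕ} (hq : 1 ≤ q) (hd : q ∣ N) (h : V N → ℝ) {c A : ℝ}
    (hA : ∀ x, |h x - c| ≤ A) :
    ∃ j : V N → Bool → ℝ, (∀ x, h x - bxT N q (cav N q h) x = dvT j x) ∧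
      ∀ x s, |j x s| ≤ 5 * (q * A) := by
  have hA' : ∀ x, |h x + -c| ≤ A := fun x => by simpa [sub_eq_add_neg] using hA x
  have h1 : ∀ x, |cav N q h x - c| ≤ A := by
    intro x
    have := abs_cav_le hq hA' x
    rw [cav_addc hq] at this
    simpa [sub_eq_add_neg] using this
  obtain ⟨j1, h2, h3⟩ := bx_flow hq (cav N q h) h1
  obtain ⟨j2, h4, h5⟩ := cell_flow hq hd (fun x => h x - cav N q h x) (cell_sum hq hd h)
    (B := 2 * A) (fun x => by
      have g1 := abs_le.1 (hA x)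
      have g2 := abs_le.1 (h1 x)
      rw [abs_le]
      constructor <;> linarith [g1.1, g1.2, g2.1, g2.2])
  refine ⟨fun x s => j1 x s + j2 x s, fun x => ?_, fun x s => ?_⟩
  · have e1 := h2 x
    have e2 := h4 x
    unfold dvT at e1 e2 ⊢
    linarith
  · have := abs_add_le (j1 x s) (j2 x s)
    have g1 := h3 x s
    have g2 := h5 x s
    linarith

lemma sum_dvT (c : V N → Bool → ℝ) : ∑ x, dvT c x = 0 := by
  unfold dvT
  rw [sum_add_distrib, sum_sub_distrib, sum_sub_distrib]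
  have e1 : ∑ x : V N, c (x - (1, 0)) true = ∑ x, c x true :=
    Equiv.sum_comp (Equiv.subRight ((1, 0) : V N)) fun x => c x true
  have e2 : ∑ x : V N, c (x - (0, 1)) false = ∑ x, c x false :=
    Equiv.sum_comp (Equiv.subRight ((0, 1) : V N)) fun x => c x false
  rw [e1, e2]
  ring

/-- the non quadratic part at `s (h - T P h)` -/
theorem Rs_tp {b t : ℝ} (hb : 0 ≤ b) (ht : 0 < t) (x₀ : V N) {q : ℕ} (hq : 1 ≤ q) (hd : q ∣ N)
    (h : V N → ℝ) {c A s : ℝ} (hA : ∀ x, |h x - c| ≤ A) (hs : 0 ≤ s)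
    (h1 : s * t * (5 * (q * A)) ≤ 1) :
    Rs (H963.nwt N b t x₀) (ntr (t • (1 : Matrix (V N) (V N) ℝ)) t *ᵥ
        (s • (h - bxT N q (cav N q h)))) ≤
      (b + 6 * max b 1 ^ 2) * (2 * (N * (s * t * (5 * (q * A)))) ^ 2) := by
  obtain ⟨j, hj, hj1⟩ := tp_flow hq hd h hA
  have e0 : ∑ x, (s • (h - bxT N q (cav N q h))) x = 0 := by
    simp only [Pi.smul_apply, Pi.sub_apply, smul_eq_mul]
    rw [← mul_sum]
    simp only [hj]
    rw [sum_dvT, mul_zero]
  rw [ntr_neutral e0]
  refine Rs_flow hb ht x₀ _ (fun x u => s * t * j x u) h1 (fun x u => ?_) fun x => ?_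
  · rw [abs_mul, abs_of_nonneg (by positivity)]
    exact mul_le_mul_of_nonneg_left (hj1 x u) (by positivity)
  · simp only [Pi.smul_apply, Pi.sub_apply, smul_eq_mul, hj x]
    unfold dvT
    ring

/-- **Ed3 (ii)**: the rough part `(h - f) - T P (h - f)` under the massless dislocated law -/
theorem rough_tail2 {R : ℕ} (hR : N = 2 ^ R) {b t : ℝ} (hb : 0 < b) (ht : 0 < t) {η : Ed N → ℤ}
    (f : V N → ℝ) {x₀ : V N} {K0 : ℝ} (hX : ExpD N b η x₀ K0) (hK0 : 0 ≤ K0) {A D s ρ : ℝ}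
    (hD : nrm (fun e => (η e : ℝ) + gr f e) ≤ D) {q : ℕ} (hq : 1 ≤ q) (hd : q ∣ N) (hs : 0 ≤ s)
    (h1 : s * t * (5 * (q * A)) ≤ 1)
    (hρ : (b + 6 * max b 1 ^ 2) * (2 * (N * (s * t * (5 * (q * A)))) ^ 2) ≤ ρ) :
    ∑' h, Set.indicator {h : V N → ℤ | ρ < Rs (H963.nwt N b t x₀)
        (ntr (t • (1 : Matrix (V N) (V N) ℝ)) t *ᵥ (s • ((fun x => (h x : ℝ) - f x) -
          bxT N q (cav N q fun x => (h x : ℝ) - f x))))} (pin (wTD N b η) x₀) h ≤
      2 * (N : ℝ) ^ 2 * (K0 * Real.exp ((3 * b / 4 + 3 / 8) * (R : ℝ) ^ 2 + D / 2 - A / 2)) *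
        Zp (wTD N b η) x₀ := by
  have hwnn : ∀ h, 0 ≤ pin (wTD N b η) x₀ h :=
    H963.pin_nonneg (fun h => (H770.wTD_pos hb η h).le) x₀
  have hw : Summable (pin (wTD N b η) x₀) := by
    have := (H883.bw_wTD hb η).em0 x₀
    simpa using this.sum 0
  refine le_trans (Summable.tsum_le_tsum (fun h => ?_) (hw.indicator _) (hw.indicator _))
    (sup_tail hR hb f hX hK0 (A := A) hD)
  refine Set.indicator_le_indicator_of_subset (fun h hh => ?_) (fun h => hwnn h) h
  by_contra hc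
  have hA : ∀ x, |((h x : ℝ) - f x) - mnT fun y => (h y : ℝ) - f y| ≤ A := by
    intro x
    by_contra h2
    exact hc ⟨x, not_le.1 h2⟩
  have h3 := Rs_tp hb.le ht x₀ hq hd (fun x => (h x : ℝ) - f x) hA hs h1
  exact absurd (h3.trans hρ) (not_le.2 hh)

end

end Vale.Agent.P159.H276
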