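import Vale.Agent.P159.H276.DownT
import Vale.Agent.P159.H30.D2
import Vale.Agent.P159.H859.Gtr
import Vale.Agent.P159.H692.FB

/-!
P159 / module ETA (helper276), part 1: the cumulant part at the posterior mass `τ` of a cell source
from the one at the natural mass `t <= τ` (neutral torus model, scalar masses).

`eta1` : for `φ` neutral on the cells of side `l`, `E φ = φ - (τ - t) Gnc φ`,
`R_τ(Cᵀ φ) <= R_t(2 Cᵀ (E φ)) / 2 + <φ, Wt φ>`,
`Wt = Gc l (Wm t τ) / 2 + 16 b (τ - t)² l² / t * Gnc τ` (symmetric, translation invariant, psd).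
`eta2` : the same from the integer model at the mass `t` with the constants `a ∈ [0, 1]`.
-/

namespace Vale.Agent.P159.H276

open Finset Matrix MeasureTheory ProbabilityTheory
open Vale.Agent.P159.TM.H104 (EM Ex Cv K3 Lg li nh Gr)
open Vale.Agent.P159.H37
open Vale.Agent.P159.TM.H764 (EE cN sN dt grd)
open Vale.Agent.P159.TM.Spec (V)
open Vale.Agent.P159.TM.SpecC (wT)
open Vale.Agent.P159.H864 (TI sym fc ti_fc sym_fc Gc cobV qf_le_iff lapM)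
open Vale.Agent.P159.H963
open Vale.Agent.P159.H859 (Rk ti_Rk sym_Rk)

noncomputable section

section raise

variable {N : ℕ} [NeZero N] {b : ℝ}

/-- lowering the mass without the free energy defect (692's `raise`) -/
theorem raise_n (hb : 0 < b) {t τ : ℝ} (ht : 0 < t) (h : t ≤ τ) {J e : V N → ℝ} (hJ : Neu J)
    (he : e = J - (τ - t) • (Gn N b τ *ᵥ J)) :
    Rs (nwt N b τ 0) J ≤ Rs (nwt N b t 0) e + qf (Wm N b t τ) e / 2 := by
  have hτ : 0 < τ := ht.trans_le h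
  have hq : 0 ≤ τ - t := by linarith
  have hp := post_chn (N := N) b h
  have he' : e = J - (chn N (τ - t))ᵀ *ᵥ
      (chn N (τ - t) *ᵥ (Gm (post (nwt N b t 0) (chn N (τ - t))) *ᵥ J)) := by
    rw [hp, chn_src τ hq hJ, he]
  have h1 := H692.raise (H963.em_nwt hb.le ht 0) (H963.ev_nwt hb.le t 0) (chn N (τ - t))
    (by rw [hp]; exact H963.pk_nwt hb.le hτ 0) he'
  rw [hp] at h1
  have hne : Neu e := by
    rw [he]
    exact hJ.sub ((neu_Gn τ J).smul _)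
  have h3 : qf (Gm (nwt N b t 0)) e = qf (Gn N b t) e := (H963.qf_Gn_neu N b t hne).symm
  have h4 : bf (Gm (nwt N b τ 0)) J e = qf (lin N b τ (τ - t)) e := by
    rw [bf_Gm_neu τ hJ hne]
    have e1 : e = (1 - (τ - t) • Gn N b τ) *ᵥ J := by
      rw [Matrix.sub_mulVec, Matrix.one_mulVec, Matrix.smul_mulVec, he]
    have e2 : lin N b τ (τ - t) *ᵥ e = Gn N b τ *ᵥ J := by
      rw [e1, mulVec_mulVec, lin_mul hb.le hτ hq (by linarith)]
    have tG := H963.ti_Gn (N := N) hb.le hτ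
    rw [H37.qf_eq, e2, H37.bf_eq, dotProduct_mulVec J, ← mulVec_transpose, tG.transpose,
      dotProduct_comm]
  have h5 : qf (Wm N b t τ) e = qf (Gn N b t) e - qf (lin N b τ (τ - t)) e := by
    unfold Wm
    rw [H864.qf_sub_mat]
  rw [h3, h4] at h1
  rw [h5]
  linarith

/-- the response does not increase along `1 - q G` -/
lemma qf_Wm_le (hb : 0 < b) {t τ : ℝ} (ht : 0 < t) (h : t ≤ τ) {J e : V N → ℝ}
    (he : e = J - (τ - t) • (Gn N b τ *ᵥ J)) :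
    qf (Wm N b t τ) e ≤ qf (Wm N b t τ) J := by
  have hτ : 0 < τ := ht.trans_le h
  have hq : 0 ≤ τ - t := by linarith
  have tG := H963.ti_Gn (N := N) hb.le hτ
  have tW := ti_Wm (N := N) hb.le ht τ
  have t1 : TI (1 - (τ - t) • Gn N b τ : Matrix (V N) (V N) ℝ) := TI.one.sub (tG.smul _)
  have e1 : e = (1 - (τ - t) • Gn N b τ) *ᵥ J := by
    rw [Matrix.sub_mulVec, Matrix.one_mulVec, Matrix.smul_mulVec, he]
  have e2 : qf (Wm N b t τ) e =
      qf ((1 - (τ - t) • Gn N b τ) * Wm N b t τ * (1 - (τ - t) • Gn N b τ)) J := by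
    rw [e1, H37.qf_eq, H37.qf_eq, ← mulVec_mulVec, ← mulVec_mulVec, dotProduct_mulVec J,
      ← mulVec_transpose, t1.transpose]
  rw [e2]
  refine (qf_le_iff ((t1.mul tW).mul t1) tW).2 (fun k => ?_) J
  rw [H864.sym_mul (t1.mul tW) t1, H864.sym_mul t1 tW, H864.sym_sub, H864.sym_one,
    H864.sym_smul, sym_Gn_eq]
  have h1 := one_sub_pos (N := N) hb.le hτ (q := τ - t) (by linarith) hq k
  have h2 := H963.Gnh_nonneg (N := N) hb.le hτ k
  have h3 := sym_Wm_nonneg (N := N) hb.le ht h k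
  have h4 : 1 - (τ - t) * Gnh N b τ k ≤ 1 := by
    have := mul_nonneg hq h2
    linarith
  calc (1 - (τ - t) * Gnh N b τ k) * sym (Wm N b t τ) k * (1 - (τ - t) * Gnh N b τ k)
      ≤ 1 * sym (Wm N b t τ) k * 1 := by
        refine mul_le_mul (mul_le_mul_of_nonneg_right h4 h3) h4 h1.le ?_
        rw [one_mul]
        exact h3
    _ = _ := by ring

/-- bare domination of the site symbols -/
theorem Gnh_dom (hb : 0 < b) {τ : ℝ} (hτ : 0 < τ) (k : V N) :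
    Gnh N b τ k ≤ (τ + 1 / b * EE k)⁻¹ := by
  have hκ : (0 : ℝ) ≤ 1 / b := by positivity
  have hpos : 0 < τ + 1 / b * EE k := by
    have := mul_nonneg hκ (TM.H764.EE_nonneg k)
    linarith
  by_cases hk : k = 0
  · rw [hk, H963.Gnh_zero, ← hk]
    exact (inv_pos.2 hpos).le
  · have key : ∀ u : V N → ℝ, Neu u → qf (Gn N b τ) u ≤ qf (Rk τ (1 / b)) u := by
      intro u hu
      rw [H963.qf_Gn_neu N b τ hu]
      exact H859.gmn_le_res hb.le (H963.mf_smul hτ) (0 : V N) hκ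
        (by rw [mul_one_div_cancel hb.ne']) hu
    rw [← sym_Rk hτ hκ]
    exact H963.sym_le_of_waves' (H963.ti_Gn hb.le hτ) (ti_Rk _ _)
      (key _ (H963.neu_cN hk)) (key _ (H963.neu_sN k))

/-- the gradient of the mean -/
theorem grd_Gn (hb : 0 < b) {τ : ℝ} (hτ : 0 < τ) (J : V N → ℝ) :
    grd (Gn N b τ *ᵥ J) ≤ b * qf (Gn N b τ) J := by
  have tG := H963.ti_Gn (N := N) hb.le hτ
  have e1 : grd (Gn N b τ *ᵥ J) = qf (Gn N b τ * lapM * Gn N b τ) J := by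
    rw [← H864.qf_lapM, H37.qf_eq, H37.qf_eq, ← mulVec_mulVec, ← mulVec_mulVec,
      dotProduct_mulVec J, ← mulVec_transpose, tG.transpose]
  rw [e1, ← H864.qf_smul_mat]
  refine (qf_le_iff ((tG.mul H864.ti_lapM).mul tG) (tG.smul b)).2 (fun k => ?_) J
  rw [H864.sym_mul (tG.mul H864.ti_lapM) tG, H864.sym_mul tG H864.ti_lapM, H864.sym_smul,
    sym_Gn_eq, H864.sym_lapM]
  have h1 := Gnh_dom (N := N) hb hτ k
  have h2 := H963.Gnh_nonneg (N := N) hb.le hτ k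
  have h3 := TM.H764.EE_nonneg k
  have hpos : 0 < τ + 1 / b * EE k := by
    have := mul_nonneg (show (0 : ℝ) ≤ 1 / b by positivity) h3
    linarith
  have h4 : EE k * Gnh N b τ k ≤ b := by
    refine (mul_le_mul_of_nonneg_left h1 h3).trans ?_
    rw [← div_eq_mul_inv, div_le_iff₀ hpos]
    have h5 : b * (τ + 1 / b * EE k) = b * τ + EE k := by
      field_simp
    rw [h5]
    have := mul_pos hb hτ
    linarith
  calc Gnh N b τ k * EE k * Gnh N b τ k = (EE k * Gnh N b τ k) * Gnh N b τ k := by ring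
    _ ≤ b * Gnh N b τ k := mul_le_mul_of_nonneg_right h4 h2

end raise

section cells

variable {N l : ℕ} [NeZero N] [NeZero (N / l)] {b : ℝ}

/-- the quadratic loss of ETA -/
def Wt (N l : ℕ) [NeZero N] [NeZero (N / l)] (b t τ : ℝ) : Matrix (V (N / l)) (V (N / l)) ℝ :=
  (1 / 2 : ℝ) • Gc l (Wm N b t τ) + (16 * b * (τ - t) ^ 2 * (l : ℝ) ^ 2 / t) • Gnc N l b τ τ

/-- the source seen at the mass `t` -/
def Eop (N l : ℕ) [NeZero N] [NeZero (N / l)] (b t τ : ℝ) : Matrix (V (N / l)) (V (N / l)) ℝ :=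
  1 - (τ - t) • Gnc N l b τ τ

lemma Eop_mulVec (t τ : ℝ) (φ : V (N / l) → ℝ) :
    Eop N l b t τ *ᵥ φ = φ - (τ - t) • (Gnc N l b τ τ *ᵥ φ) := by
  unfold Eop
  rw [Matrix.sub_mulVec, Matrix.one_mulVec, Matrix.smul_mulVec]

lemma neu_cellP (hl : l ∣ N) {u : V N → ℝ} (hu : Neu u) : Neu (cellP N l *ᵥ u) := by
  have h1 : ∑ x, (cellP N l *ᵥ u) x = (fun _ => (1 : ℝ)) ⬝ᵥ (cellP N l *ᵥ u) := by
    simp [dotProduct]
  unfold Neu at hu ⊢
  rw [h1, dotProduct_mulVec, ← mulVec_transpose, H864.cellP_tr, H864.cellP_one hl]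
  simpa [dotProduct] using hu

/-- the cell part of the new source -/
lemma src_split (hl : l ∣ N) {τ : ℝ} (t : ℝ) {φ : V (N / l) → ℝ} {J e : V N → ℝ}
    (hJ : J = (cobV N l)ᵀ *ᵥ φ) (he : e = J - (τ - t) • (Gn N b τ *ᵥ J)) :
    e = (cobV N l)ᵀ *ᵥ (Eop N l b t τ *ᵥ φ) +
      (-(τ - t)) • ((1 - cellP N l) *ᵥ (Gn N b τ *ᵥ J)) := by
  have h1 : (cobV N l)ᵀ *ᵥ (Gnc N l b τ τ *ᵥ φ) = cellP N l *ᵥ (Gn N b τ *ᵥ J) := by
    rw [H963.Gnc_self, H864.cellP_eq hl, hJ]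
    unfold Gc
    simp only [mulVec_mulVec, Matrix.mul_assoc]
  rw [Eop_mulVec, mulVec_sub, mulVec_smul, h1, he, Matrix.sub_mulVec, Matrix.one_mulVec, ← hJ]
  module

/-- the part of the source inside the cells costs little -/
lemma Rs_fine (hb : 0 < b) (hl : l ∣ N) {t τ : ℝ} (ht : 0 < t) (h : t ≤ τ) (J : V N → ℝ) :
    Rs (nwt N b t 0) ((2 : ℝ) • ((-(τ - t)) • ((1 - cellP N l) *ᵥ (Gn N b τ *ᵥ J)))) ≤
      32 * b * (τ - t) ^ 2 * (l : ℝ) ^ 2 / t * qf (Gn N b τ) J := by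
  have hτ : 0 < τ := ht.trans_le h
  set g : V N → ℝ := Gn N b τ *ᵥ J with hg
  have hgn : Neu g := neu_Gn τ J
  set v : V N → ℝ := (1 - cellP N l) *ᵥ g with hv
  have hvn : Neu v := by
    rw [hv, Matrix.sub_mulVec, Matrix.one_mulVec]
    exact hgn.sub (neu_cellP hl hgn)
  have hw : Neu ((2 : ℝ) • ((-(τ - t)) • v)) := (hvn.smul _).smul _
  have h1 := H30.Lg_nwt_le (N := N) hb.le ht 0 hw
  have h2 : 0 ≤ qf (Gm (nwt N b t 0)) ((2 : ℝ) • ((-(τ - t)) • v)) := by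
    rw [← H963.qf_Gn_neu N b t hw]
    exact Gn_psd hb.le ht _
  have h3 : ∑ x, ((2 : ℝ) • ((-(τ - t)) • v)) x ^ 2 = 4 * (τ - t) ^ 2 * ∑ x, v x ^ 2 := by
    rw [Finset.mul_sum]
    refine Finset.sum_congr rfl fun x _ => ?_
    simp only [Pi.smul_apply, smul_eq_mul]
    ring
  have h4 : ∑ x, v x ^ 2 ≤ 16 * (l : ℝ) ^ 2 * grd g := by
    refine le_trans (le_of_eq ?_) (H859.poin_cellP hl g)
    refine Finset.sum_congr rfl fun x _ => ?_
    rw [hv, Matrix.sub_mulVec, Matrix.one_mulVec]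
    rfl
  have h5 := grd_Gn (N := N) hb hτ J
  have h6 : ∑ x, v x ^ 2 ≤ 16 * (l : ℝ) ^ 2 * (b * qf (Gn N b τ) J) :=
    h4.trans (mul_le_mul_of_nonneg_left h5 (by positivity))
  rw [h3] at h1
  have h7 : 4 * (τ - t) ^ 2 * ∑ x, v x ^ 2 ≤
      4 * (τ - t) ^ 2 * (16 * (l : ℝ) ^ 2 * (b * qf (Gn N b τ) J)) :=
    mul_le_mul_of_nonneg_left h6 (by positivity)
  have h8 : 4 * (τ - t) ^ 2 * (∑ x, v x ^ 2) / (2 * t) ≤
      32 * b * (τ - t) ^ 2 * (l : ℝ) ^ 2 / t * qf (Gn N b τ) J := by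
    rw [div_le_iff₀ (by positivity)]
    refine h7.trans (le_of_eq ?_)
    field_simp
    ring
  unfold Rs
  linarith

/-- **ETA, neutral form** -/
theorem eta1 (hb : 0 < b) (hl : l ∣ N) {t τ : ℝ} (ht : 0 < t) (h : t ≤ τ) {φ : V (N / l) → ℝ}
    (hφ : Neu φ) :
    Rs (nwt N b τ 0) ((cobV N l)ᵀ *ᵥ φ) ≤
      Rs (nwt N b t 0) ((2 : ℝ) • ((cobV N l)ᵀ *ᵥ (Eop N l b t τ *ᵥ φ))) / 2 +
        qf (Wt N l b t τ) φ := by
  have hJ : Neu ((cobV N l)ᵀ *ᵥ φ) := H963.neu_cobV_tr hl hφ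
  set J : V N → ℝ := (cobV N l)ᵀ *ᵥ φ with hJd
  have h1 := raise_n hb ht h hJ rfl
  have h2 := qf_Wm_le (N := N) hb ht h (J := J) rfl
  have h3 := src_split (b := b) hl (τ := τ) t hJd rfl
  have h4 := H692.Rs_add_le_two (H963.em_nwt (N := N) hb.le ht 0) (H963.ev_nwt hb.le t 0)
    (H963.pk_nwt hb.le ht 0) ((cobV N l)ᵀ *ᵥ (Eop N l b t τ *ᵥ φ))
    ((-(τ - t)) • ((1 - cellP N l) *ᵥ (Gn N b τ *ᵥ J)))
  rw [← h3] at h4
  have h5 := Rs_fine (N := N) hb hl ht h J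
  have h6 : qf (Gnc N l b τ τ) φ = qf (Gn N b τ) J := by
    rw [H963.Gnc_self, H864.qf_Gc]
  have h7 : qf (Gc l (Wm N b t τ)) φ = qf (Wm N b t τ) J := by
    rw [H864.qf_Gc]
  have h8 : qf (Wt N l b t τ) φ = 1 / 2 * qf (Wm N b t τ) J +
      16 * b * (τ - t) ^ 2 * (l : ℝ) ^ 2 / t * qf (Gn N b τ) J := by
    unfold Wt
    rw [H37.qf_add_mat, H864.qf_smul_mat, H864.qf_smul_mat, h6, h7]
  rw [h8]
  have h9 : 32 * b * (τ - t) ^ 2 * (l : ℝ) ^ 2 / t * qf (Gn N b τ) J =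
      2 * (16 * b * (τ - t) ^ 2 * (l : ℝ) ^ 2 / t * qf (Gn N b τ) J) := by ring
  rw [h9] at h5
  linarith

/-- **ETA, integer form** -/
theorem eta2 (hb : 0 < b) (hl : l ∣ N) {t τ : ℝ} (ht : 0 < t) (h : t ≤ τ) {φ : V (N / l) → ℝ}
    (hφ : Neu φ) (hφ' : Neu (Eop N l b t τ *ᵥ φ)) {η : ℝ}
    (H : ∀ a : ℝ, 0 ≤ a → a ≤ 1 → Rs (wt N b t) (fun x =>
      2 * ((cobV N l)ᵀ *ᵥ (Eop N l b t τ *ᵥ φ)) x + t * a) ≤ η) :
    Rs (nwt N b τ 0) ((cobV N l)ᵀ *ᵥ φ) ≤ η / 2 + qf (Wt N l b t τ) φ := by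
  have h1 := eta1 hb hl ht h hφ
  have hn : Neu ((cobV N l)ᵀ *ᵥ (Eop N l b t τ *ᵥ φ)) := H963.neu_cobV_tr hl hφ'
  have h2 := H30.Rs_nwt_le (N := N) hb.le ht 0
    (F := (2 / t) • ((cobV N l)ᵀ *ᵥ (Eop N l b t τ *ᵥ φ))) (hn.smul _) (η := η) (by
      intro c h0 h1
      have h3 := H c h0 h1
      refine le_trans (le_of_eq ?_) h3
      congr 1
      funext x
      simp only [Pi.smul_apply, smul_eq_mul]
      field_simp)
  have e1 : t • ((2 / t) • ((cobV N l)ᵀ *ᵥ (Eop N l b t τ *ᵥ φ))) =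
      (2 : ℝ) • ((cobV N l)ᵀ *ᵥ (Eop N l b t τ *ᵥ φ)) := by
    rw [smul_smul, mul_div_cancel₀ _ ht.ne']
  rw [e1] at h2
  linarith

end cells

end

end Vale.Agent.P159.H276
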