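import Vale.Agent.P159.H276.Nu4

/-!
P159 / numbers of the AP step (helper276), part 5: **`BNum` holds** for small sizes, exponents in
the order `x1, thp, th, C0, (K0, K2), es`.
-/

set_option linter.unusedSectionVars false

namespace Vale.Agent.P159.H276

open Vale.Agent.P159.H972
open Vale.Agent.P159.H145 (absorb exp_absorb log_le_pow rpow_anti one_le_rpow_neg pow_base
  two_lg_ge two_lg_le)
open Vale.Agent.P159.H447 (cl)
open Vale.Agent.P159.H663 (GN kap kap_pos kap_le pG)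
open Vale.Agent.P159.H730 (AptN QD QD_pos)

noncomputable section

variable {P : Par} {n m r s : ℕ} {ε e : ℝ}

lemma bQ_bounds {K2 : ℝ} (hK2 : 0 ≤ K2) (hε : 0 < ε) (hε1 : ε ≤ 1) :
    1 ≤ bQ K2 ε ∧ bQ K2 ε ≤ 2 * 2 ^ 11 * (8 * (4 * K2 + 5) ^ 2) * Lgt ε ^ 2 := by
  have hg := one_le_Lgt hε hε1
  have hl := log_inv_nonneg hε hε1
  have h0 : (0 : ℝ) ≤ ((bD K2 ε : ℕ) : ℝ) := Nat.cast_nonneg _
  have hDle : ((bD K2 ε : ℕ) : ℝ) ≤ (K2 + 1) * Lgt ε := by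
    have h1 : ((bD K2 ε : ℕ) : ℝ) ≤ K2 * Real.log (1 / ε) + 1 :=
      (Nat.ceil_lt_add_one (by positivity)).le
    unfold Lgt
    nlinarith
  obtain ⟨D, hD⟩ : ∃ D : ℝ, D = ((bD K2 ε : ℕ) : ℝ) := ⟨_, rfl⟩
  unfold bQ H730.QD
  rw [← hD] at h0 hDle ⊢
  constructor
  · have : 1 ≤ (4 * D + 1) ^ 2 := one_le_pow₀ (by linarith)
    linarith
  · have h1 : 4 * D + 1 ≤ (4 * K2 + 5) * Lgt ε := by
      have e : (4 * K2 + 5) * Lgt ε = 4 * ((K2 + 1) * Lgt ε) + Lgt ε := by ring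
      rw [e]
      linarith
    have h2 := pow_le_pow_left₀ (by linarith) h1 2
    calc 2 * 2 ^ 11 * (8 * (4 * D + 1) ^ 2)
        ≤ 2 * 2 ^ 11 * (8 * ((4 * K2 + 5) * Lgt ε) ^ 2) := by linarith
      _ = _ := by ring

/-- the amplitude at the level `m` from below -/
lemma Xm_ge {x1 sg : ℝ} (hx0 : 0 < x1) (hPx : P.x1 = x1) (he0 : 0 < e) (hε : 0 < ε)
    (he2 : e ≤ ε ^ (1 - sg)) : ε ^ (-(x1 * (1 - sg))) ≤ (2 : ℝ) ^ P.xE e := by
  have g1 : e ^ (-x1) ≤ (2 : ℝ) ^ P.xE e := by rw [← hPx]; exact two_lg_ge he0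
  have g2 : (ε ^ (1 - sg)) ^ (-x1) ≤ e ^ (-x1) :=
    Real.rpow_le_rpow_of_nonpos he0 he2 (by linarith)
  have g3 : (ε ^ (1 - sg)) ^ (-x1) = ε ^ (-(x1 * (1 - sg))) := by
    rw [← Real.rpow_mul hε.le]
    congr 1
    ring
  rw [g3] at g2
  exact g2.trans g1

lemma rp_nat (hε : 0 < ε) (a : ℝ) (k : ℕ) : (ε ^ a) ^ k = ε ^ (a * k) := by
  rw [← Real.rpow_natCast, ← Real.rpow_mul hε.le]

lemma Xm8_of {x1 thp sg K0 : ℝ} (h : BL P n m r s ε e) (hx0 : 0 < x1) (hPx : P.x1 = x1)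
    (hPt : P.thp = thp) (ht1 : thp ≤ x1 / 400) (hsg : sg ≤ 1 / 4) (hK0 : 1 ≤ K0)
    (he2 : e ≤ ε ^ (1 - sg)) : bR n m ≤ 8 * bXm P K0 e ^ 2 := by
  have hε := h.ε0
  have hε1 := h.ε1
  have he0 : 0 < e := lt_of_lt_of_le (by positivity) h.he
  have h0 := Xm_ge hx0 hPx he0 hε he2
  have g0 : 0 < ε ^ (-(x1 * (1 - sg))) := Real.rpow_pos_of_pos hε _
  have h1 : ε ^ (-(x1 * (1 - sg))) ≤ bXm P K0 e := by
    unfold bXm
    have h2 : (2 : ℝ) ^ P.xE e ≤ K0 * 2 ^ P.xE e := le_mul_of_one_le_left (by positivity) hK0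
    have h3 : (0 : ℝ) ≤ 2 ^ P.xE e := by positivity
    linarith
  have g1 := pow_le_pow_left₀ g0.le h1 4
  rw [rp_nat hε] at g1
  have g3 : ε ^ (-(4 * thp)) ≤ ε ^ (-(x1 * (1 - sg)) * ((4 : ℕ) : ℝ)) := by
    refine rpow_anti hε hε1 ?_
    push_cast
    have : x1 * (1 / 400) ≤ x1 * (1 - sg) := mul_le_mul_of_nonneg_left (by linarith) hx0.le
    linarith
  have hM := h.M_le
  rw [hPt] at hM
  have h2 : bR n m ^ 2 ≤ (8 * bXm P K0 e ^ 2) ^ 2 := by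
    unfold bR
    rw [Real.sq_sqrt (by positivity)]
    have e1 : (8 * bXm P K0 e ^ 2) ^ 2 = 64 * bXm P K0 e ^ 4 := by ring
    rw [e1]
    have e2 : 0 ≤ bXm P K0 e ^ 4 := Even.pow_nonneg (by decide) _
    linarith
  exact le_of_sq_le_sq h2 (by positivity)

lemma ex_of {thp : ℝ} (h : BL P n m r s ε e) (hPt : P.thp = thp)
    (hexp : Real.exp (-(1 * ε ^ (-(thp / 2)))) ≤ ε ^ (2 : ℝ)) :
    Real.exp (-(bR n m)) ≤ ε ^ (2 : ℝ) := by
  have hε := h.ε0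
  refine le_trans (Real.exp_le_exp.2 (neg_le_neg ?_)) hexp
  rw [one_mul]
  unfold bR
  refine Real.le_sqrt_of_sq_le ?_
  have hM := h.M_ge
  rw [hPt] at hM
  refine le_trans (le_of_eq ?_) hM
  rw [rp_nat hε]
  congr 1
  push_cast
  ring

lemma tor_of {x1 thp th sg : ℝ} (h : BL P n m r s ε e) (hx0 : 0 < x1) (hPx : P.x1 = x1)
    (hPt : P.thp = thp) (hPh : P.th = th) (hsg : sg ≤ 1 / 4) (he2 : e ≤ ε ^ (1 - sg))
    (g1 : 4 * ε ^ (thp + x1 / 4 - th / 400) ≤ 1) :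
    ((2 : ℝ) ^ P.xE ε) ^ 2 * ε ^ (-(P.th / 400)) ≤ 2 ^ (r - n) := by
  have hε := h.ε0
  have hε1 := h.ε1
  have he0 : 0 < e := lt_of_lt_of_le (by positivity) h.he
  have hp : ∀ p : ℝ, 0 < ε ^ p := fun p => Real.rpow_pos_of_pos hε p
  rw [h.G_eq, hPh]
  have g2 : (2 : ℝ) ^ P.xE ε ≤ 2 * ε ^ (-x1) := by
    rw [← hPx]
    exact two_lg_le P.x10.le hε hε1
  have g3 := Xm_ge hx0 hPx he0 hε he2
  have g4 := pow_le_pow_left₀ (hp _).le g3 3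
  rw [rp_nat hε] at g4
  have g5 : ε ^ (-(9 / 4 * x1)) ≤ ε ^ (-(x1 * (1 - sg)) * ((3 : ℕ) : ℝ)) := by
    refine rpow_anti hε hε1 ?_
    push_cast
    have : x1 * (3 / 4) ≤ x1 * (1 - sg) := mul_le_mul_of_nonneg_left (by linarith) hx0.le
    linarith
  have hM := h.M_ge
  rw [hPt] at hM
  have e1 : (2 * ε ^ (-x1)) ^ 2 * ε ^ (-(th / 400)) =
      (4 * ε ^ (thp + x1 / 4 - th / 400)) * (ε ^ (-thp) * ε ^ (-(9 / 4 * x1))) := by
    rw [mul_pow, rp_nat hε, mul_assoc, mul_assoc, ← Real.rpow_add hε, ← Real.rpow_add hε,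
      ← Real.rpow_add hε]
    push_cast
    congr 1
    · norm_num
    · congr 1
      ring
  calc ((2 : ℝ) ^ P.xE ε) ^ 2 * ε ^ (-(th / 400)) ≤ (2 * ε ^ (-x1)) ^ 2 * ε ^ (-(th / 400)) :=
        mul_le_mul_of_nonneg_right (pow_le_pow_left₀ (by positivity) g2 2) (hp _).le
    _ = (4 * ε ^ (thp + x1 / 4 - th / 400)) * (ε ^ (-thp) * ε ^ (-(9 / 4 * x1))) := e1
    _ ≤ 1 * (ε ^ (-thp) * ε ^ (-(9 / 4 * x1))) :=
        mul_le_mul_of_nonneg_right g1 (mul_pos (hp _) (hp _)).le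
    _ ≤ 2 ^ (m - n) * ((2 : ℝ) ^ P.xE e) ^ 3 := by
        rw [one_mul]
        exact mul_le_mul hM (g5.trans g4) (hp _).le (by positivity)

/-- **the numbers hold for small sizes** -/
theorem bnum {b : ℝ} (hb : 0 < b) {cw Cw pf sg : ℝ} (hcw : 0 < cw) (hCw : 0 ≤ Cw) (hpf : 0 < pf)
    (hsg : sg ≤ 1 / 4) :
    ∃ r1 : ℝ, 0 < r1 ∧ ∀ x1, 0 < x1 → x1 ≤ r1 → ∀ thp, 0 < thp → thp ≤ x1 / 400 →
    ∀ th, 0 < th → th ≤ thp → ∀ C0 : ℝ, 1 ≤ C0 → ∀ K0 K2 : ℝ, 1 ≤ K0 → 0 ≤ K2 →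
    ∃ E0 : ℝ, 0 < E0 ∧ ∀ P : Par, P.x1 = x1 → P.thp = thp → P.th = th → P.C0 = C0 → P.pf = pf →
      P.es ≤ E0 → ∀ (n m r s : ℕ) (ε e τ w : ℝ), BL P n m r s ε e → e ≤ ε ^ (1 - sg) →
      tn n ≤ τ → τ ≤ 4 * tn n → 0 < w →
      tn n * w ≤ Cw * (1 + ((r - n : ℕ) : ℝ)) * ((2 : ℝ) ^ (r - n)) ^ 2 * ε ^ (cw * P.pf) →
      BNum P b K0 K2 n m r s ε e τ w := by
  obtain ⟨ρ, hρ⟩ : ∃ ρ : ℝ, ρ = min (1 / 40) (cw * pf / 2) := ⟨_, rfl⟩
  have hρ0 : 0 < ρ := by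
    rw [hρ]
    positivity
  have hρ1 : ρ ≤ 1 / 40 := by rw [hρ]; exact min_le_left _ _
  have hρ2 : 2 * ρ ≤ cw * pf := by
    have : ρ ≤ cw * pf / 2 := by rw [hρ]; exact min_le_right _ _
    linarith
  refine ⟨ρ / 100, by positivity, ?_⟩
  intro x1 hx0 hx1 thp ht0 ht1 th hth0 hth1 C0 hC0 K0 K2 hK0 hK2
  have hκ := kap_pos hb
  obtain ⟨CX, hCX⟩ : ∃ CX : ℝ, CX = 1200 * K0 := ⟨_, rfl⟩
  obtain ⟨CQ, hCQ⟩ : ∃ CQ : ℝ, CQ = 2 * 2 ^ 11 * (8 * (4 * K2 + 5) ^ 2) := ⟨_, rfl⟩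
  obtain ⟨CL, hCL⟩ : ∃ CL : ℝ, CL = 16 + 2 * C0 := ⟨_, rfl⟩
  have pCX : 0 < CX := by rw [hCX]; linarith
  have pCQ : 0 < CQ := by rw [hCQ]; positivity
  have pCL : 0 < CL := by rw [hCL]; linarith
  -- the terms of the constant
  have t1 : 0 ≤ 196608 * CQ ^ 2 := by positivity
  have t2 : 0 ≤ 2 * (1 + CL) / kap b := by positivity
  have t3 : 0 ≤ 9437184 * CX ^ 2 * CQ ^ 2 / kap b := by positivity
  have t4 : 0 ≤ 98304 * (3 + CL) * CQ ^ 2 / kap b := by positivity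
  have t5 : 0 ≤ 131072 * CX ^ 2 := by positivity
  have t6 : 0 ≤ 2 ^ 24 * (73728 * Cw) := by positivity
  have t7 : 0 ≤ 12288 * (1 + b) ^ 2 * CQ ^ 2 * CX ^ 2 * CL := by positivity
  have t8 : 0 ≤ 74304 * (1 + b) ^ 2 * CX ^ 2 * CL := by positivity
  have t9 : 0 ≤ 2 ^ 24 * (1152 * CX ^ 2 * Cw) := by positivity
  have t10 : 0 ≤ 4608 * CX ^ 2 := by positivity
  have t11 : 0 ≤ 393216 * CQ ^ 2 / kap b := by positivity
  have t12 : 0 ≤ 26214400 * CX ^ 4 := by positivity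
  have t13 : 0 ≤ 2 ^ 16 * (4 * K2 + 5) ^ 3 := by positivity
  obtain ⟨A, hA⟩ : ∃ A : ℝ, A = 300000 + 196608 * CQ ^ 2 + 2 * (1 + CL) / kap b +
      9437184 * CX ^ 2 * CQ ^ 2 / kap b + 98304 * (3 + CL) * CQ ^ 2 / kap b + 131072 * CX ^ 2 +
      2 ^ 24 * (73728 * Cw) + 12288 * (1 + b) ^ 2 * CQ ^ 2 * CX ^ 2 * CL +
      74304 * (1 + b) ^ 2 * CX ^ 2 * CL + 2 ^ 24 * (1152 * CX ^ 2 * Cw) + 4608 * CX ^ 2 +
      393216 * CQ ^ 2 / kap b + 26214400 * CX ^ 4 + 2 ^ 16 * (4 * K2 + 5) ^ 3 := ⟨_, rfl⟩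
  have u0 : 300000 ≤ A := by linarith
  have u1 : 196608 * CQ ^ 2 ≤ A := by linarith
  have u2 : 2 * (1 + CL) / kap b ≤ A := by linarith
  have u3 : 9437184 * CX ^ 2 * CQ ^ 2 / kap b ≤ A := by linarith
  have u4 : 98304 * (3 + CL) * CQ ^ 2 / kap b ≤ A := by linarith
  have u5 : 131072 * CX ^ 2 ≤ A := by linarith
  have u6 : 2 ^ 24 * (73728 * Cw) ≤ A := by linarith
  have u7 : 12288 * (1 + b) ^ 2 * CQ ^ 2 * CX ^ 2 * CL ≤ A := by linarith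
  have u8 : 74304 * (1 + b) ^ 2 * CX ^ 2 * CL ≤ A := by linarith
  have u9 : 2 ^ 24 * (1152 * CX ^ 2 * Cw) ≤ A := by linarith
  have u10 : 4608 * CX ^ 2 ≤ A := by linarith
  have u11 : 393216 * CQ ^ 2 / kap b ≤ A := by linarith
  have u12 : 26214400 * CX ^ 4 ≤ A := by linarith
  have u13 : 2 ^ 16 * (4 * K2 + 5) ^ 3 ≤ A := by linarith
  clear hA t1 t2 t3 t4 t5 t6 t7 t8 t9 t10 t11 t12 t13
  obtain ⟨E1, p1, p1', hsc⟩ := scales (ρ := ρ) ht0 hx0 ht1 hx1 A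
  obtain ⟨E2, p2, hexp⟩ := exp_absorb (c := 1) (a := thp / 2) 2 one_pos (by positivity)
  obtain ⟨E3, p3, a3⟩ := absorb (A := 32) (a := 1 / 2) (κ := 1) (by norm_num) (by norm_num)
    one_pos
  obtain ⟨E4, p4, a4⟩ := absorb (A := 8192) (a := 2) (κ := 1) (by norm_num) (by norm_num)
    one_pos
  obtain ⟨E5, p5, a5⟩ := absorb (A := 4) (a := thp + x1 / 4 - th / 400) (κ := 1) (by norm_num)
    (by linarith) one_pos
  obtain ⟨E6, p6, a6⟩ := absorb (A := 20) (a := 1 / 3) (κ := 1) (by norm_num) (by norm_num)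
    one_pos
  refine ⟨min E1 (min E2 (min E3 (min E4 (min E5 (min E6 (1 / 40)))))), by positivity, ?_⟩
  intro P hPx hPt hPh hPC hPp hPE n m r s ε e τ w hB he2 hτ1 hτ2 hw0 hw
  have l0 := hB.εes.trans hPE
  have l1 : ε ≤ E1 := l0.trans (min_le_left _ _)
  have l2 : ε ≤ E2 := l0.trans ((min_le_right _ _).trans (min_le_left _ _))
  have l3 : ε ≤ E3 := l0.trans ((min_le_right _ _).trans ((min_le_right _ _).trans
    (min_le_left _ _)))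
  have l4 : ε ≤ E4 := l0.trans ((min_le_right _ _).trans ((min_le_right _ _).trans
    ((min_le_right _ _).trans (min_le_left _ _))))
  have l5 : ε ≤ E5 := l0.trans ((min_le_right _ _).trans ((min_le_right _ _).trans
    ((min_le_right _ _).trans ((min_le_right _ _).trans (min_le_left _ _)))))
  have l6 : ε ≤ E6 := l0.trans ((min_le_right _ _).trans ((min_le_right _ _).trans
    ((min_le_right _ _).trans ((min_le_right _ _).trans ((min_le_right _ _).trans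
    (min_le_left _ _))))))
  have l7 : ε ≤ 1 / 40 := l0.trans ((min_le_right _ _).trans ((min_le_right _ _).trans
    ((min_le_right _ _).trans ((min_le_right _ _).trans ((min_le_right _ _).trans
    (min_le_right _ _))))))
  have hε := hB.ε0
  have hε1 := hB.ε1
  have hMge : ε ^ (-thp) ≤ (2 : ℝ) ^ (m - n) := by rw [← hPt]; exact hB.M_ge
  have hMle : (2 : ℝ) ^ (m - n) ≤ 16 * ε ^ (-(4 * thp)) := by rw [← hPt]; exact hB.M_le
  have hXge : ε ^ (-x1) / 6 ≤ (2 : ℝ) ^ P.xE ε / 6 := by rw [← hPx]; exact hB.X_ge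
  have hXle : (2 : ℝ) ^ P.xE ε / 6 ≤ ε ^ (-x1) := by rw [← hPx]; exact hB.X_le
  obtain ⟨s1, s2, s3⟩ := hsc ε hε l1 _ _ hMge hMle hXge hXle
  obtain ⟨hQ1, hQ2⟩ := bQ_bounds hK2 hε hε1
  have hXm0 : 0 < bXm P K0 e := by
    unfold bXm
    have : 0 < K0 := by linarith
    positivity
  have hXm1 : bXm P K0 e ≤ CX * bX P ε := by
    have h1 := hB.Xe_le
    unfold bXm bX
    rw [hCX]
    have h2 := mul_le_mul_of_nonneg_left h1 (show 0 ≤ 100 * K0 by linarith)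
    linarith
  have S : Sc A CQ CX P.C0 ρ ε (Lgt ε) (bM n m) (bR n m) (bX P ε) (bXm P K0 e) (bQ K2 ε)
      (2 ^ (r - n)) (2 ^ (n - s)) :=
    { A1 := by linarith
      CX0 := pCX.le
      CQ0 := pCQ.le
      ε0 := hε
      ε1 := hε1
      g1 := one_le_Lgt hε hε1
      R0 := Real.sqrt_pos.2 (by positivity)
      R2 := Real.sq_sqrt (by positivity)
      S1 := s1
      S2 := s2
      S3 := s3
      Q1 := hQ1
      Q2 := by rw [hCQ]; exact hQ2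
      Xm0 := hXm0
      Xm1 := hXm1
      G1 := one_le_pow₀ one_le_two
      G2 := hB.G_le
      q1 := one_le_pow₀ one_le_two
      q2 := hB.q_le }
  have hwG : tn n * w ≤ Cw * 2 ^ (r - n) * (2 ^ (r - n)) ^ 2 * ε ^ (2 * ρ) := by
    have h1 : 1 + ((r - n : ℕ) : ℝ) ≤ 2 ^ (r - n) := by
      have : ∀ k : ℕ, 1 + k ≤ 2 ^ k := by
        intro k
        have := Nat.lt_two_pow_self (n := k)
        omega
      exact_mod_cast this (r - n)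
    have h2 : ε ^ (cw * P.pf) ≤ ε ^ (2 * ρ) := by
      rw [hPp]
      exact rpow_anti hε hε1 hρ2
    refine hw.trans ?_
    have h3 : 0 ≤ ε ^ (cw * P.pf) := Real.rpow_nonneg hε.le _
    have h4 : 0 ≤ 1 + ((r - n : ℕ) : ℝ) := by positivity
    exact mul_le_mul (mul_le_mul_of_nonneg_right (mul_le_mul_of_nonneg_left h1 hCw)
      (by positivity)) h2 h3 (by positivity)
  have a3' := a3 ε hε l3
  have a4' := a4 ε hε l4
  have a6' := a6 ε hε l6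
  exact BA.bnum
    { B := hB
      S := S
      hb := hb
      Cw0 := hCw
      K20 := hK2
      C01 := by rw [hPC]; exact hC0
      CLd := by rw [hPC]; exact hCL
      ρ0 := hρ0
      ρ1 := hρ1
      c1 := u1
      c2 := u2
      c3 := u3
      c4 := u4
      c5 := u5
      c6 := u6
      c7 := u7
      c8 := u8
      c9 := u9
      c10 := u10
      c11 := u11
      c12 := u12
      c13 := u13
      c14 := u0
      τ1 := hτ1
      τ2 := hτ2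
      w0 := hw0
      wG := hwG
      ex := ex_of hB hPt (hexp ε hε l2)
      Xm8 := Xm8_of hB hx0 hPx hPt ht1 hsg hK0 he2
      a3 := a3'
      a4 := a4'
      a6 := a6'
      a7 := l7
      tor := tor_of hB hx0 hPx hPt hPh hsg he2 (a5 ε hε l5) }

end

end Vale.Agent.P159.H276
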