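import Vale.Agent.P159.H817.St10

/-!
P159, module UBF (helper276, rows 7216, 7311, 7362), part 1: the flow of a real background.  For
`u = (1 + kap lapM)⁻¹ f` and a cut-off `chi` the edge field `j = chi (t kap gr u)` and the remainder
`K = t f - dv j` satisfy `|K|² / t ≤ 3 (t |u|² + t |(1 - chi) f|² + 2 layer)`,
`|j|² ≤ (t kap)² |gr u|²`.
-/

set_option linter.unusedSectionVars false

namespace Vale.Agent.P159.H276

open Finset Matrix
open Vale.Agent.P159.TM.Spec (V)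
open Vale.Agent.P159.H817 (gr dv nrm lp e1 e2 eb GB U sz gr_eq parts dv_gr)
open Vale.Agent.P159.H864 (lapM)

noncomputable section

variable {N : ℕ} [NeZero N]

/-- the flow with the cut-off `chi` -/
def jU (t κ : ℝ) (χ u : V N → ℝ) (e : V N × Bool) : ℝ := χ e.1 * (t * κ * gr u e)

/-- the remainder -/
def kU (t κ : ℝ) (χ u f : V N → ℝ) (x : V N) : ℝ := t * f x - dv (jU t κ χ u) x

/-- the layer of the cut-off -/
def lyU (t κ : ℝ) (χ u : V N → ℝ) : ℝ := ∑ e, gr χ e ^ 2 * (t * κ * gr u e) ^ 2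

lemma dv_cut (χ : V N → ℝ) (j : V N × Bool → ℝ) (x : V N) :
    dv (fun e => χ e.1 * j e) x = χ x * dv j x - (gr χ (x - e1, false) * j (x - e1, false) +
      gr χ (x - e2, true) * j (x - e2, true)) := by
  unfold dv
  simp only [H817.gr_false, H817.gr_true, sub_add_cancel]
  ring

/-- the potential equation in terms of `dv` -/
lemma dv_pot {κ : ℝ} {u f : V N → ℝ} (hu : ∀ x, u x + κ * (lapM *ᵥ u) x = f x) (t : ℝ) (x : V N) :
    dv (fun e => t * κ * gr u e) x = t * f x - t * u x := by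
  have h1 : dv (fun e => t * κ * gr u e) x = t * κ * dv (gr u) x := by
    unfold dv
    ring
  rw [h1, dv_gr]
  have h2 := hu x
  rw [H817.lapM_mulVec] at h2
  rw [← h2]
  ring

lemma kU_eq {κ : ℝ} {u f : V N → ℝ} (hu : ∀ x, u x + κ * (lapM *ᵥ u) x = f x) (t : ℝ)
    (χ : V N → ℝ) (x : V N) :
    kU t κ χ u f x = (1 - χ x) * (t * f x) + χ x * (t * u x) +
      (gr χ (x - e1, false) * (t * κ * gr u (x - e1, false)) +
        gr χ (x - e2, true) * (t * κ * gr u (x - e2, true))) := by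
  unfold kU
  have h1 : dv (jU t κ χ u) x = dv (fun e => χ e.1 * (t * κ * gr u e)) x := rfl
  rw [h1, dv_cut, dv_pot hu]
  ring

/-- `t f = K + dv j` -/
lemma kU_add (t κ : ℝ) (χ u f : V N → ℝ) (x : V N) :
    t * f x = kU t κ χ u f x + dv (jU t κ χ u) x := by
  unfold kU
  ring

/-- **the energy of the potential** -/
theorem en_pot {κ : ℝ} {u f : V N → ℝ} (hu : ∀ x, u x + κ * (lapM *ᵥ u) x = f x) :
    ∑ x, f x * u x = ∑ x, u x ^ 2 + κ * nrm (gr u) := by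
  have h1 : ∀ x, f x * u x = u x ^ 2 + κ * (u x * dv (gr u) x) := by
    intro x
    have h2 := hu x
    rw [H817.lapM_mulVec] at h2
    rw [dv_gr, ← h2]
    ring
  simp only [h1]
  rw [sum_add_distrib, ← mul_sum, ← parts]
  congr 2
  unfold nrm
  exact sum_congr rfl fun e _ => by ring

/-- the norm of the flow -/
theorem jU_sq {t κ : ℝ} {χ : V N → ℝ} (h0 : ∀ x, 0 ≤ χ x) (h1 : ∀ x, χ x ≤ 1) (u : V N → ℝ) :
    ∑ e, jU t κ χ u e ^ 2 ≤ (t * κ) ^ 2 * nrm (gr u) := by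
  unfold nrm
  rw [mul_sum]
  refine sum_le_sum fun e _ => ?_
  unfold jU
  have h2 : χ e.1 ^ 2 ≤ 1 := pow_le_one₀ (h0 _) (h1 _)
  have h3 : 0 ≤ (t * κ * gr u e) ^ 2 := sq_nonneg _
  calc (χ e.1 * (t * κ * gr u e)) ^ 2 = χ e.1 ^ 2 * (t * κ * gr u e) ^ 2 := by ring
    _ ≤ 1 * (t * κ * gr u e) ^ 2 := mul_le_mul_of_nonneg_right h2 h3
    _ = _ := by ring

lemma abs_jU_le {t κ : ℝ} {χ : V N → ℝ} (h0 : ∀ x, 0 ≤ χ x) (h1 : ∀ x, χ x ≤ 1) {u : V N → ℝ}
    {G : ℝ} (hG : ∀ e, |t * κ * gr u e| ≤ G) (e : V N × Bool) : |jU t κ χ u e| ≤ G := by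
  unfold jU
  rw [abs_mul, abs_of_nonneg (h0 _)]
  calc χ e.1 * |t * κ * gr u e| ≤ 1 * |t * κ * gr u e| :=
        mul_le_mul_of_nonneg_right (h1 _) (abs_nonneg _)
    _ ≤ G := by rw [one_mul]; exact hG e

/-- **the norm of the remainder** -/
theorem kU_sq {t κ : ℝ} {χ : V N → ℝ} (h0 : ∀ x, 0 ≤ χ x) (h1 : ∀ x, χ x ≤ 1) {u f : V N → ℝ}
    (hu : ∀ x, u x + κ * (lapM *ᵥ u) x = f x) :
    ∑ x, kU t κ χ u f x ^ 2 ≤ 3 * (t ^ 2 * ∑ x, u x ^ 2 + t ^ 2 * ∑ x, ((1 - χ x) * f x) ^ 2 +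
      2 * lyU t κ χ u) := by
  have hpt : ∀ x, kU t κ χ u f x ^ 2 ≤ 3 * (t ^ 2 * u x ^ 2 + t ^ 2 * ((1 - χ x) * f x) ^ 2 +
      2 * (gr χ (x - e1, false) ^ 2 * (t * κ * gr u (x - e1, false)) ^ 2 +
        gr χ (x - e2, true) ^ 2 * (t * κ * gr u (x - e2, true)) ^ 2)) := by
    intro x
    rw [kU_eq hu]
    have h2 : (χ x * (t * u x)) ^ 2 ≤ t ^ 2 * u x ^ 2 := by
      have h3 : χ x ^ 2 ≤ 1 := pow_le_one₀ (h0 _) (h1 _)
      have h4 : 0 ≤ (t * u x) ^ 2 := sq_nonneg _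
      calc (χ x * (t * u x)) ^ 2 = χ x ^ 2 * (t * u x) ^ 2 := by ring
        _ ≤ 1 * (t * u x) ^ 2 := mul_le_mul_of_nonneg_right h3 h4
        _ = _ := by ring
    have h5 : ∀ a b c d : ℝ, (a + b + (c + d)) ^ 2 ≤ 3 * (b ^ 2 + a ^ 2 + 2 * (c ^ 2 + d ^ 2)) := by
      intro a b c d
      nlinarith [sq_nonneg (a - b), sq_nonneg (a - (c + d)), sq_nonneg (b - (c + d)),
        sq_nonneg (c - d)]
    have h6 := h5 ((1 - χ x) * (t * f x)) (χ x * (t * u x))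
      (gr χ (x - e1, false) * (t * κ * gr u (x - e1, false)))
      (gr χ (x - e2, true) * (t * κ * gr u (x - e2, true)))
    refine h6.trans ?_
    have e3 : ((1 - χ x) * (t * f x)) ^ 2 = t ^ 2 * ((1 - χ x) * f x) ^ 2 := by ring
    rw [e3, mul_pow, mul_pow (gr χ (x - e2, true))]
    linarith
  refine (sum_le_sum fun x _ => hpt x).trans (le_of_eq ?_)
  rw [← mul_sum, sum_add_distrib, sum_add_distrib, ← mul_sum, ← mul_sum, ← mul_sum]
  congr 3
  unfold lyU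
  rw [H817.sum_edges, sum_add_distrib]
  congr 1
  · exact H817.sum_shift_sub (fun x : V N => gr χ (x, false) ^ 2 * (t * κ * gr u (x, false)) ^ 2) e1
  · exact H817.sum_shift_sub (fun x : V N => gr χ (x, true) ^ 2 * (t * κ * gr u (x, true)) ^ 2) e2

/-- pairing with an edge field -/
lemma jU_pair (t κ : ℝ) (χ u : V N → ℝ) (β : V N × Bool → ℝ) {J B : ℝ} (hJ0 : 0 ≤ J)
    (hJ : ∑ e, jU t κ χ u e ^ 2 ≤ J) (hB : ∑ e, (if jU t κ χ u e = 0 then 0 else β e ^ 2) ≤ B) :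
    |∑ e, jU t κ χ u e * β e| ≤ √(J * B) := by
  have h1 : ∑ e, jU t κ χ u e * β e =
      ∑ e, jU t κ χ u e * (if jU t κ χ u e = 0 then 0 else β e) := by
    refine sum_congr rfl fun e _ => ?_
    split_ifs with h
    · rw [h]
      ring
    · rfl
  rw [h1]
  refine Real.abs_le_sqrt ?_
  refine (Finset.sum_mul_sq_le_sq_mul_sq _ _ _).trans ?_
  refine mul_le_mul hJ ?_ (sum_nonneg fun e _ => sq_nonneg _) hJ0
  refine (sum_le_sum fun e _ => le_of_eq ?_).trans hB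
  split_ifs <;> ring

/-- pairing of `w` with the source `t f = K + dv j` -/
lemma pair_src (t κ : ℝ) (χ u f w : V N → ℝ) :
    ∑ x, w x * (t * f x) = ∑ x, w x * kU t κ χ u f x + ∑ e, jU t κ χ u e * gr w e := by
  rw [parts, ← sum_add_distrib]
  refine sum_congr rfl fun x _ => ?_
  rw [kU_add t κ χ u f x]
  ring

/-! ### the cut-off around a finite set of cores -/

/-- `0` on the boxes of radius `r + 1` around the points of `Z`, `1` off the boxes of radius `2 r + 1` -/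
def chZ (Z : Finset (V N)) (r : ℕ) (x : V N) : ℝ := ∏ z ∈ Z, (1 - U (r + 1) r (x - z))

lemma chZ_nonneg (Z : Finset (V N)) (r : ℕ) (x : V N) : 0 ≤ chZ Z r x :=
  prod_nonneg fun z _ => by linarith [H817.U_le_one (r + 1) r (x - z)]

lemma chZ_le_one (Z : Finset (V N)) (r : ℕ) (x : V N) : chZ Z r x ≤ 1 :=
  prod_le_one (fun z _ => by linarith [H817.U_le_one (r + 1) r (x - z)])
    fun z _ => by linarith [H817.U_nonneg (r + 1) r (x - z)]

lemma chZ_zero {Z : Finset (V N)} {r : ℕ} (hr : 0 < r) {x z : V N} (hz : z ∈ Z)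
    (hx : sz (x - z) ≤ r + 1) : chZ Z r x = 0 :=
  prod_eq_zero hz (by rw [H817.U_one hr hx, sub_self])

lemma chZ_one {Z : Finset (V N)} {r : ℕ} {x : V N} (hx : ∀ z ∈ Z, 2 * r + 1 ≤ sz (x - z)) :
    chZ Z r x = 1 :=
  prod_eq_one fun z hz => by
    rw [H817.U_zero (by have := hx z hz; omega), sub_zero]

lemma prod_sub_le {ι : Type*} (s : Finset ι) (a b : ι → ℝ) (ha : ∀ i, 0 ≤ a i ∧ a i ≤ 1)
    (hb : ∀ i, 0 ≤ b i ∧ b i ≤ 1) : |∏ i ∈ s, a i - ∏ i ∈ s, b i| ≤ ∑ i ∈ s, |a i - b i| := by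
  classical
  induction s using Finset.induction_on with
  | empty => simp
  | insert i s hi ih =>
    rw [prod_insert hi, prod_insert hi, sum_insert hi]
    have e : a i * ∏ j ∈ s, a j - b i * ∏ j ∈ s, b j =
        (a i - b i) * ∏ j ∈ s, a j + b i * (∏ j ∈ s, a j - ∏ j ∈ s, b j) := by ring
    rw [e]
    refine (abs_add_le _ _).trans ?_
    rw [abs_mul, abs_mul]
    have h1 : |∏ j ∈ s, a j| ≤ 1 := by
      rw [abs_of_nonneg (prod_nonneg fun j _ => (ha j).1)]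
      exact prod_le_one (fun j _ => (ha j).1) fun j _ => (ha j).2
    have h2 : |b i| ≤ 1 := by
      rw [abs_of_nonneg (hb i).1]
      exact (hb i).2
    have h3 := mul_le_mul_of_nonneg_left h1 (abs_nonneg (a i - b i))
    have h4 := mul_le_mul h2 ih (abs_nonneg _) zero_le_one
    linarith

lemma gr_chZ_le (Z : Finset (V N)) {r : ℕ} (hr : 0 < r) (e : V N × Bool) :
    |gr (chZ Z r) e| ≤ (#Z : ℝ) / r := by
  obtain ⟨x, b⟩ := e
  rw [gr_eq]
  unfold chZ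
  have hU : ∀ (y : V N) (z : V N), 0 ≤ 1 - U (r + 1) r (y - z) ∧ 1 - U (r + 1) r (y - z) ≤ 1 :=
    fun y z => ⟨by linarith [H817.U_le_one (r + 1) r (y - z)],
      by linarith [H817.U_nonneg (r + 1) r (y - z)]⟩
  refine (prod_sub_le Z _ _ (hU _) (hU _)).trans ?_
  have h1 : ∀ z ∈ Z, |1 - U (r + 1) r (x + eb b - z) - (1 - U (r + 1) r (x - z))| ≤ 1 / (r : ℝ) := by
    intro z _
    have h2 := H817.U_shift_GB (N := N) (r + 1) hr z (x, b)
    rw [gr_eq] at h2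
    rw [abs_sub_comm] at h2
    refine le_trans (le_of_eq ?_) h2
    congr 1
    ring
  refine (sum_le_sum h1).trans (le_of_eq ?_)
  rw [sum_const, nsmul_eq_mul]
  ring

/-- the gradient of the cut-off lives near the cores -/
lemma gr_chZ_zero {Z : Finset (V N)} {r : ℕ} {e : V N × Bool}
    (he : ∀ z ∈ Z, 2 * r + 2 ≤ sz (e.1 - z)) : gr (chZ Z r) e = 0 := by
  obtain ⟨x, b⟩ := e
  rw [gr_eq]
  rw [chZ_one (fun z hz => by
    have h1 := he z hz
    have h2 := (H817.sz_step (x - z) b).1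
    have e1 : x - z + eb b = x + eb b - z := by abel
    rw [e1] at h2
    simp only at h1
    omega), chZ_one (fun z hz => by
    have h1 := he z hz
    simp only at h1
    omega), sub_self]

/-- the sites within sup distance `ρ` of the cores -/
def nbZ (Z : Finset (V N)) (ρ : ℕ) : Finset (V N) := univ.filter fun x => ∃ z ∈ Z, sz (x - z) ≤ ρ

/-- **the layer** -/
theorem lyU_le (t κ : ℝ) (Z : Finset (V N)) {r : ℕ} (hr : 0 < r) (u : V N → ℝ) :
    lyU t κ (chZ Z r) u ≤ ((#Z : ℝ) / r) ^ 2 * (t * κ) ^ 2 *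
      ∑ x ∈ nbZ Z (2 * r + 1), (gr u (x, false) ^ 2 + gr u (x, true) ^ 2) := by
  classical
  unfold lyU
  have h1 : ∀ e : V N × Bool, gr (chZ Z r) e ^ 2 * (t * κ * gr u e) ^ 2 ≤
      if e.1 ∈ nbZ Z (2 * r + 1) then ((#Z : ℝ) / r) ^ 2 * (t * κ) ^ 2 * gr u e ^ 2 else 0 := by
    intro e
    split_ifs with h
    · have h2 := gr_chZ_le Z hr e
      have h3 : gr (chZ Z r) e ^ 2 ≤ ((#Z : ℝ) / r) ^ 2 := by
        rw [← sq_abs]
        exact pow_le_pow_left₀ (abs_nonneg _) h2 2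
      calc gr (chZ Z r) e ^ 2 * (t * κ * gr u e) ^ 2 ≤ ((#Z : ℝ) / r) ^ 2 * (t * κ * gr u e) ^ 2 :=
            mul_le_mul_of_nonneg_right h3 (sq_nonneg _)
        _ = _ := by ring
    · rw [gr_chZ_zero (fun z hz => by
        by_contra h4
        exact h (mem_filter.2 ⟨mem_univ _, z, hz, by omega⟩))]
      simp
  refine (sum_le_sum fun e _ => h1 e).trans (le_of_eq ?_)
  rw [Fintype.sum_prod_type]
  simp only [Fintype.sum_bool]
  rw [mul_sum, ← sum_filter_add_sum_filter_not univ (fun x => x ∈ nbZ Z (2 * r + 1))]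
  have e2 : ∑ x ∈ univ.filter (fun x => ¬ x ∈ nbZ Z (2 * r + 1)),
      ((if x ∈ nbZ Z (2 * r + 1) then ((#Z : ℝ) / r) ^ 2 * (t * κ) ^ 2 * gr u (x, true) ^ 2 else 0) +
        if x ∈ nbZ Z (2 * r + 1) then ((#Z : ℝ) / r) ^ 2 * (t * κ) ^ 2 * gr u (x, false) ^ 2
          else 0) = 0 := by
    refine sum_eq_zero fun x hx => ?_
    rw [if_neg (mem_filter.1 hx).2, if_neg (mem_filter.1 hx).2, add_zero]
  rw [e2, add_zero, filter_mem_eq_inter, univ_inter]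
  refine sum_congr rfl fun x hx => ?_
  rw [if_pos hx, if_pos hx]
  ring

/-- the loss near the cores -/
lemma chZ_loss (Z : Finset (V N)) (r : ℕ) (f : V N → ℝ) :
    ∑ x, ((1 - chZ Z r x) * f x) ^ 2 ≤ ∑ x ∈ nbZ Z (2 * r), f x ^ 2 := by
  classical
  rw [← sum_filter_add_sum_filter_not univ (fun x => x ∈ nbZ Z (2 * r))]
  have e2 : ∑ x ∈ univ.filter (fun x => ¬ x ∈ nbZ Z (2 * r)), ((1 - chZ Z r x) * f x) ^ 2 = 0 := by
    refine sum_eq_zero fun x hx => ?_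
    rw [chZ_one (fun z hz => by
      by_contra h4
      exact (mem_filter.1 hx).2 (mem_filter.2 ⟨mem_univ _, z, hz, by omega⟩))]
    simp
  rw [e2, add_zero, filter_mem_eq_inter, univ_inter]
  refine sum_le_sum fun x _ => ?_
  have h1 := chZ_nonneg Z r x
  have h2 := chZ_le_one Z r x
  have h3 : (1 - chZ Z r x) ^ 2 ≤ 1 := pow_le_one₀ (by linarith) (by linarith)
  rw [mul_pow]
  calc (1 - chZ Z r x) ^ 2 * f x ^ 2 ≤ 1 * f x ^ 2 := mul_le_mul_of_nonneg_right h3 (sq_nonneg _)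
    _ = f x ^ 2 := one_mul _

/-! ### the three numbers of a background -/

/-- the energy `t |u|² + t kap |gr u|² = t <f, u>` -/
def Qa (t κ : ℝ) (u : V N → ℝ) : ℝ := t * ∑ x, u x ^ 2 + t * κ * nrm (gr u)

/-- the part near the cores -/
def Qb (t : ℝ) (Z : Finset (V N)) (r : ℕ) (f : V N → ℝ) : ℝ := t * ∑ x ∈ nbZ Z (2 * r), f x ^ 2

/-- the layer around the cores -/
def Qc (t κ : ℝ) (Z : Finset (V N)) (r : ℕ) (u : V N → ℝ) : ℝ :=
  ((#Z : ℝ) / r) ^ 2 * (t * κ ^ 2) *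
    ∑ x ∈ nbZ Z (2 * r + 1), (gr u (x, false) ^ 2 + gr u (x, true) ^ 2)

lemma Qa_nonneg {t κ : ℝ} (ht : 0 ≤ t) (hκ : 0 ≤ κ) (u : V N → ℝ) : 0 ≤ Qa t κ u := by
  unfold Qa nrm
  positivity

lemma Qb_nonneg {t : ℝ} (ht : 0 ≤ t) (Z : Finset (V N)) (r : ℕ) (f : V N → ℝ) : 0 ≤ Qb t Z r f := by
  unfold Qb
  positivity

lemma Qc_nonneg {t : ℝ} (κ : ℝ) (ht : 0 ≤ t) (Z : Finset (V N)) (r : ℕ) (u : V N → ℝ) :
    0 ≤ Qc t κ Z r u := by
  unfold Qc
  positivity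

/-- `Qa = t <f, u>` -/
lemma Qa_eq {t κ : ℝ} {u f : V N → ℝ} (hu : ∀ x, u x + κ * (lapM *ᵥ u) x = f x) :
    Qa t κ u = t * ∑ x, f x * u x := by
  rw [en_pot hu]
  unfold Qa
  ring

/-- **the flow of a real background (UBF)** -/
theorem ubf {t κ : ℝ} (ht : 0 < t) (hκ : 0 ≤ κ) (Z : Finset (V N)) {r : ℕ} (hr : 0 < r)
    {u f : V N → ℝ} (hu : ∀ x, u x + κ * (lapM *ᵥ u) x = f x)
    (h1 : ∀ e, |t * κ * gr u e| ≤ 1) :
    ∃ (j : V N × Bool → ℝ) (K : V N → ℝ), (∀ x, t * f x = K x + dv j x) ∧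
      (∀ e : V N × Bool, (∃ z ∈ Z, sz (e.1 - z) ≤ r ∨ sz (e.1 + eb e.2 - z) ≤ r) → j e = 0) ∧
      (∀ e, |j e| ≤ 1) ∧
      (∑ x, K x ^ 2) / t ≤ 3 * (Qa t κ u + Qb t Z r f + 2 * Qc t κ Z r u) ∧
      ∑ e, j e ^ 2 ≤ t * κ * Qa t κ u ∧
      ∑ e, (Real.cosh (j e) - 1) ≤ t * κ * Qa t κ u := by
  classical
  have hQ : (t * κ) ^ 2 * nrm (gr u) ≤ t * κ * Qa t κ u := by
    unfold Qa
    have h2 : 0 ≤ t * κ * (t * ∑ x, u x ^ 2) := by positivity
    nlinarith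
  have hj2 : ∑ e, jU t κ (chZ Z r) u e ^ 2 ≤ t * κ * Qa t κ u :=
    (jU_sq (chZ_nonneg Z r) (chZ_le_one Z r) u).trans hQ
  have hj1 : ∀ e, |jU t κ (chZ Z r) u e| ≤ 1 := abs_jU_le (chZ_nonneg Z r) (chZ_le_one Z r) h1
  refine ⟨jU t κ (chZ Z r) u, kU t κ (chZ Z r) u f, kU_add t κ _ u f, ?_, hj1, ?_, hj2, ?_⟩
  · rintro e ⟨z, hz, h⟩
    have h2 : sz (e.1 - z) ≤ r + 1 := by
      rcases h with h | h
      · omega
      · have h3 := (H817.sz_step (e.1 - z) e.2).1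
        have e1 : e.1 - z + eb e.2 = e.1 + eb e.2 - z := by abel
        rw [e1] at h3
        omega
    unfold jU
    rw [chZ_zero hr hz h2, zero_mul]
  · have h2 := kU_sq (t := t) (chZ_nonneg Z r) (chZ_le_one Z r) hu
    have h3 := lyU_le t κ Z hr u
    have h4 := chZ_loss Z r f
    rw [div_le_iff₀ ht]
    have h5 : t * κ * nrm (gr u) * t ≥ 0 := by
      unfold nrm
      positivity
    have h6 : 3 * (Qa t κ u + Qb t Z r f + 2 * Qc t κ Z r u) * t =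
        3 * (t ^ 2 * ∑ x, u x ^ 2 + t * κ * nrm (gr u) * t + t ^ 2 * ∑ x ∈ nbZ Z (2 * r), f x ^ 2 +
          2 * (((#Z : ℝ) / r) ^ 2 * (t * κ) ^ 2 *
            ∑ x ∈ nbZ Z (2 * r + 1), (gr u (x, false) ^ 2 + gr u (x, true) ^ 2))) := by
      unfold Qa Qb Qc
      ring
    rw [h6]
    have h7 := mul_le_mul_of_nonneg_left h4 (sq_nonneg t)
    linarith
  · refine (sum_le_sum fun e _ => ?_).trans hj2
    have h2 := Real.cosh_le_exp_half_sq (jU t κ (chZ Z r) u e)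
    have h3 : jU t κ (chZ Z r) u e ^ 2 ≤ 1 := by
      rw [← sq_abs]
      exact pow_le_one₀ (abs_nonneg _) (hj1 e)
    have h4 := Real.abs_exp_sub_one_le (x := jU t κ (chZ Z r) u e ^ 2 / 2) (by
      rw [abs_of_nonneg (by positivity)]
      linarith)
    rw [abs_of_nonneg (by positivity : (0 : ℝ) ≤ jU t κ (chZ Z r) u e ^ 2 / 2)] at h4
    have h5 := (abs_le.1 h4).2
    linarith

/-- the pairing with an edge field which is bounded in norm off the cores -/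
theorem pair_le {J B : ℝ} {j β : V N × Bool → ℝ} (hJ : ∑ e, j e ^ 2 ≤ J)
    (hB : ∑ e, (if j e = 0 then 0 else β e ^ 2) ≤ B) : |∑ e, j e * β e| ≤ √(J * B) := by
  have hJ0 : 0 ≤ J := (sum_nonneg fun e _ => sq_nonneg _).trans hJ
  have h1 : ∑ e, j e * β e = ∑ e, j e * (if j e = 0 then 0 else β e) := by
    refine sum_congr rfl fun e _ => ?_
    split_ifs with h
    · rw [h]
      ring
    · rfl
  rw [h1]
  refine Real.abs_le_sqrt ?_
  refine (Finset.sum_mul_sq_le_sq_mul_sq _ _ _).trans ?_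
  refine mul_le_mul hJ ?_ (sum_nonneg fun e _ => sq_nonneg _) hJ0
  refine (sum_le_sum fun e _ => le_of_eq ?_).trans hB
  split_ifs <;> ring

/-- **the linear term**: the pairing of `w` with the source `t f = K + dv j` -/
theorem pair_w {t A J B W : ℝ} (ht : 0 < t) {j : V N × Bool → ℝ} {K f w : V N → ℝ}
    (hK : ∀ x, t * f x = K x + dv j x) (hA : (∑ x, K x ^ 2) / t ≤ A) (hJ : ∑ e, j e ^ 2 ≤ J)
    (hW : t * ∑ x, w x ^ 2 ≤ W) (hB : ∑ e, (if j e = 0 then 0 else gr w e ^ 2) ≤ B) :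
    |∑ x, w x * (t * f x)| ≤ √(A * W) + √(J * B) := by
  have h1 : ∑ x, w x * (t * f x) = ∑ x, w x * K x + ∑ e, j e * gr w e := by
    rw [parts, ← sum_add_distrib]
    exact sum_congr rfl fun x _ => by rw [hK x]; ring
  rw [h1]
  refine (abs_add_le _ _).trans (add_le_add ?_ (pair_le hJ hB))
  refine Real.abs_le_sqrt ?_
  refine (Finset.sum_mul_sq_le_sq_mul_sq _ _ _).trans ?_
  have h2 : 0 ≤ (∑ x, K x ^ 2) / t := by positivity
  have h3 : 0 ≤ t * ∑ x, w x ^ 2 := by positivity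
  calc (∑ x, w x ^ 2) * ∑ x, K x ^ 2 = ((∑ x, K x ^ 2) / t) * (t * ∑ x, w x ^ 2) := by
        field_simp
    _ ≤ A * W := mul_le_mul hA hW h3 (h2.trans hA)

end

end Vale.Agent.P159.H276
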