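import Vale.Agent.P159.H276.Uf5

/-!
P159, module UBF (helper276), part 6: maximum principle for the potential `u + kap lapM u = f`,
existence of the potential, the class `FlD` from a sup bound and the three numbers.
-/

set_option linter.unusedSectionVars false

namespace Vale.Agent.P159.H276

open Finset Matrix
open Vale.Agent.P159.TM.Spec (V)
open Vale.Agent.P159.H817 (gr dv nrm e1 e2 eb sz dec SuppD gr_eq)
open Vale.Agent.P159.H864 (lapM)

noncomputable section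

variable {N : ℕ} [NeZero N] {κ : ℝ}

/-- upper bound -/
lemma pot_le (hκ : 0 ≤ κ) {u f : V N → ℝ} (hu : ∀ x, u x + κ * (lapM *ᵥ u) x = f x) {M : ℝ}
    (hM : ∀ x, f x ≤ M) (x : V N) : u x ≤ M := by
  obtain ⟨x0, _, h0⟩ := Finset.exists_max_image (univ : Finset (V N)) u ⟨0, mem_univ _⟩
  have h1 := hu x0
  rw [H817.lapM_mulVec] at h1
  simp only at h1
  have h2 : H817.lp u x0 ≤ 0 := by
    unfold H817.lp
    have a1 := h0 (x0 + e1) (mem_univ _)
    have a2 := h0 (x0 - e1) (mem_univ _)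
    have a3 := h0 (x0 + e2) (mem_univ _)
    have a4 := h0 (x0 - e2) (mem_univ _)
    linarith
  have h3 : 0 ≤ κ * -H817.lp u x0 := mul_nonneg hκ (by linarith)
  have h4 := h0 x (mem_univ _)
  have h5 := hM x0
  linarith

/-- **maximum principle** -/
theorem pot_abs (hκ : 0 ≤ κ) {u f : V N → ℝ} (hu : ∀ x, u x + κ * (lapM *ᵥ u) x = f x) {M : ℝ}
    (hM : ∀ x, |f x| ≤ M) (x : V N) : |u x| ≤ M := by
  rw [abs_le]
  constructor
  · have h1 := pot_le hκ (u := fun x => -u x) (f := fun x => -f x) (fun x => by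
      have h2 := hu x
      have h3 : (lapM *ᵥ fun x => -u x) x = -(lapM *ᵥ u) x := by
        have : (fun x => -u x) = -u := rfl
        rw [this, Matrix.mulVec_neg]
        rfl
      rw [h3]
      linarith) (M := M) (fun x => by
      have := (abs_le.1 (hM x)).1
      linarith) x
    linarith
  · exact pot_le hκ hu (fun x => (abs_le.1 (hM x)).2) x

lemma gr_pot_abs (hκ : 0 ≤ κ) {u f : V N → ℝ} (hu : ∀ x, u x + κ * (lapM *ᵥ u) x = f x) {M : ℝ}
    (hM : ∀ x, |f x| ≤ M) (e : V N × Bool) : |gr u e| ≤ 2 * M := by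
  obtain ⟨x, b⟩ := e
  rw [gr_eq]
  have h1 := pot_abs hκ hu hM (x + eb b)
  have h2 := pot_abs hκ hu hM x
  have h3 := abs_sub (u (x + eb b)) (u x)
  linarith

/-- the potential -/
def pot (κ : ℝ) (f : V N → ℝ) : V N → ℝ := (1 + κ • (lapM : Matrix (V N) (V N) ℝ))⁻¹ *ᵥ f

theorem pot_eq (hκ : 0 ≤ κ) (f : V N → ℝ) (x : V N) :
    pot κ f x + κ * (lapM *ᵥ pot κ f) x = f x := by
  have hdet : (1 + κ • (lapM : Matrix (V N) (V N) ℝ)).det ≠ 0 := by
    intro h0
    obtain ⟨v, hv, h1⟩ := Matrix.exists_mulVec_eq_zero_iff.2 h0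
    refine hv ?_
    have h2 : ∀ x, v x + κ * (lapM *ᵥ v) x = 0 := by
      intro x
      have h3 := congrFun h1 x
      rw [Matrix.add_mulVec, Matrix.one_mulVec, Matrix.smul_mulVec] at h3
      exact h3
    funext x
    have h4 := pot_abs hκ (f := fun _ => 0) h2 (M := 0) (fun _ => by simp) x
    exact abs_nonpos_iff.1 h4
  have h5 : (1 + κ • (lapM : Matrix (V N) (V N) ℝ)) *ᵥ pot κ f = f := by
    unfold pot
    rw [Matrix.mulVec_mulVec, Matrix.mul_nonsing_inv _ (isUnit_iff_ne_zero.2 hdet),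
      Matrix.one_mulVec]
  have h6 := congrFun h5 x
  rw [Matrix.add_mulVec, Matrix.one_mulVec, Matrix.smul_mulVec] at h6
  exact h6

/-- uniqueness -/
theorem pot_unique (hκ : 0 ≤ κ) {u f : V N → ℝ} (hu : ∀ x, u x + κ * (lapM *ᵥ u) x = f x) :
    u = pot κ f := by
  funext x
  have h1 : ∀ x, (u - pot κ f) x + κ * (lapM *ᵥ (u - pot κ f)) x = 0 := by
    intro x
    have h2 := hu x
    have h3 := pot_eq hκ f x
    rw [Matrix.mulVec_sub]
    simp only [Pi.sub_apply]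
    linarith
  have h4 := pot_abs hκ (f := fun _ => 0) h1 (M := 0) (fun _ => by simp) x
  have h5 := abs_nonpos_iff.1 h4
  simp only [Pi.sub_apply] at h5
  linarith

/-- **the class from a sup bound and the three numbers of one torus** -/
theorem flD_of_sup {t : ℝ} (ht : 0 < t) (hκ : 0 ≤ κ) {l0 l1 r : ℕ} (hr : 0 < r) (hl1 : 0 < l1)
    (hκl : 4 * κ ≤ (l1 : ℝ) ^ 2) (hN : 2 * (l0 + l1 + 1) + 4 < N) {F : ℤ → ℤ → ℝ}
    (hF : SuppD l0 F) (z : V N) {M Aa Ab Ac : ℝ} (hM : ∀ x, |dec F z x| ≤ M)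
    (hMt : 2 * (t * κ) * M ≤ 1) (ha : Qa t κ (pot κ (dec F z)) ≤ Aa)
    (hb : Qb t {z} r (dec F z) ≤ Ab) (hc : Qc t κ {z} r (pot κ (dec F z)) ≤ Ac) :
    FlD t (l0 + l1 + 1) r (3 * (2 * Aa + Ab + 4 * Ac)) (t * κ * Aa) F := by
  have h1 : ∀ e, |t * κ * gr (pot κ (dec F z)) e| ≤ 1 := by
    intro e
    have h2 := gr_pot_abs hκ (pot_eq hκ (dec F z)) hM e
    have h3 : 0 ≤ t * κ := by positivity
    rw [abs_mul, abs_of_nonneg h3]
    calc t * κ * |gr (pot κ (dec F z)) e| ≤ t * κ * (2 * M) := mul_le_mul_of_nonneg_left h2 h3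
      _ = 2 * (t * κ) * M := by ring
      _ ≤ 1 := hMt
  refine (flD_of_Q ht hκ hr hl1 hκl hN hF z (pot_eq hκ _) h1).mono ht.le le_rfl le_rfl ?_ ?_
  · linarith
  · exact mul_le_mul_of_nonneg_left ha (by positivity)

end

end Vale.Agent.P159.H276
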