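import Vale.Agent.P159.H276.Es1
import Vale.Agent.P159.H883.Twr4
import Vale.Agent.P159.TM.H77.Pz
import Vale.Agent.P159.H817.Ang5

/-!
P159, row 6628 (helper270), Ed3 (ii), part 2 (helper276): under the massless dislocated law the field
`h - f` stays within `A` of its mean, up to probability `N ^ 2 K0 exp (C R ^ 2 - A / 2)`; input: the
bare exponential bound (EXP-D), `K0 = 1 / CT` its price.
-/

namespace Vale.Agent.P159.H276

open Finset Matrix
open Vale.Agent.P159.TM.Spec (V)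
open Vale.Agent.P159.TM.SpecC (wT Tor)
open Vale.Agent.P159.TM.H77 (Grid pt bav dyadic_flow pt_inj)
open Vale.Agent.P159.TM.H504 (Bx)
open Vale.Agent.P159.H770 (Ed eS eT wTD)
open Vale.Agent.P159.H817 (gr nrm)
open Vale.Agent.P159.H963 (pin)
open Vale.Agent.P159.H883 (Zp)
open Vale.Agent.P159.H37 (Rs)

noncomputable section

variable {N : ℕ} [NeZero N]

/-- the mean of a field -/
def mnT (u : V N → ℝ) : ℝ := (∑ x, u x) / (N : ℝ) ^ 2

lemma pt_val (x : V N) : pt N ((x.1.val : ℤ), (x.2.val : ℤ)) = x := by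
  unfold pt
  ext <;> simp

omit [NeZero N] in
lemma grid_tor (p q : ℤ) (m : ℕ) :
    Grid (eS N) (eT N) p q m (fun z => (pt N z.1, z.2)) where
  hor := fun z _ => by
    constructor
    · rfl
    · unfold H770.eT pt
      ext <;> simp
  ver := fun z _ => by
    constructor
    · rfl
    · unfold H770.eT pt
      ext <;> simp

lemma bav_full (p q : ℤ) (u : V N → ℝ) : bav N p q N u = mnT u := by
  classical
  have h1 : (Bx p q N).image (pt N) = (univ : Finset (V N)) := by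
    refine Finset.eq_univ_of_card _ ?_
    rw [card_image_of_injOn (pt_inj le_rfl), Bx, card_product, Int.card_Ico, Int.card_Ico,
      Fintype.card_prod, ZMod.card]
    congr 1 <;> omega
  unfold bav mnT
  rw [← h1, sum_image fun x hx y hy h => pt_inj le_rfl hx hy h]

omit [NeZero N] in
lemma gr_eq (u : V N → ℝ) (e : Ed N) : u (eT N e) - u (eS N e) = gr u e := by
  obtain ⟨x, s⟩ := e
  cases s <;> rfl

/-- **flow from a site to the whole torus** -/
theorem flow_mean {R : ℕ} (hR : N = 2 ^ R) (x : V N) : ∃ α : Ed N → ℝ,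
    (∀ u : V N → ℝ, u x - mnT u = ∑ e, α e * gr u e) ∧ (∀ e, |α e| ≤ 2) ∧
      ∑ e, α e ^ 2 ≤ 3 * (R : ℝ) ^ 2 := by
  classical
  have hn : 1 * 2 ^ R ≤ N := by rw [one_mul, hR]
  obtain ⟨α, h1, h2, h3⟩ := dyadic_flow (n := N) (le_refl 1) R
    (grid_tor (N := N) (x.1.val : ℤ) (x.2.val : ℤ) (1 * 2 ^ R)) hn
  refine ⟨α, fun u => ?_, fun e => by simpa using h2 e, h3⟩
  have h4 := h1 u
  have e1 : bav N (x.1.val : ℤ) (x.2.val : ℤ) (1 * 2 ^ R) u = mnT u := by
    rw [one_mul, ← hR]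
    exact bav_full _ _ u
  have e2 : bav N (x.1.val : ℤ) (x.2.val : ℤ) 1 u = u x := by
    unfold bav Bx
    have e3 : Ico ((x.1.val : ℤ)) ((x.1.val : ℤ) + ((1 : ℕ) : ℤ)) = {(x.1.val : ℤ)} := by
      ext z
      simp only [mem_Ico, mem_singleton]
      omega
    have e4 : Ico ((x.2.val : ℤ)) ((x.2.val : ℤ) + ((1 : ℕ) : ℤ)) = {(x.2.val : ℤ)} := by
      ext z
      simp only [mem_Ico, mem_singleton]
      omega
    rw [e3, e4, singleton_product_singleton, sum_singleton, pt_val]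
    simp
  rw [e1, e2] at h4
  rw [h4]
  simp only [gr_eq]
  ring

/-- the bare exponential bound (EXP-D) with the price `K0`, in the form of helper270 -/
def ExpD (N : ℕ) [NeZero N] (b : ℝ) (η : Ed N → ℤ) (x₀ : V N) (K0 : ℝ) : Prop :=
  ∀ j : Ed N → ℝ,
    (Summable fun h => pin (wTD N b η) x₀ h *
      Real.exp (∑ e, j e * ((h (eT N e) - h (eS N e) + η e : ℤ) : ℝ))) ∧
    ∑' h, pin (wTD N b η) x₀ h * Real.exp (∑ e, j e * ((h (eT N e) - h (eS N e) + η e : ℤ) : ℝ)) ≤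
      K0 * Real.exp (b * ∑ e, (Real.cosh (j e) - 1)) * Zp (wTD N b η) x₀

/-- the deviation of `h - f` from its mean -/
def dvm (f : V N → ℝ) (h : V N → ℤ) (x : V N) : ℝ :=
  ((h x : ℝ) - f x) - mnT fun y => (h y : ℝ) - f y

/-- one site, one sign -/
theorem one_tail {R : ℕ} (hR : N = 2 ^ R) {b : ℝ} (hb : 0 < b) {η : Ed N → ℤ} (f : V N → ℝ)
    {x₀ : V N} {K0 : ℝ} (hX : ExpD N b η x₀ K0) (hK0 : 0 ≤ K0) {A D : ℝ}
    (hD : nrm (fun e => (η e : ℝ) + gr f e) ≤ D) (x : V N) {σ : ℝ} (hσ : |σ| = 1) :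
    ∑' h, Set.indicator {h | A < σ * dvm f h x} (pin (wTD N b η) x₀) h ≤
      K0 * Real.exp ((3 * b / 4 + 3 / 8) * (R : ℝ) ^ 2 + D / 2 - A / 2) * Zp (wTD N b η) x₀ := by
  obtain ⟨α, h1, h2, h3⟩ := flow_mean hR x
  have hσ2 : σ ^ 2 = 1 := by rw [← sq_abs, hσ, one_pow]
  set j : Ed N → ℝ := fun e => σ / 2 * α e with hj
  have hj1 : ∀ e, |j e| ≤ 1 := by
    intro e
    rw [hj]
    simp only
    rw [abs_mul, abs_div, hσ, abs_two]
    linarith [h2 e]
  have hj2 : ∑ e, j e ^ 2 ≤ 3 / 4 * (R : ℝ) ^ 2 := by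
    have e1 : ∀ e, j e ^ 2 = 1 / 4 * α e ^ 2 := by
      intro e
      rw [hj]
      simp only
      rw [mul_pow, div_pow, hσ2]
      ring
    simp only [e1]
    rw [← mul_sum]
    linarith
  obtain ⟨hs, hle⟩ := hX j
  have hwnn : ∀ h, 0 ≤ pin (wTD N b η) x₀ h :=
    H963.pin_nonneg (fun h => (H770.wTD_pos hb η h).le) x₀
  -- the real part of the edge field
  have hbD : |∑ e, j e * ((η e : ℝ) + gr f e)| ≤ 3 / 8 * (R : ℝ) ^ 2 + D / 2 := by
    have g1 : |∑ e, j e * ((η e : ℝ) + gr f e)| ≤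
        ∑ e, (j e ^ 2 / 2 + ((η e : ℝ) + gr f e) ^ 2 / 2) := by
      refine (abs_sum_le_sum_abs _ _).trans (sum_le_sum fun e _ => ?_)
      rw [abs_mul]
      have := sq_nonneg (|j e| - |(η e : ℝ) + gr f e|)
      have g2 := sq_abs (j e)
      have g3 := sq_abs ((η e : ℝ) + gr f e)
      nlinarith
    rw [sum_add_distrib, ← sum_div, ← sum_div] at g1
    have g4 : ∑ e, ((η e : ℝ) + gr f e) ^ 2 ≤ D := hD
    linarith
  have key : ∀ h : V N → ℤ, ∑ e, j e * ((h (eT N e) - h (eS N e) + η e : ℤ) : ℝ) =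
      σ / 2 * dvm f h x + ∑ e, j e * ((η e : ℝ) + gr f e) := by
    intro h
    have g1 := h1 fun y => (h y : ℝ) - f y
    have g2 : dvm f h x = ∑ e, α e * gr (fun y => (h y : ℝ) - f y) e := g1
    rw [g2, mul_sum, ← sum_add_distrib]
    refine sum_congr rfl fun e _ => ?_
    have g3 : gr (fun y => (h y : ℝ) - f y) e =
        ((h (eT N e) : ℝ) - (h (eS N e) : ℝ)) - gr f e := by
      rw [← gr_eq, ← gr_eq]
      ring
    rw [g3, hj]
    push_cast
    ring
  have hcosh : ∑ e, (Real.cosh (j e) - 1) ≤ 3 / 4 * (R : ℝ) ^ 2 :=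
    (sum_le_sum fun e _ => TM.H77.cosh_sub_one_le (hj1 e)).trans hj2
  have hZ : 0 ≤ Zp (wTD N b η) x₀ := tsum_nonneg hwnn
  have hpt : ∀ h, Set.indicator {h | A < σ * dvm f h x} (pin (wTD N b η) x₀) h ≤
      Real.exp (3 / 8 * (R : ℝ) ^ 2 + D / 2 - A / 2) * (pin (wTD N b η) x₀ h *
        Real.exp (∑ e, j e * ((h (eT N e) - h (eS N e) + η e : ℤ) : ℝ))) := by
    intro h
    by_cases hh : A < σ * dvm f h x
    · rw [Set.indicator_of_mem (show h ∈ {h | A < σ * dvm f h x} from hh)]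
      have g1 : 0 ≤ 3 / 8 * (R : ℝ) ^ 2 + D / 2 - A / 2 +
          ∑ e, j e * ((h (eT N e) - h (eS N e) + η e : ℤ) : ℝ) := by
        rw [key h]
        have := (abs_le.1 hbD).1
        linarith
      calc pin (wTD N b η) x₀ h = pin (wTD N b η) x₀ h * 1 := (mul_one _).symm
        _ ≤ pin (wTD N b η) x₀ h * Real.exp (3 / 8 * (R : ℝ) ^ 2 + D / 2 - A / 2 +
            ∑ e, j e * ((h (eT N e) - h (eS N e) + η e : ℤ) : ℝ)) :=
          mul_le_mul_of_nonneg_left (Real.one_le_exp g1) (hwnn h)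
        _ = _ := by
          rw [Real.exp_add]
          ring
    · rw [Set.indicator_of_notMem (show h ∉ {h | A < σ * dvm f h x} from hh)]
      exact mul_nonneg (Real.exp_pos _).le (mul_nonneg (hwnn h) (Real.exp_pos _).le)
  have hsum := Summable.tsum_le_tsum hpt (Summable.of_nonneg_of_le
    (fun h => Set.indicator_nonneg (fun h _ => hwnn h) h) hpt (hs.mul_left _)) (hs.mul_left _)
  rw [tsum_mul_left] at hsum
  refine hsum.trans ?_
  calc Real.exp (3 / 8 * (R : ℝ) ^ 2 + D / 2 - A / 2) *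
        ∑' h, pin (wTD N b η) x₀ h *
          Real.exp (∑ e, j e * ((h (eT N e) - h (eS N e) + η e : ℤ) : ℝ))
      ≤ Real.exp (3 / 8 * (R : ℝ) ^ 2 + D / 2 - A / 2) *
        (K0 * Real.exp (b * ∑ e, (Real.cosh (j e) - 1)) * Zp (wTD N b η) x₀) :=
        mul_le_mul_of_nonneg_left hle (Real.exp_pos _).le
    _ ≤ Real.exp (3 / 8 * (R : ℝ) ^ 2 + D / 2 - A / 2) *
        (K0 * Real.exp (b * (3 / 4 * (R : ℝ) ^ 2)) * Zp (wTD N b η) x₀) := by
        refine mul_le_mul_of_nonneg_left ?_ (Real.exp_pos _).le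
        refine mul_le_mul_of_nonneg_right ?_ hZ
        refine mul_le_mul_of_nonneg_left (Real.exp_le_exp.2 ?_) hK0
        exact mul_le_mul_of_nonneg_left hcosh hb.le
    _ = _ := by
        have e1 : (3 * b / 4 + 3 / 8) * (R : ℝ) ^ 2 + D / 2 - A / 2 =
          (3 / 8 * (R : ℝ) ^ 2 + D / 2 - A / 2) + b * (3 / 4 * (R : ℝ) ^ 2) := by ring
        rw [e1, Real.exp_add]
        ring

/-- **the supremum of the deviation under the massless dislocated law** -/
theorem sup_tail {R : ℕ} (hR : N = 2 ^ R) {b : ℝ} (hb : 0 < b) {η : Ed N → ℤ} (f : V N → ℝ)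
    {x₀ : V N} {K0 : ℝ} (hX : ExpD N b η x₀ K0) (hK0 : 0 ≤ K0) {A D : ℝ}
    (hD : nrm (fun e => (η e : ℝ) + gr f e) ≤ D) :
    ∑' h, Set.indicator {h | ∃ x, A < |dvm f h x|} (pin (wTD N b η) x₀) h ≤
      2 * (N : ℝ) ^ 2 * (K0 * Real.exp ((3 * b / 4 + 3 / 8) * (R : ℝ) ^ 2 + D / 2 - A / 2)) *
        Zp (wTD N b η) x₀ := by
  classical
  have hwnn : ∀ h, 0 ≤ pin (wTD N b η) x₀ h :=
    H963.pin_nonneg (fun h => (H770.wTD_pos hb η h).le) x₀
  have hw : Summable (pin (wTD N b η) x₀) := by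
    have := (H883.bw_wTD hb η).em0 x₀
    simpa using this.sum 0
  have hsi : ∀ S : Set (V N → ℤ), Summable (Set.indicator S (pin (wTD N b η) x₀)) :=
    fun S => hw.indicator S
  have hpt : ∀ h, Set.indicator {h | ∃ x, A < |dvm f h x|} (pin (wTD N b η) x₀) h ≤
      ∑ x, (Set.indicator {h | A < 1 * dvm f h x} (pin (wTD N b η) x₀) h +
        Set.indicator {h | A < -1 * dvm f h x} (pin (wTD N b η) x₀) h) := by
    intro h
    have hnn : ∀ x, 0 ≤ Set.indicator {h | A < 1 * dvm f h x} (pin (wTD N b η) x₀) h +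
        Set.indicator {h | A < -1 * dvm f h x} (pin (wTD N b η) x₀) h := fun x =>
      add_nonneg (Set.indicator_nonneg (fun h _ => hwnn h) h)
        (Set.indicator_nonneg (fun h _ => hwnn h) h)
    by_cases hh : ∃ x, A < |dvm f h x|
    · obtain ⟨x, hx⟩ := hh
      rw [Set.indicator_of_mem (show h ∈ {h | ∃ x, A < |dvm f h x|} from ⟨x, hx⟩)]
      refine le_trans ?_ (single_le_sum (fun x _ => hnn x) (mem_univ x))
      rcases le_total 0 (dvm f h x) with h0 | h0
      · rw [abs_of_nonneg h0] at hx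
        rw [Set.indicator_of_mem (show h ∈ {h | A < 1 * dvm f h x} by simpa using hx)]
        have := Set.indicator_nonneg (s := {h | A < -1 * dvm f h x}) (fun h _ => hwnn h) h
        linarith
      · rw [abs_of_nonpos h0] at hx
        rw [Set.indicator_of_mem (show h ∈ {h | A < -1 * dvm f h x} by
          show A < -1 * dvm f h x
          linarith)]
        have := Set.indicator_nonneg (s := {h | A < 1 * dvm f h x}) (fun h _ => hwnn h) h
        linarith
    · rw [Set.indicator_of_notMem (show h ∉ {h | ∃ x, A < |dvm f h x|} from hh)]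
      exact sum_nonneg fun x _ => hnn x
  have h1 := Summable.tsum_le_tsum hpt (hsi _)
    (summable_sum fun x _ => (hsi _).add (hsi _))
  rw [Summable.tsum_finsetSum fun x _ => (hsi _).add (hsi _)] at h1
  refine h1.trans ?_
  have h2 : ∀ x : V N, ∑' h, (Set.indicator {h | A < 1 * dvm f h x} (pin (wTD N b η) x₀) h +
      Set.indicator {h | A < -1 * dvm f h x} (pin (wTD N b η) x₀) h) ≤
      2 * (K0 * Real.exp ((3 * b / 4 + 3 / 8) * (R : ℝ) ^ 2 + D / 2 - A / 2) *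
        Zp (wTD N b η) x₀) := by
    intro x
    rw [Summable.tsum_add (hsi _) (hsi _)]
    have g1 := one_tail hR hb f hX hK0 (A := A) hD x (σ := 1) (by simp)
    have g2 := one_tail hR hb f hX hK0 (A := A) hD x (σ := -1) (by simp)
    linarith
  refine (sum_le_sum fun x _ => h2 x).trans (le_of_eq ?_)
  rw [sum_const, card_univ, nsmul_eq_mul]
  have : (Fintype.card (V N) : ℝ) = (N : ℝ) ^ 2 := by
    rw [Fintype.card_prod, ZMod.card]
    push_cast
    ring
  rw [this]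
  ring

/-- **Ed3 (ii)**: the rough part of `h - f` costs nothing under the massless dislocated law -/
theorem rough_tail {R : ℕ} (hR : N = 2 ^ R) {b t : ℝ} (hb : 0 < b) (ht : 0 < t) {η : Ed N → ℤ}
    (f : V N → ℝ) {x₀ : V N} {K0 : ℝ} (hX : ExpD N b η x₀ K0) (hK0 : 0 ≤ K0) {A D s ρ : ℝ}
    (hD : nrm (fun e => (η e : ℝ) + gr f e) ≤ D) {q : ℕ} (hq : 1 ≤ q) (hs : 0 ≤ s)
    (h1 : s * t * (q * A) ≤ 1)
    (hρ : (b + 6 * max b 1 ^ 2) * (2 * (N * (s * t * (q * A))) ^ 2) ≤ ρ) :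
    ∑' h, Set.indicator {h : V N → ℤ | ρ < Rs (H963.nwt N b t x₀)
        (H963.ntr (t • (1 : Matrix (V N) (V N) ℝ)) t *ᵥ (s • ((fun x => (h x : ℝ) - f x) -
          bxT N q fun x => (h x : ℝ) - f x)))} (pin (wTD N b η) x₀) h ≤
      2 * (N : ℝ) ^ 2 * (K0 * Real.exp ((3 * b / 4 + 3 / 8) * (R : ℝ) ^ 2 + D / 2 - A / 2)) *
        Zp (wTD N b η) x₀ := by
  have hwnn : ∀ h, 0 ≤ pin (wTD N b η) x₀ h :=
    H963.pin_nonneg (fun h => (H770.wTD_pos hb η h).le) x₀
  have hw : Summable (pin (wTD N b η) x₀) := by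
    have := (H883.bw_wTD hb η).em0 x₀
    simpa using this.sum 0
  refine le_trans (Summable.tsum_le_tsum (fun h => ?_) (hw.indicator _) (hw.indicator _))
    (sup_tail hR hb f hX hK0 (A := A) hD)
  refine Set.indicator_le_indicator_of_subset (fun h hh => ?_) (fun h => hwnn h) h
  by_contra hc
  have hA : ∀ x, |((h x : ℝ) - f x) - mnT fun y => (h y : ℝ) - f y| ≤ A := by
    intro x
    by_contra h2
    exact hc ⟨x, not_le.1 h2⟩
  have h3 := Rs_rough hb.le ht x₀ hq (fun x => (h x : ℝ) - f x) hA hs h1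
  exact absurd (h3.trans hρ) (not_le.2 hh)

end

end Vale.Agent.P159.H276
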