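import Vale.Agent.P159.H276.Es3

/-!
P159, row 6628 (helper270), Ed3 (ii), part 4 (helper276): the numbers.  With `N = 2 ^ R`, `R ≤ 2 n`, price
`K0 ≤ exp (C1 n ^ 2)` and pair energy `nrm (η + gr f) ≤ C1 n ^ 2` the exceptional probability of the
rough part is at most `exp (- n)`.
-/

namespace Vale.Agent.P159.H276

open Finset Matrix
open Vale.Agent.P159.TM.Spec (V)
open Vale.Agent.P159.H770 (Ed eS eT wTD)
open Vale.Agent.P159.H817 (gr nrm)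
open Vale.Agent.P159.H963 (pin ntr)
open Vale.Agent.P159.H883 (Zp)
open Vale.Agent.P159.H37 (Rs)

noncomputable section

/-- the constant of the supremum -/
def cEs (b C1 : ℝ) : ℝ := 2 * (2 * (3 * b + 3 / 2) + 2 * C1 + 6)

lemma es_num {b C1 K0 D : ℝ} {n R : ℕ} (hb : 0 ≤ b) (hn : 1 ≤ n) (hR : R ≤ 2 * n)
    (hK : K0 ≤ Real.exp (C1 * (n : ℝ) ^ 2)) (hK0 : 0 ≤ K0) (hD : D ≤ C1 * (n : ℝ) ^ 2)
    (hC1 : 0 ≤ C1) :
    2 * ((2 ^ R : ℕ) : ℝ) ^ 2 * (K0 * Real.exp ((3 * b / 4 + 3 / 8) * (R : ℝ) ^ 2 + D / 2 -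
      (cEs b C1 * (n : ℝ) ^ 2) / 2)) ≤ Real.exp (-(n : ℝ) ^ 2) := by
  have hn1 : (1 : ℝ) ≤ n := by exact_mod_cast hn
  have hR1 : (R : ℝ) ≤ 2 * n := by exact_mod_cast hR
  have hR0 : (0 : ℝ) ≤ R := Nat.cast_nonneg R
  have h1 : 2 * ((2 ^ R : ℕ) : ℝ) ^ 2 ≤ Real.exp (5 * (n : ℝ) ^ 2) := by
    have e2 : (2 : ℝ) ≤ Real.exp 1 := by
      have := Real.add_one_le_exp (1 : ℝ)
      linarith
    have e3 : ((2 ^ R : ℕ) : ℝ) ≤ Real.exp (R : ℝ) := by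
      push_cast
      calc (2 : ℝ) ^ R ≤ (Real.exp 1) ^ R := pow_le_pow_left₀ (by norm_num) e2 R
        _ = Real.exp (R : ℝ) := by rw [← Real.exp_nat_mul, mul_one]
    calc 2 * ((2 ^ R : ℕ) : ℝ) ^ 2 ≤ Real.exp 1 * Real.exp (R : ℝ) ^ 2 := by
          refine mul_le_mul e2 (pow_le_pow_left₀ (by positivity) e3 2) (by positivity)
            (Real.exp_pos _).le
      _ = Real.exp (1 + 2 * R) := by
          rw [← Real.exp_nat_mul, ← Real.exp_add]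
          push_cast
          ring_nf
      _ ≤ _ := Real.exp_le_exp.2 (by nlinarith)
  have h2 : (3 * b / 4 + 3 / 8) * (R : ℝ) ^ 2 ≤ (3 * b + 3 / 2) * (n : ℝ) ^ 2 := by
    have : (R : ℝ) ^ 2 ≤ 4 * (n : ℝ) ^ 2 := by nlinarith
    nlinarith
  calc 2 * ((2 ^ R : ℕ) : ℝ) ^ 2 * (K0 * Real.exp ((3 * b / 4 + 3 / 8) * (R : ℝ) ^ 2 + D / 2 -
      (cEs b C1 * (n : ℝ) ^ 2) / 2))
      ≤ Real.exp (5 * (n : ℝ) ^ 2) * (Real.exp (C1 * (n : ℝ) ^ 2) *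
        Real.exp ((3 * b / 4 + 3 / 8) * (R : ℝ) ^ 2 + D / 2 - (cEs b C1 * (n : ℝ) ^ 2) / 2)) :=
        mul_le_mul h1 (mul_le_mul_of_nonneg_right hK (Real.exp_pos _).le)
          (mul_nonneg hK0 (Real.exp_pos _).le) (Real.exp_pos _).le
    _ = Real.exp (5 * (n : ℝ) ^ 2 + (C1 * (n : ℝ) ^ 2 +
        ((3 * b / 4 + 3 / 8) * (R : ℝ) ^ 2 + D / 2 - (cEs b C1 * (n : ℝ) ^ 2) / 2))) := by
        rw [← Real.exp_add, ← Real.exp_add]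
    _ ≤ _ := Real.exp_le_exp.2 (by
        unfold cEs
        nlinarith [sq_nonneg (n : ℝ), mul_nonneg hC1 (sq_nonneg (n : ℝ)),
          mul_nonneg hb (sq_nonneg (n : ℝ))])

variable {N : ℕ} [NeZero N]

/-- **Ed3 (ii), numbers** -/
theorem rough_num {R n : ℕ} (hR : N = 2 ^ R) (hRn : R ≤ 2 * n) (hn : 1 ≤ n) {b t : ℝ} (hb : 0 < b)
    (ht : 0 < t) {η : Ed N → ℤ} (f : V N → ℝ) {x₀ : V N} {K0 C1 : ℝ} (hX : ExpD N b η x₀ K0)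
    (hK0 : 0 ≤ K0) (hK : K0 ≤ Real.exp (C1 * (n : ℝ) ^ 2)) (hC1 : 0 ≤ C1)
    (hD : nrm (fun e => (η e : ℝ) + gr f e) ≤ C1 * (n : ℝ) ^ 2) {q : ℕ} (hq : 1 ≤ q) (hd : q ∣ N)
    {s ρ : ℝ} (hs : 0 ≤ s) (h1 : s * t * (5 * (q * (cEs b C1 * (n : ℝ) ^ 2))) ≤ 1)
    (hρ : (b + 6 * max b 1 ^ 2) *
      (2 * (N * (s * t * (5 * (q * (cEs b C1 * (n : ℝ) ^ 2))))) ^ 2) ≤ ρ) :
    ∑' h, Set.indicator {h : V N → ℤ | ρ < Rs (H963.nwt N b t x₀)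
        (ntr (t • (1 : Matrix (V N) (V N) ℝ)) t *ᵥ (s • ((fun x => (h x : ℝ) - f x) -
          bxT N q (cav N q fun x => (h x : ℝ) - f x))))} (pin (wTD N b η) x₀) h ≤
      Real.exp (-(n : ℝ) ^ 2) * Zp (wTD N b η) x₀ := by
  refine (rough_tail2 hR hb ht f hX hK0 hD hq hd hs h1 hρ).trans ?_
  have hwnn : ∀ h, 0 ≤ pin (wTD N b η) x₀ h :=
    H963.pin_nonneg (fun h => (H770.wTD_pos hb η h).le) x₀
  have hZ : 0 ≤ Zp (wTD N b η) x₀ := tsum_nonneg hwnn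
  refine mul_le_mul_of_nonneg_right ?_ hZ
  subst hR
  exact es_num hb.le hn hRn hK hK0 le_rfl hC1

end

end Vale.Agent.P159.H276
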