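import Vale.Agent.P159.H264.Cl7

/-!
P159 (helper276): **the class event of helper264 with the sharp cost of the mean**: the mean part of
the smeared decoration costs `64 s2 κ / m ^ 2` per site in the gradient forms, instead of the whole
mass of the cut-off function.
-/

set_option linter.unusedSectionVars false

namespace Vale.Agent.P159.H276.Cm

open Finset Matrix MeasureTheory
open Vale.Agent.P159.TM.Spec (V)
open Vale.Agent.P159.TM.SpecC (wT)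
open Vale.Agent.P159.H37 (qf re)
open Vale.Agent.P159.H817 (gr nrm sz)
open Vale.Agent.P159.H340 (Rl ti_Rl)
open Vale.Agent.P159.H276 (nbZ Qa Qb Qc pot pot_eq pot_unique Qa_eq)
open Vale.Agent.P159.H883
open Vale.Agent.P159.H264.Gq

noncomputable section

variable {N : ℕ} [NeZero N] {q L : ℕ} {T : Matrix (V N) (V N) ℝ} {b t κ : ℝ}
  {w : V N → ℝ} {χ β : V N → V N → ℝ}

/-- **(c)**, the mean part pointwise -/
theorem tr_c' (h : Smo N q T) (hN : N = 2 * L) {κ : ℝ} (hκ : 0 < κ) {m : ℕ} (hm : 1 ≤ m)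
    (hmκ : (m : ℝ) ^ 2 ≤ 2 * κ) {χ : V N → ℝ} (hχ : ∀ x, |χ x| ≤ 1) {ℓ : ℝ}
    (hL : ∀ x y, sz (x - y) < q → |χ x - χ y| ≤ ℓ) (β : V N → ℝ) (B : Finset (V N)) :
    ((cutM χ β * T)ᵀ * Sc κ B * (cutM χ β * T)).trace ≤
      κ⁻¹ * ((B.card : ℝ) * (4 * (gT N T κ + ℓ ^ 2 * g1 N κ) +
        64 * (∑ y, β y ^ 2) * κ / (m : ℝ) ^ 2)) := by
  have hm0 : (0 : ℝ) < m := by exact_mod_cast hm
  have h1 := tr_cut (Sc_symm κ B) (Sc_nonneg κ B) h.tb χ β
  have h2 := tr_c0 h hκ hχ hL B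
  have h3 := Sc_bdd hN hm hmκ hχ B
  have h4 : 0 ≤ ∑ y, β y ^ 2 := Finset.sum_nonneg fun y _ => sq_nonneg _
  have h5 := mul_le_mul_of_nonneg_left h3 h4
  have e1 : κ⁻¹ * ((B.card : ℝ) * (4 * (gT N T κ + ℓ ^ 2 * g1 N κ) +
        64 * (∑ y, β y ^ 2) * κ / (m : ℝ) ^ 2)) =
      2 * (2 * (B.card : ℝ) * κ⁻¹ * (gT N T κ + ℓ ^ 2 * g1 N κ)) +
        2 * ((∑ y, β y ^ 2) * (2 * (4 * 1 / m) ^ 2 * (B.card : ℝ))) := by
    field_simp
    ring
  rw [e1]
  linarith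

/-- traces of the four forms -/
lemma tr_four' (hT : Smo N q T) (hN : N = 2 * L) (hκ : 0 < κ) {m : ℕ} (hm : 1 ≤ m)
    (hmκ : (m : ℝ) ^ 2 ≤ 2 * κ) {ℓ s2 : ℝ} {D1 : Finset (V N)} {D : Set (V N)}
    (hS : Smr w χ β q ℓ s2 D1 D) (Bb Bc : Finset (V N)) (i : Option (Option (Option (V N)))) :
    ((Mw w χ β T)ᵀ * Sf κ Bb Bc i * Mw w χ β T).trace ≤
      Nf (2 * (gT N T κ + s2) * (D1.card : ℝ)) (2 * (g2 N T + s2) * (Bb.card : ℝ))
        (κ⁻¹ * ((Bc.card : ℝ) * (4 * (gT N T κ + ℓ ^ 2 * g1 N κ) + 64 * s2 * κ / (m : ℝ) ^ 2)))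
        (κ⁻¹ * (4 * (gT N T κ + ℓ ^ 2 * g1 N κ) + 64 * s2 * κ / (m : ℝ) ^ 2)) i := by
  have hm0 : (0 : ℝ) < m := by exact_mod_cast hm
  have hg := gT_nonneg (N := N) (T := T) hκ.le
  have hg1 := g1_nonneg (N := N) hκ.le
  have hg2 := g2_nonneg (N := N) (T := T)
  have hκi : 0 ≤ κ⁻¹ := inv_nonneg.2 hκ.le
  have hsq : ∀ v, 0 ≤ ∑ y, β v y ^ 2 := fun v => Finset.sum_nonneg fun y _ => sq_nonneg _
  have hc : ∀ (B : Finset (V N)) (v : V N), w v ≠ 0 →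
      ((cutM (χ v) (β v) * T)ᵀ * Sc κ B * (cutM (χ v) (β v) * T)).trace ≤
      κ⁻¹ * ((B.card : ℝ) * (4 * (gT N T κ + ℓ ^ 2 * g1 N κ) + 64 * s2 * κ / (m : ℝ) ^ 2)) := by
    intro B v hv
    refine (tr_c' hT hN hκ hm hmκ (hS.c1 v) (hS.cl v) (β v) B).trans
      (mul_le_mul_of_nonneg_left (mul_le_mul_of_nonneg_left ?_ (Nat.cast_nonneg _)) hκi)
    refine add_le_add le_rfl ?_
    refine div_le_div_of_nonneg_right ?_ (by positivity)
    have h1 := mul_le_mul_of_nonneg_right (hS.b2 v) hκ.le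
    linarith
  rcases i with _ | _ | _ | x
  · refine tr_Mw (ti_Rl κ).transpose (H340.qf_Rl_nonneg hκ.le) hS.w0 hS.w1 fun v hv => ?_
    refine (tr_a hT hκ.le (χ v) (β v)).trans ?_
    show 2 * (gT N T κ + ∑ y, β v y ^ 2) * ∑ x, χ v x ^ 2 ≤ 2 * (gT N T κ + s2) * (D1.card : ℝ)
    have h1 := hS.b2 v
    have h2 := sq_chi_le hS hv
    have h3 := hsq v
    exact mul_le_mul (by linarith) h2 (Finset.sum_nonneg fun x _ => sq_nonneg _) (by linarith)
  · refine tr_Mw (IB_symm Bb) (fun u => ?_) hS.w0 hS.w1 fun v hv => ?_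
    · rw [qf_IB]
      exact Finset.sum_nonneg fun x _ => sq_nonneg _
    · refine (tr_b hT Bb (hS.c1 v) (β v)).trans ?_
      show 2 * (g2 N T + ∑ y, β v y ^ 2) * (Bb.card : ℝ) ≤ 2 * (g2 N T + s2) * (Bb.card : ℝ)
      have h1 := hS.b2 v
      exact mul_le_mul_of_nonneg_right (by linarith) (Nat.cast_nonneg _)
  · exact tr_Mw (Sc_symm κ Bc) (Sc_nonneg κ Bc) hS.w0 hS.w1 (hc Bc)
  · refine tr_Mw (Sc_symm κ {x}) (Sc_nonneg κ {x}) hS.w0 hS.w1 fun v hv => ?_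
    refine (hc {x} v hv).trans (le_of_eq ?_)
    show κ⁻¹ * ((({x} : Finset (V N)).card : ℝ) * (4 * (gT N T κ + ℓ ^ 2 * g1 N κ) +
      64 * s2 * κ / (m : ℝ) ^ 2)) = κ⁻¹ * (4 * (gT N T κ + ℓ ^ 2 * g1 N κ) + 64 * s2 * κ / (m : ℝ) ^ 2)
    rw [Finset.card_singleton]
    push_cast
    ring

/-- **THE CLASS EVENT**, sharp mean part -/
theorem cls_ev' (hb : 0 < b) (ht : 0 < t) (x₀ : V N) (hT : Smo N q T) (hN : N = 2 * L)
    (hκ : 0 < κ) {m : ℕ} (hm : 1 ≤ m) (hmκ : (m : ℝ) ^ 2 ≤ 2 * κ) {ℓ s2 : ℝ} (hs2 : 0 < s2)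
    {D1 : Finset (V N)} (hD1 : D1.Nonempty) {D : Set (V N)} (hS : Smr w χ β q ℓ s2 D1 D)
    {g : V N → ℝ} {cg B : ℝ} (hB : 0 ≤ B) (hg : ∀ x ∈ D, |(T *ᵥ g) x - cg| ≤ B)
    (p : V N) {r : ℕ} (hr : 0 < r) {Aa Ab Ac E Ed : ℝ}
    (a1 : 64 * t * B ^ 2 * (D1.card : ℝ) < Aa)
    (a2 : 128 * (E + 1 / 2) * (gT N T κ + s2) * (D1.card : ℝ) ≤ Aa)
    (b1 : 64 * t * B ^ 2 * ((nbZ {p} (2 * r)).card : ℝ) < Ab)
    (b2 : 128 * (E + 1 / 2) * (g2 N T + s2) * ((nbZ {p} (2 * r)).card : ℝ) ≤ Ab)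
    (c1 : 2048 * (t * κ ^ 2) * B ^ 2 * ((nbZ {p} (2 * r + 1)).card : ℝ) / ((r : ℝ) * m) ^ 2 < Ac)
    (c2 : 64 * (E + 1 / 2) * κ * (((nbZ {p} (2 * r + 1)).card : ℝ) *
      (4 * (gT N T κ + ℓ ^ 2 * g1 N κ) + 64 * s2 * κ / (m : ℝ) ^ 2)) / (r : ℝ) ^ 2 ≤ Ac)
    (d1 : 2048 * (t * κ) ^ 2 * B ^ 2 / (m : ℝ) ^ 2 < 1)
    (d2 : 64 * (Ed + 1 / 2) * (t * κ) * (4 * (gT N T κ + ℓ ^ 2 * g1 N κ) +
      64 * s2 * κ / (m : ℝ) ^ 2) ≤ 1) :
    ∃ G : Set (V N → ℝ), MeasurableSet G ∧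
      (nuM (wT b N) (t • (1 : Matrix (V N) (V N) ℝ)) x₀).real Gᶜ ≤
        Pp (wT b N) x₀ (HtB T B)ᶜ + 3 * Real.exp (-E) + (N : ℝ) ^ 2 * Real.exp (-Ed) ∧
      ∀ F ∈ G, Qa t κ (pot κ (Mw w χ β T *ᵥ (F + g))) ≤ Aa ∧
        Qb t {p} r (Mw w χ β T *ᵥ (F + g)) ≤ Ab ∧
        Qc t κ {p} r (pot κ (Mw w χ β T *ᵥ (F + g))) ≤ Ac ∧
        ∀ e, |t * κ * gr (pot κ (Mw w χ β T *ᵥ (F + g))) e| ≤ 1 := by
  have hm0 : (0 : ℝ) < m := by exact_mod_cast hm
  have hr0 : (0 : ℝ) < r := by exact_mod_cast hr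
  have hD0 : (0 : ℝ) < D1.card := by exact_mod_cast Finset.card_pos.2 hD1
  have hn := nbZ_pos p (2 * r)
  have hn1 := nbZ_pos p (2 * r + 1)
  have hg0 := gT_nonneg (N := N) (T := T) hκ.le
  have hg1 := g1_nonneg (N := N) hκ.le
  have hg2 := g2_nonneg (N := N) (T := T)
  have hX : 0 ≤ gT N T κ + ℓ ^ 2 * g1 N κ := by positivity
  set Bb := nbZ {p} (2 * r) with hBb
  set Bc := nbZ {p} (2 * r + 1) with hBc
  set X := gT N T κ + ℓ ^ 2 * g1 N κ with hXd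
  set Ta := 2 * (gT N T κ + s2) * (D1.card : ℝ) with hTa
  set Tb := 2 * (g2 N T + s2) * (Bb.card : ℝ) with hTb
  set Tc := κ⁻¹ * ((Bc.card : ℝ) * (4 * X + 64 * s2 * κ / (m : ℝ) ^ 2)) with hTc
  set Td := κ⁻¹ * (4 * X + 64 * s2 * κ / (m : ℝ) ^ 2) with hTd
  have pa : 0 < Ta := by positivity
  have pb : 0 < Tb := by positivity
  have pc : 0 < Tc := by positivity
  have pd : 0 < Td := by positivity
  have key := ev_fam hb ht x₀ hT hS hB hg (S := Sf κ Bb Bc)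
    (A := Nf (Aa / t) (Ab / t) (Ac * (r : ℝ) ^ 2 / (t * κ ^ 2)) (1 / (t * κ) ^ 2))
    (T' := Nf Ta Tb Tc Td) ?_ ?_ ?_ (tr_four' hT hN hκ hm hmκ hS Bb Bc) ?_
  · obtain ⟨G, mG, hG, hF⟩ := key
    refine ⟨G, mG, hG.trans ?_, fun F hFG => ?_⟩
    · rw [sum_opt]
      have e1 : Real.exp (1 / 2 - t * (Aa / t) / (64 * Ta)) ≤ Real.exp (-E) := by
        refine Real.exp_le_exp.2 ?_
        have h1 : E + 1 / 2 ≤ t * (Aa / t) / (64 * Ta) := by
          rw [mul_div_cancel₀ _ ht.ne', le_div_iff₀ (by positivity)]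
          refine le_trans (le_of_eq ?_) a2
          rw [hTa]
          ring
        linarith
      have e2 : Real.exp (1 / 2 - t * (Ab / t) / (64 * Tb)) ≤ Real.exp (-E) := by
        refine Real.exp_le_exp.2 ?_
        have h1 : E + 1 / 2 ≤ t * (Ab / t) / (64 * Tb) := by
          rw [mul_div_cancel₀ _ ht.ne', le_div_iff₀ (by positivity)]
          refine le_trans (le_of_eq ?_) b2
          rw [hTb]
          ring
        linarith
      have e3 : Real.exp (1 / 2 - t * (Ac * (r : ℝ) ^ 2 / (t * κ ^ 2)) / (64 * Tc)) ≤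
          Real.exp (-E) := by
        refine Real.exp_le_exp.2 ?_
        have h1 : E + 1 / 2 ≤ t * (Ac * (r : ℝ) ^ 2 / (t * κ ^ 2)) / (64 * Tc) := by
          rw [div_le_iff₀ (by positivity)] at c2
          have h2 : t * (Ac * (r : ℝ) ^ 2 / (t * κ ^ 2)) = Ac * (r : ℝ) ^ 2 / κ ^ 2 := by
            field_simp
          rw [h2, le_div_iff₀ (by positivity), le_div_iff₀ (by positivity)]
          refine le_trans (le_of_eq ?_) c2
          rw [hTc]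
          field_simp
        linarith
      have e4 : Real.exp (1 / 2 - t * (1 / (t * κ) ^ 2) / (64 * Td)) ≤ Real.exp (-Ed) := by
        refine Real.exp_le_exp.2 ?_
        have h1 : Ed + 1 / 2 ≤ t * (1 / (t * κ) ^ 2) / (64 * Td) := by
          have h2 : t * (1 / (t * κ) ^ 2) = 1 / (t * κ ^ 2) := by
            field_simp
          rw [h2, le_div_iff₀ (by positivity), le_div_iff₀ (by positivity)]
          refine le_trans (le_of_eq ?_) d2
          rw [hTd]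
          field_simp
        linarith
      have e5 : ∑ x : V N, Real.exp (1 / 2 - t * (1 / (t * κ) ^ 2) / (64 * Td)) ≤
          (N : ℝ) ^ 2 * Real.exp (-Ed) := by
        rw [Finset.sum_const, Finset.card_univ, nsmul_eq_mul, card_V]
        exact mul_le_mul_of_nonneg_left e4 (by positivity)
      have e6 : Real.exp (1 / 2 - t * (Aa / t) / (64 * Ta)) +
          Real.exp (1 / 2 - t * (Ab / t) / (64 * Tb)) +
          Real.exp (1 / 2 - t * (Ac * (r : ℝ) ^ 2 / (t * κ ^ 2)) / (64 * Tc)) ≤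
          3 * Real.exp (-E) := by linarith
      have e7 := add_le_add e6 e5
      have e8 := add_le_add (le_refl (Pp (wT b N) x₀ (HtB T B)ᶜ)) e7
      refine e8.trans (le_of_eq ?_)
      ring
    · set f := Mw w χ β T *ᵥ (F + g) with hf
      have hpot : pot κ f = Rl κ *ᵥ f := (pot_unique hκ.le (H340.Rl_eqn hκ.le f)).symm
      have f1 : qf (Rl κ) f < Aa / t := hF F hFG none
      have f2 : qf (IB Bb) f < Ab / t := hF F hFG (some none)
      have f3 : qf (Sc κ Bc) f < Ac * (r : ℝ) ^ 2 / (t * κ ^ 2) := hF F hFG (some (some none))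
      have f4 : ∀ x, qf (Sc κ {x}) f < 1 / (t * κ) ^ 2 := fun x => hF F hFG (some (some (some x)))
      refine ⟨?_, ?_, ?_, ?_⟩
      · rw [Qa_eq (pot_eq hκ.le f), hpot]
        have h1 : ∑ x, f x * (Rl κ *ᵥ f) x = qf (Rl κ) f := by
          rw [H37.qf_eq]
          rfl
        rw [h1]
        rw [lt_div_iff₀ ht] at f1
        linarith
      · unfold Qb
        rw [qf_IB] at f2
        rw [lt_div_iff₀ ht] at f2
        linarith
      · unfold Qc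
        rw [hpot, Finset.card_singleton]
        rw [qf_Sc] at f3
        rw [lt_div_iff₀ (by positivity)] at f3
        push_cast
        have h1 : (1 / (r : ℝ)) ^ 2 * (t * κ ^ 2) *
            ∑ x ∈ Bc, (gr (Rl κ *ᵥ f) (x, false) ^ 2 + gr (Rl κ *ᵥ f) (x, true) ^ 2) =
            ((∑ x ∈ Bc, (gr (Rl κ *ᵥ f) (x, false) ^ 2 + gr (Rl κ *ᵥ f) (x, true) ^ 2)) *
              (t * κ ^ 2)) / (r : ℝ) ^ 2 := by
          field_simp
        rw [h1, div_le_iff₀ (by positivity)]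
        exact f3.le
      · rintro ⟨x, e⟩
        rw [hpot]
        have h1 := f4 x
        rw [qf_Sc, Finset.sum_singleton, lt_div_iff₀ (by positivity)] at h1
        have h2 : gr (Rl κ *ᵥ f) (x, e) ^ 2 ≤
            gr (Rl κ *ᵥ f) (x, false) ^ 2 + gr (Rl κ *ᵥ f) (x, true) ^ 2 := by
          cases e
          · exact le_add_of_nonneg_right (sq_nonneg _)
          · exact le_add_of_nonneg_left (sq_nonneg _)
        have h3 : (t * κ * gr (Rl κ *ᵥ f) (x, e)) ^ 2 ≤ 1 := by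
          have h4 := mul_le_mul_of_nonneg_right h2 (sq_nonneg (t * κ))
          rw [mul_pow, mul_comm]
          linarith
        exact (sq_le_one_iff_abs_le_one _).1 h3
  · rintro (_ | _ | _ | x)
    · exact (ti_Rl κ).transpose
    · exact IB_symm Bb
    · exact Sc_symm κ Bc
    · exact Sc_symm κ {x}
  · rintro (_ | _ | _ | x) u
    · exact H340.qf_Rl_nonneg hκ.le u
    · show 0 ≤ qf (IB Bb) u
      rw [qf_IB]
      exact Finset.sum_nonneg fun x _ => sq_nonneg _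
    · exact Sc_nonneg κ Bc u
    · exact Sc_nonneg κ {x} u
  · rintro (_ | _ | _ | x)
    · exact pa
    · exact pb
    · exact pc
    · exact pd
  · rintro (_ | _ | _ | x) f hf hf0
    · show qf (Rl κ) f < Aa / t / 16
      refine lt_of_le_of_lt ((H340.qf_Rl_le hκ.le f).trans (sum_sq_supp hf hf0)) ?_
      rw [div_div, lt_div_iff₀ (by positivity)]
      linarith
    · show qf (IB Bb) f < Ab / t / 16
      rw [qf_IB]
      refine lt_of_le_of_lt (sum_sq_set hf Bb) ?_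
      rw [div_div, lt_div_iff₀ (by positivity)]
      linarith
    · show qf (Sc κ Bc) f < Ac * (r : ℝ) ^ 2 / (t * κ ^ 2) / 16
      refine lt_of_le_of_lt (Sc_bdd hN hm hmκ hf Bc) ?_
      rw [div_lt_iff₀ (by positivity)] at c1
      rw [div_div, lt_div_iff₀ (by positivity)]
      have e1 : 2 * (4 * (2 * B) / m) ^ 2 * (Bc.card : ℝ) * (t * κ ^ 2 * 16) =
          (2048 * (t * κ ^ 2) * B ^ 2 * (Bc.card : ℝ)) / (m : ℝ) ^ 2 := by
        field_simp
        ring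
      rw [e1, div_lt_iff₀ (by positivity)]
      refine c1.trans_le (le_of_eq ?_)
      ring
    · show qf (Sc κ {x}) f < 1 / (t * κ) ^ 2 / 16
      refine lt_of_le_of_lt (Sc_bdd hN hm hmκ hf {x}) ?_
      rw [Finset.card_singleton, div_div, lt_div_iff₀ (by positivity)]
      refine lt_of_le_of_lt (le_of_eq ?_) d1
      push_cast
      field_simp
      ring

end

end Vale.Agent.P159.H276.Cm
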