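import Vale.Agent.P159.H239.Ap1

/-!
P159 / module DOWN (helper276), part 1: the remainder `R` of the posterior (higher mass) is bounded
by the remainder of the prior (lower mass).  For `e = b - P^T P G b`, `G` the covariance of the
posterior at zero source,

`R(b) <= R'(e) + (<e, G' e> - <b, G e>) / 2 + Theta`,

`Theta = log Z'(0) - log Z(0) - log (Gaussian integral of exp (<P^T g, G P^T g> / 2)) >= 0`.
-/

namespace Vale.Agent.P159.H276

open Finset Matrix MeasureTheory ProbabilityTheory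
open Vale.Agent.P159.TM.H104 (EM Ex Cv K3 Lg li nh Gr)
open Vale.Agent.P159.H37
open Vale.Agent.P159.H663 (GC Gm_ge)
open Vale.Agent.P159.H239 (Zs_eq_exp)

noncomputable section

variable {V : Type*} [Fintype V] {I : Type*} [Fintype I]

/-- the Gaussian integral of the quadratic part -/
def dB (μ : (V → ℤ) → ℝ) (P : Matrix I V ℝ) : ℝ :=
  ∫ g : I → ℝ, Real.exp (qf (Gm μ) (Pᵀ *ᵥ g) / 2) ∂(gau I)

/-- the free energy defect of the channel `P` at zero source -/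
def Th (μ' : (V → ℤ) → ℝ) (P : Matrix I V ℝ) : ℝ :=
  Real.log (Zs μ' 0) - Real.log (Zs (post μ' P) 0) - Real.log (dB (post μ' P) P)

section

variable {μ' : (V → ℤ) → ℝ}

/-- the normalisation in terms of the remainder, shifted source -/
theorem Zs_shift (hμ : EM μ') (P : Matrix I V ℝ) {b e : V → ℝ}
    (he : e = b - Pᵀ *ᵥ (P *ᵥ (Gm (post μ' P) *ᵥ b))) :
    Zs μ' e = Zs (post μ' P) 0 * (Real.exp (bf (Gm (post μ' P)) b e / 2) *
      ∫ g : I → ℝ, Real.exp (qf (Gm (post μ' P)) (Pᵀ *ᵥ g) / 2) *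
        Real.exp (Rs (post μ' P) (b + Pᵀ *ᵥ g)) ∂(gau I)) := by
  have hpo := em_post hμ P
  set μ := post μ' P with hμd
  set G := Gm μ with hG
  set a : I → ℝ := P *ᵥ (G *ᵥ b) with ha
  have hGs : Gᵀ = G := H663.Gm_symm μ
  -- `Z'(e)` as an integral over the noise, `e + P^T g = b + P^T (g - a)`
  have h3 : ∀ g : I → ℝ, e + Pᵀ *ᵥ g = b + Pᵀ *ᵥ (g + -a) := by
    intro g
    rw [he, mulVec_add, mulVec_neg]
    abel
  have h4 : Zs μ' e = ∫ g : I → ℝ, Zs μ (b + Pᵀ *ᵥ (g + -a)) ∂(gau I) := by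
    rw [← ch_norm hμ e P]
    refine integral_congr_ae (Filter.Eventually.of_forall fun g => ?_)
    simp only
    rw [← h3 g]
  have h2 := gau_shift (-a) fun g => Zs μ (b + Pᵀ *ᵥ g)
  rw [h4, h2, ← integral_const_mul, ← integral_const_mul]
  refine integral_congr_ae (Filter.Eventually.of_forall fun g => ?_)
  simp only
  rw [Zs_eq_exp hpo (b + Pᵀ *ᵥ g)]
  have h5 : qf G (b + Pᵀ *ᵥ g) = qf G b + 2 * bf G b (Pᵀ *ᵥ g) + qf G (Pᵀ *ᵥ g) :=
    qf_add_vec hGs b _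
  have h6 : bf G b (Pᵀ *ᵥ g) = ∑ i, a i * g i := by
    rw [bf_eq, mulVec_transpose, ha]
    have : b ⬝ᵥ G *ᵥ (g ᵥ* P) = (G *ᵥ b) ⬝ᵥ (g ᵥ* P) := by
      rw [dotProduct_mulVec, ← mulVec_transpose, hGs]
    rw [this, dotProduct_comm, ← dotProduct_mulVec, dotProduct_comm]
    rfl
  have h7 : bf G b e = qf G b - ∑ i, a i ^ 2 := by
    rw [he, bf_eq, mulVec_sub, dotProduct_sub, ← qf_eq]
    congr 1
    have : b ⬝ᵥ G *ᵥ (Pᵀ *ᵥ (P *ᵥ (G *ᵥ b))) = a ⬝ᵥ a := by
      rw [dotProduct_mulVec, ← mulVec_transpose, hGs, dotProduct_mulVec, vecMul_transpose]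
    rw [this]
    unfold dotProduct
    exact Finset.sum_congr rfl fun i _ => by ring
  have h8 : ∑ i, (-a i) ^ 2 = ∑ i, a i ^ 2 := Finset.sum_congr rfl fun i _ => by ring
  rw [h5, h6, h7]
  simp only [Pi.neg_apply, neg_mul, Finset.sum_neg_distrib]
  rw [h8]
  generalize hA : -∑ i, a i * g i - (∑ i, a i ^ 2) / 2 = A
  generalize hB : Rs μ (b + Pᵀ *ᵥ g) + (qf G b + 2 * ∑ i, a i * g i + qf G (Pᵀ *ᵥ g)) / 2 = B
  have h10 : Zs μ 0 * (Real.exp ((qf G b - ∑ i, a i ^ 2) / 2) *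
      (Real.exp (qf G (Pᵀ *ᵥ g) / 2) * Real.exp (Rs μ (b + Pᵀ *ᵥ g)))) =
      Zs μ 0 * Real.exp (A + B) := by
    rw [← Real.exp_add, ← Real.exp_add]
    congr 2
    rw [← hA, ← hB]
    ring
  rw [h10, Real.exp_add A B]
  ring

/-- integrability of the two parts of the density -/
theorem int_shift (hμ : EM μ') (P : Matrix I V ℝ) {b e : V → ℝ}
    (he : e = b - Pᵀ *ᵥ (P *ᵥ (Gm (post μ' P) *ᵥ b))) :
    Integrable (fun g : I → ℝ => Real.exp (qf (Gm (post μ' P)) (Pᵀ *ᵥ g) / 2) *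
      Real.exp (Rs (post μ' P) (b + Pᵀ *ᵥ g))) (gau I) := by
  by_contra hcon
  have h1 := Zs_shift hμ P he
  rw [integral_undef hcon, mul_zero, mul_zero] at h1
  exact (Zs_pos hμ e).ne' h1

theorem dB_int (hμ : EM μ') (P : Matrix I V ℝ) (hE : Ev (post μ' P)) (hK : PK (post μ' P)) :
    Integrable (fun g : I → ℝ => Real.exp (qf (Gm (post μ' P)) (Pᵀ *ᵥ g) / 2)) (gau I) := by
  have hpo := em_post hμ P
  have h1 := int_shift hμ P (b := (0 : V → ℝ)) (e := 0) (by simp)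
  refine h1.mono' ?_ (Filter.Eventually.of_forall fun g => ?_)
  · exact ((((H114.continuous_qf _).comp (H114.continuous_obs P)).div_const 2).rexp
      ).aestronglyMeasurable
  · rw [Real.norm_eq_abs, abs_of_pos (Real.exp_pos _)]
    exact le_mul_of_one_le_right (Real.exp_pos _).le
      (Real.one_le_exp (H789.Rs_nonneg hpo hE hK _))

theorem one_le_dB (hμ : EM μ') (P : Matrix I V ℝ) (hE : Ev (post μ' P)) (hK : PK (post μ' P)) :
    1 ≤ dB (post μ' P) P := by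
  have hpo := em_post hμ P
  have h1 : ∫ _g : I → ℝ, (1 : ℝ) ∂(gau I) ≤ dB (post μ' P) P := by
    refine integral_mono (integrable_const _) (dB_int hμ P hE hK) fun g => ?_
    simp only
    refine Real.one_le_exp (div_nonneg ?_ (by norm_num))
    exact H114.qf_Cm_nonneg hpo 0 _
  simpa using h1

/-- **DOWN, multiplicative form** -/
theorem down_mul (hμ : EM μ') (P : Matrix I V ℝ) (hE : Ev (post μ' P)) (hK : PK (post μ' P))
    {b e : V → ℝ} (he : e = b - Pᵀ *ᵥ (P *ᵥ (Gm (post μ' P) *ᵥ b))) :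
    Zs (post μ' P) 0 * (Real.exp (bf (Gm (post μ' P)) b e / 2) *
      (dB (post μ' P) P * Real.exp (Rs (post μ' P) b))) ≤ Zs μ' e := by
  have hpo := em_post hμ P
  rw [Zs_shift hμ P he]
  refine mul_le_mul_of_nonneg_left (mul_le_mul_of_nonneg_left ?_ (Real.exp_pos _).le)
    (Zs_pos hpo _).le
  set μ := post μ' P with hμd
  set G := Gm μ with hG
  have hi := int_shift hμ P he
  have hj : Integrable (fun g : I → ℝ => Real.exp (qf G (Pᵀ *ᵥ g) / 2) *
      Real.exp (Rs μ (b - Pᵀ *ᵥ g))) (gau I) := by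
    have h1 := (gau_neg (I := I)).integrable_comp_of_integrable hi
    refine h1.congr (Filter.Eventually.of_forall fun g => ?_)
    simp only [Function.comp]
    rw [mulVec_neg, qf_neg, ← sub_eq_add_neg]
  have he2 : ∫ g : I → ℝ, Real.exp (qf G (Pᵀ *ᵥ g) / 2) * Real.exp (Rs μ (b - Pᵀ *ᵥ g)) ∂(gau I)
      = ∫ g : I → ℝ, Real.exp (qf G (Pᵀ *ᵥ g) / 2) * Real.exp (Rs μ (b + Pᵀ *ᵥ g)) ∂(gau I) := by
    have h1 := (gau_neg (I := I)).integral_comp
      (MeasurableEquiv.neg (I → ℝ)).measurableEmbedding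
      (fun g : I → ℝ => Real.exp (qf G (Pᵀ *ᵥ g) / 2) * Real.exp (Rs μ (b + Pᵀ *ᵥ g)))
    rw [← h1]
    refine integral_congr_ae (Filter.Eventually.of_forall fun g => ?_)
    simp only
    rw [mulVec_neg, qf_neg, ← sub_eq_add_neg]
  have h1 : dB μ P * Real.exp (Rs μ b) ≤ ∫ g : I → ℝ, (1 / 2) * (Real.exp (qf G (Pᵀ *ᵥ g) / 2) *
      Real.exp (Rs μ (b + Pᵀ *ᵥ g)) + Real.exp (qf G (Pᵀ *ᵥ g) / 2) *
      Real.exp (Rs μ (b - Pᵀ *ᵥ g))) ∂(gau I) := by
    unfold dB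
    rw [← integral_mul_const]
    refine integral_mono ((dB_int hμ P hE hK).mul_const _) ((hi.add hj).const_mul _) fun g => ?_
    simp only
    have hc := (H789.Rs_convex hpo hE hK).2 (Set.mem_univ (b + Pᵀ *ᵥ g))
      (Set.mem_univ (b - Pᵀ *ᵥ g)) (show (0 : ℝ) ≤ 1 / 2 by norm_num)
      (show (0 : ℝ) ≤ 1 / 2 by norm_num) (by norm_num)
    have e1 : (1 / 2 : ℝ) • (b + Pᵀ *ᵥ g) + (1 / 2 : ℝ) • (b - Pᵀ *ᵥ g) = b := by module
    rw [e1] at hc
    simp only [smul_eq_mul] at hc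
    set u := Rs μ (b + Pᵀ *ᵥ g) with hu
    set v := Rs μ (b - Pᵀ *ᵥ g) with hv
    have h2 : Real.exp (Rs μ b) ≤ (1 / 2) * (Real.exp u + Real.exp v) := by
      have h3 : Real.exp (Rs μ b) ≤ Real.exp ((1 / 2) * u + (1 / 2) * v) := Real.exp_le_exp.2 hc
      have h4 := convexOn_exp.2 (Set.mem_univ u) (Set.mem_univ v)
        (show (0 : ℝ) ≤ 1 / 2 by norm_num) (show (0 : ℝ) ≤ 1 / 2 by norm_num) (by norm_num)
      simp only [smul_eq_mul] at h4
      linarith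
    have h5 := mul_le_mul_of_nonneg_left h2 (Real.exp_pos (qf G (Pᵀ *ᵥ g) / 2)).le
    linarith
  refine h1.trans (le_of_eq ?_)
  rw [integral_const_mul, integral_add hi hj, he2]
  ring

/-- **DOWN.** The remainder at the higher mass from the remainder at the lower mass. -/
theorem down (hμ : EM μ') (P : Matrix I V ℝ) (hE : Ev (post μ' P)) (hK : PK (post μ' P))
    {b e : V → ℝ} (he : e = b - Pᵀ *ᵥ (P *ᵥ (Gm (post μ' P) *ᵥ b))) :
    Rs (post μ' P) b ≤ Rs μ' e + (qf (Gm μ') e - bf (Gm (post μ' P)) b e) / 2 + Th μ' P := by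
  have hpo := em_post hμ P
  have h1 := down_mul hμ P hE hK he
  have hZ0 := Zs_pos hpo (0 : V → ℝ)
  have hB : 0 < dB (post μ' P) P := lt_of_lt_of_le one_pos (one_le_dB hμ P hE hK)
  have h2 := Real.log_le_log (by positivity) h1
  rw [Real.log_mul hZ0.ne' (by positivity), Real.log_mul (Real.exp_pos _).ne' (by positivity),
    Real.log_mul hB.ne' (Real.exp_pos _).ne', Real.log_exp, Real.log_exp] at h2
  have h3 : Rs μ' e = Real.log (Zs μ' e) - Real.log (Zs μ' 0) - qf (Gm μ') e / 2 := rfl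
  unfold Th
  linarith

theorem Th_nonneg (hμ : EM μ') (P : Matrix I V ℝ) (hE : Ev (post μ' P)) (hK : PK (post μ' P)) :
    0 ≤ Th μ' P := by
  have h1 := down hμ P hE hK (b := (0 : V → ℝ)) (e := 0) (by simp)
  rw [H789.Rs_zero, H789.Rs_zero] at h1
  simpa [qf, bf] using h1

end

end

end Vale.Agent.P159.H276
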