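import Vale.Agent.P159.H276.Down
import Vale.Agent.P159.H159.Drec3
import Vale.Agent.P159.H730.Law

/-!
P159 / module DOWN (helper276), part 2: the two one-step inequalities for the free energy defect
`Theta` (Jensen on both sides) and the summation over a partition of the mass interval.
-/

namespace Vale.Agent.P159.H276

open Finset Matrix MeasureTheory ProbabilityTheory
open Vale.Agent.P159.TM.H104 (EM Ex Cv K3 Lg li nh Gr)
open Vale.Agent.P159.H37

noncomputable section

/-! ### the weight -/

section weight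

variable {V : Type} [Fintype V] [DecidableEq V] {I : Type*} [Fintype I]

lemma obs_sq (P : Matrix I V ℝ) (u : V → ℝ) : ∑ i, (P *ᵥ u) i ^ 2 = qf (Pᵀ * P) u := by
  rw [H37.qf_eq, ← mulVec_mulVec, dotProduct_mulVec, vecMul_transpose]
  unfold dotProduct
  exact Finset.sum_congr rfl fun i _ => by ring

/-- free energy of the posterior from below: Jensen -/
theorem Lg_post_ge {μ : (V → ℤ) → ℝ} (hμ : EM μ) (hE : Ev μ) (P : Matrix I V ℝ) :
    Real.log (Zs μ 0) - ((Pᵀ * P) * Gm μ).trace / 2 ≤ Real.log (Zs (post μ P) 0) := by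
  set S : Matrix V V ℝ := Pᵀ * P with hS
  have hq0 : ∀ h : V → ℤ, 0 ≤ qf S (re h) := fun h => by
    rw [hS, ← obs_sq]
    exact sum_nonneg fun _ _ => sq_nonneg _
  have hm := H159.Ex_qf_tr hμ hE S
  set m : ℝ := (S * Gm μ).trace with hmd
  have hgr : Gr fun h : V → ℤ => qf S (re h) := H447.gr_qf S
  have hge : Gr fun h : V → ℤ => Real.exp (-(qf S (re h) / 2)) :=
    Gr.of_bdd (C := 1) fun h => by
      rw [abs_of_pos (Real.exp_pos _), ← Real.exp_zero]
      exact Real.exp_le_exp.2 (by linarith [hq0 h])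
  have h1 : Zs (post μ P) 0 = Zs μ 0 * Ex μ 0 fun h => Real.exp (-(qf S (re h) / 2)) := by
    have e1 : Zs (post μ P) 0 = TM.H104.T μ 0 fun h => Real.exp (-(qf S (re h) / 2)) := by
      unfold Zs TM.H104.T
      refine tsum_congr fun h => ?_
      unfold post
      rw [obs_sq]
      ring
    rw [e1]
    unfold Ex Zs
    rw [mul_div_cancel₀]
    exact (TM.H104.T_one_pos hμ 0).ne'
  have h2 : Real.exp (-(m / 2)) ≤ Ex μ 0 fun h => Real.exp (-(qf S (re h) / 2)) := by
    have h3 : Ex μ 0 (fun h => Real.exp (-(m / 2)) * (1 + m / 2) +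
        (-(Real.exp (-(m / 2)) / 2)) * qf S (re h)) ≤
        Ex μ 0 fun h => Real.exp (-(qf S (re h) / 2)) := by
      refine TM.H104.Ex_mono hμ ((Gr.const _).add (hgr.cmul _)) hge (fun h => ?_) 0
      have h4 := Real.add_one_le_exp (-(qf S (re h) / 2) + m / 2)
      have h5 : Real.exp (-(qf S (re h) / 2)) =
          Real.exp (-(m / 2)) * Real.exp (-(qf S (re h) / 2) + m / 2) := by
        rw [← Real.exp_add]
        congr 1
        ring
      rw [h5]
      have h6 := mul_le_mul_of_nonneg_left h4 (Real.exp_pos (-(m / 2))).le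
      linarith
    rw [TM.H104.Ex_add hμ (Gr.const _) (hgr.cmul _), TM.H104.Ex_const hμ, TM.H104.Ex_cmul,
      hm] at h3
    have h7 : Real.exp (-(m / 2)) * (1 + m / 2) + -(Real.exp (-(m / 2)) / 2) * m =
        Real.exp (-(m / 2)) := by ring
    linarith
  have hZ := Zs_pos hμ (0 : V → ℝ)
  rw [h1, Real.log_mul hZ.ne' (lt_of_lt_of_le (Real.exp_pos _) h2).ne']
  have h3 := Real.log_le_log (Real.exp_pos _) h2
  rw [Real.log_exp] at h3
  linarith

end weight

/-! ### the Gaussian integral -/

section gauss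

variable {I : Type*} [Fintype I] [DecidableEq I]

/-- second moments of a Gaussian vector -/
lemma gau_qf {J : Type*} [Fintype J] (K : Matrix I I ℝ) (B : Matrix I J ℝ) :
    ∫ g : J → ℝ, qf K (B *ᵥ g) ∂(gau J) = (K * (B * Bᵀ)).trace := by
  have e : ∀ g : J → ℝ, qf K (B *ᵥ g) = ∑ x, ∑ y, K x y * ((∑ j, B x j * g j) *
      ∑ j, B y j * g j) := by
    intro g
    unfold qf
    refine Finset.sum_congr rfl fun x _ => Finset.sum_congr rfl fun y _ => ?_
    change (∑ j, B x j * g j) * K x y * (∑ j, B y j * g j) = _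
    ring
  simp only [e]
  have hi : ∀ x y : I, Integrable (fun g : J → ℝ => K x y * ((∑ j, B x j * g j) *
      ∑ j, B y j * g j)) (gau J) := fun x y => (H663.int_lin_mul _ _).const_mul _
  rw [integral_finsetSum _ fun x _ => integrable_finsetSum _ fun y _ => hi x y]
  unfold Matrix.trace
  refine Finset.sum_congr rfl fun x _ => ?_
  rw [integral_finsetSum _ fun y _ => hi x y, Matrix.diag_apply, Matrix.mul_apply]
  refine Finset.sum_congr rfl fun y _ => ?_
  rw [integral_const_mul, H663.gau_lin_mul, Matrix.mul_apply]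
  congr 1
  refine Finset.sum_congr rfl fun j _ => ?_
  rw [Matrix.transpose_apply]
  ring

/-- the Gaussian integral as a function of the strength -/
def Hq (K : Matrix I I ℝ) (u : ℝ) : ℝ := ∫ g : I → ℝ, Real.exp (u * qf K g / 2) ∂(gau I)

lemma Hq_int {K : Matrix I I ℝ} (h0 : ∀ g, 0 ≤ qf K g) {u q : ℝ} (huq : u ≤ q)
    (hi : Integrable (fun g : I → ℝ => Real.exp (q * qf K g / 2)) (gau I)) :
    Integrable (fun g : I → ℝ => Real.exp (u * qf K g / 2)) (gau I) := by
  refine hi.mono' ?_ (Filter.Eventually.of_forall fun g => ?_)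
  · have : Measurable fun g : I → ℝ => qf K g := by
      unfold qf
      fun_prop
    exact (((this.const_mul u).div_const 2).exp).aestronglyMeasurable
  · rw [Real.norm_eq_abs, abs_of_pos (Real.exp_pos _)]
    exact Real.exp_le_exp.2 (by nlinarith [mul_le_mul_of_nonneg_right huq (h0 g)])

/-- Jensen for the Gaussian integral -/
theorem Hq_step {K : Matrix I I ℝ} (hK : Kᵀ = K) (h0 : ∀ g, 0 ≤ qf K g) {u u' : ℝ}
    (hu : 0 ≤ u) (huu : u ≤ u')
    (hi : Integrable (fun g : I → ℝ => Real.exp (u' * qf K g / 2)) (gau I))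
    {B : Matrix I I ℝ} (hB : B * Bᵀ * (1 - u • K) = 1) :
    Real.log (Hq K u) + (u' - u) / 2 * (K * (B * Bᵀ)).trace ≤ Real.log (Hq K u') := by
  have hqs : ∀ (c : ℝ) (g : I → ℝ), qf (c • K) g = c * qf K g := fun c g => H864.qf_smul_mat c K g
  have hi0 := Hq_int h0 huu hi
  have hmq : Measurable fun g : I → ℝ => qf K g := by
    unfold qf
    fun_prop
  have hKs : (u • K)ᵀ = u • K := by rw [transpose_smul, hK]
  have hK0 : ∀ g, 0 ≤ qf (u • K) g := fun g => by
    rw [hqs]
    exact mul_nonneg hu (h0 g)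
  have hi0' : Integrable (fun g : I → ℝ => Real.exp (qf (u • K) g / 2)) (gau I) := by
    simpa only [hqs] using hi0
  have ht := H730.tilt_up hKs hK0 hi0' hB hmq
  simp only [hqs] at ht
  rw [gau_qf] at ht
  set m : ℝ := (K * (B * Bᵀ)).trace with hm
  have hH : 0 < Hq K u := by
    have := H730.int_expqf_pos hi0'
    simpa only [hqs, Hq] using this
  -- integrability of the first moment
  have hi1 : Integrable (fun g : I → ℝ => qf K g * Real.exp (u * qf K g / 2)) (gau I) := by
    have h1 : Integrable (fun g : I → ℝ => qf K (B *ᵥ g)) (gau I) := by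
      have e : (fun g : I → ℝ => qf K (B *ᵥ g)) = fun g => ∑ x, ∑ y, K x y *
          ((∑ j, B x j * g j) * ∑ j, B y j * g j) := by
        funext g
        unfold qf
        refine Finset.sum_congr rfl fun x _ => Finset.sum_congr rfl fun y _ => ?_
        change (∑ j, B x j * g j) * K x y * (∑ j, B y j * g j) = _
        ring
      rw [e]
      exact integrable_finsetSum _ fun x _ => integrable_finsetSum _ fun y _ =>
        (H663.int_lin_mul _ _).const_mul _
    have h2 := (H730.tilt_up_integrable hKs hK0 hi0' hB hmq).2 h1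
    simpa only [hqs] using h2
  set a : ℝ := (u' - u) / 2 with ha
  have ha0 : 0 ≤ a := by rw [ha]; linarith
  have h3 : Real.exp (a * m) * Hq K u ≤ Hq K u' := by
    have h4 : ∫ g : I → ℝ, (Real.exp (a * m) * (1 - a * m) * Real.exp (u * qf K g / 2) +
        Real.exp (a * m) * a * (qf K g * Real.exp (u * qf K g / 2))) ∂(gau I) ≤ Hq K u' := by
      unfold Hq
      refine integral_mono ((hi0.const_mul _).add (hi1.const_mul _)) hi fun g => ?_
      simp only
      have h5 := Real.add_one_le_exp (a * qf K g - a * m)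
      have h6 : Real.exp (u' * qf K g / 2) =
          Real.exp (a * m) * (Real.exp (a * qf K g - a * m) * Real.exp (u * qf K g / 2)) := by
        rw [← Real.exp_add, ← Real.exp_add]
        congr 1
        rw [ha]
        ring
      rw [h6]
      have h7 := mul_le_mul_of_nonneg_right h5 (Real.exp_pos (u * qf K g / 2)).le
      have h8 := mul_le_mul_of_nonneg_left h7 (Real.exp_pos (a * m)).le
      linarith
    rw [integral_add (hi0.const_mul _) (hi1.const_mul _), integral_const_mul, integral_const_mul,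
      ht] at h4
    have h9 : Real.exp (a * m) * (1 - a * m) * ∫ g : I → ℝ, Real.exp (u * qf K g / 2) ∂(gau I) +
        Real.exp (a * m) * a * ((∫ g : I → ℝ, Real.exp (u * qf K g / 2) ∂(gau I)) * m) =
        Real.exp (a * m) * Hq K u := by
      unfold Hq
      ring
    linarith
  have h10 := Real.log_le_log (mul_pos (Real.exp_pos _) hH) h3
  rw [Real.log_mul (Real.exp_pos _).ne' hH.ne', Real.log_exp] at h10
  linarith

end gauss

/-! ### the partition -/

/-- summation of `f(s') - f(s) <= (s - s') (w + g(s') - g(s)) / 2` over finer and finer partitions -/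
theorem part_le {f g : ℝ → ℝ} {t τ w : ℝ} (hτ : t ≤ τ)
    (h : ∀ s s', t ≤ s' → s' ≤ s → s ≤ τ → f s' - f s ≤ (s - s') / 2 * (w + g s' - g s)) :
    f t - f τ ≤ (τ - t) / 2 * w := by
  have hn : ∀ n : ℕ, 0 < n → f t - f τ ≤ (τ - t) / 2 * w + (τ - t) / (2 * n) * (g t - g τ) := by
    intro n hn
    have hn' : (0 : ℝ) < n := by exact_mod_cast hn
    set d : ℝ := (τ - t) / n with hd
    have hd0 : 0 ≤ d := div_nonneg (by linarith) hn'.le
    have hk : ∀ k : ℕ, k ≤ n → f (τ - k * d) - f τ ≤
        k * (d / 2 * w) + d / 2 * (g (τ - k * d) - g τ) := by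
      intro k
      induction k with
      | zero => intro _; simp
      | succ k ih =>
        intro hk
        have h1 := ih (by omega)
        have hkn : ((k + 1 : ℕ) : ℝ) ≤ n := by exact_mod_cast hk
        push_cast at hkn
        have hnd : (n : ℝ) * d = τ - t := by rw [hd]; field_simp
        have h2 := h (τ - k * d) (τ - (k + 1 : ℕ) * d) (by push_cast; nlinarith)
          (by push_cast; nlinarith) (by nlinarith [Nat.cast_nonneg (α := ℝ) k])
        push_cast at h2 ⊢
        have h3 : (τ - k * d - (τ - (k + 1) * d)) / 2 = d / 2 := by ring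
        rw [h3] at h2
        linarith
    have h1 := hk n le_rfl
    have hnd : (n : ℝ) * d = τ - t := by rw [hd]; field_simp
    rw [hnd] at h1
    have e1 : τ - (τ - t) = t := by ring
    rw [e1] at h1
    have e2 : (n : ℝ) * (d / 2 * w) = (τ - t) / 2 * w := by rw [← hnd]; ring
    have e3 : d / 2 = (τ - t) / (2 * n) := by rw [hd]; field_simp
    rw [e2, e3] at h1
    exact h1
  have hlim : Filter.Tendsto (fun n : ℕ => (τ - t) / 2 * w +
      (τ - t) / (2 * ((n : ℝ) + 1)) * (g t - g τ)) Filter.atTop (nhds ((τ - t) / 2 * w + 0)) := by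
    refine Filter.Tendsto.const_add _ ?_
    have h1 : Filter.Tendsto (fun n : ℕ => 1 / ((n : ℝ) + 1)) Filter.atTop (nhds 0) :=
      tendsto_one_div_add_atTop_nhds_zero_nat
    have h2 := h1.mul_const ((τ - t) / 2 * (g t - g τ))
    rw [zero_mul] at h2
    refine h2.congr fun n => ?_
    have : ((n : ℝ) + 1) ≠ 0 := by positivity
    field_simp
  rw [add_zero] at hlim
  refine ge_of_tendsto hlim (Filter.Eventually.of_forall fun n => ?_)
  have h1 := hn (n + 1) (Nat.succ_pos n)
  push_cast at h1
  exact h1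

end

end Vale.Agent.P159.H276
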