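import Vale.Agent.P159.H276.Eta2

/-!
P159 / module ETA (helper276), part 3: `trWt` in the letters of `H972.Good`
(`N = 2 ^ r`, `l = 2 ^ sE`, `t = tn n`, `ρ = 2 ^ (n - lg (pf / 8) e)`), and the root of `Wt`.
-/

namespace Vale.Agent.P159.H276

open Finset Matrix MeasureTheory ProbabilityTheory
open Vale.Agent.P159.TM.H104 (EM Ex Cv K3 Lg li nh Gr)
open Vale.Agent.P159.H37
open Vale.Agent.P159.TM.Spec (V)
open Vale.Agent.P159.H864 (TI sym fc ti_fc sym_fc Gc)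
open Vale.Agent.P159.H963
open Vale.Agent.P159.H972 (FL Par lg tn one_le_lg one_le_logb)

noncomputable section

section root

variable {N l : ℕ} [NeZero N] [NeZero (N / l)] {b : ℝ}

/-- the root of `Wt` -/
def sqW (N l : ℕ) [NeZero N] [NeZero (N / l)] (b t τ : ℝ) : Matrix (V (N / l)) (V (N / l)) ℝ :=
  fc Real.sqrt (Wt N l b t τ)

theorem ti_sqW (t τ : ℝ) : TI (sqW N l b t τ) := ti_fc _ _

theorem sqW_tr (t τ : ℝ) : (sqW N l b t τ)ᵀ = sqW N l b t τ := (ti_sqW t τ).transpose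

theorem sqW_mul (hb : 0 < b) (hl : l ∣ N) {t τ : ℝ} (ht : 0 < t) (h : t ≤ τ) :
    sqW N l b t τ * sqW N l b t τ = Wt N l b t τ := by
  refine H864.sym_inj ((ti_sqW t τ).mul (ti_sqW t τ)) (ti_Wt hb hl ht h) fun k => ?_
  rw [H864.sym_mul (ti_sqW t τ) (ti_sqW t τ)]
  unfold sqW
  rw [sym_fc, Real.mul_self_sqrt (sym_Wt_nonneg hb hl ht h k)]

theorem sq_sqW (hb : 0 < b) (hl : l ∣ N) {t τ : ℝ} (ht : 0 < t) (h : t ≤ τ)
    (φ : V (N / l) → ℝ) : ∑ x, (sqW N l b t τ *ᵥ φ) x ^ 2 = qf (Wt N l b t τ) φ := by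
  rw [← sqW_mul hb hl ht h, H37.qf_eq, ← mulVec_mulVec, dotProduct_mulVec, ← mulVec_transpose,
    sqW_tr]
  unfold dotProduct
  exact Finset.sum_congr rfl fun x _ => by ring

theorem tr_sqW (hb : 0 < b) (hl : l ∣ N) {t τ : ℝ} (ht : 0 < t) (h : t ≤ τ) :
    (sqW N l b t τ * (sqW N l b t τ)ᵀ).trace = (Wt N l b t τ).trace := by
  rw [sqW_tr, sqW_mul hb hl ht h]

/-- the zero mode vanishes -/
theorem sym_Wt_zero (hb : 0 < b) (hl : l ∣ N) {t τ : ℝ} (ht : 0 < t) (h : t ≤ τ) :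
    sym (Wt N l b t τ) 0 = 0 := by
  have hτ : 0 < τ := ht.trans_le h
  unfold Wt
  rw [H864.sym_add, H864.sym_smul, H864.sym_smul, H963.sym_Gnc_zero hl hb.le hτ le_rfl, mul_zero,
    add_zero]
  have h1 := sym_GcWm_nonneg hb hl ht h (0 : V (N / l))
  have h2 := sym_GcWm_diff hb hl ht h (0 : V (N / l))
  rw [H963.sym_Gnc_zero hl hb.le hτ le_rfl, H963.sym_Gnc_zero hl hb.le ht le_rfl, sub_zero] at h2
  rw [le_antisymm h2 h1, mul_zero]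

/-- every symbol of `Wt` is small against `1 / t` -/
theorem sym_Wt_le (hb : 0 < b) (hl : l ∣ N) {t τ a η : ℝ} (ht : 0 < t) (h1 : t ≤ τ)
    (h2 : τ ≤ 4 * t) (htN : 1 ≤ t * (N : ℝ) ^ 2) (F1 : FL b t a η N) (F4 : FL b (4 * t) a η N)
    (k : V (N / l)) :
    t * sym (Wt N l b t τ) k ≤ (1 + b) ^ 2 * η + 144 * b * (t * (l : ℝ) ^ 2) := by
  have hτ : 0 < τ := ht.trans_le h1
  have e1 := sym_GcWm_le hb hl ht (fun p => sym_Wm_FL hb ht h1 h2 htN F1 F4 p) k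
  have e2 := H963.sym_Gnc_le hb.le hl hτ le_rfl k
  have e3 := H963.sym_Gnc_nonneg hb.le hl hτ le_rfl k
  unfold Wt
  rw [H864.sym_add, H864.sym_smul, H864.sym_smul, mul_add]
  have f1 : t * (1 / 2 * sym (Gc l (Wm N b t τ)) k) ≤ (1 + b) ^ 2 * η := by
    calc t * (1 / 2 * sym (Gc l (Wm N b t τ)) k) ≤ t * (1 / 2 * (2 * (1 + b) ^ 2 * (η / t))) :=
          mul_le_mul_of_nonneg_left (mul_le_mul_of_nonneg_left e1 (by norm_num)) ht.le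
      _ = _ := by
          field_simp
  have f2 : t * (16 * b * (τ - t) ^ 2 * (l : ℝ) ^ 2 / t * sym (Gnc N l b τ τ) k) ≤
      144 * b * (t * (l : ℝ) ^ 2) := by
    have f0 : (τ - t) ^ 2 ≤ (3 * t) ^ 2 := pow_le_pow_left₀ (by linarith) (by linarith) 2
    have g1 : sym (Gnc N l b τ τ) k ≤ t⁻¹ := e2.trans (inv_anti₀ ht h1)
    have g2 : (τ - t) ^ 2 * sym (Gnc N l b τ τ) k ≤ (3 * t) ^ 2 * t⁻¹ :=
      mul_le_mul f0 g1 e3 (by positivity)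
    calc t * (16 * b * (τ - t) ^ 2 * (l : ℝ) ^ 2 / t * sym (Gnc N l b τ τ) k)
        = 16 * b * (l : ℝ) ^ 2 * ((τ - t) ^ 2 * sym (Gnc N l b τ τ) k) := by
          field_simp
      _ ≤ 16 * b * (l : ℝ) ^ 2 * ((3 * t) ^ 2 * t⁻¹) :=
          mul_le_mul_of_nonneg_left g2 (by positivity)
      _ = _ := by
          field_simp
          ring
  linarith

end root

section letters

lemma two_lg {c e : ℝ} (hc : 0 ≤ c) (he : 0 < e) (h1 : e ≤ 1 / 2) :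
    (2 : ℝ) ^ (lg c e) ≤ 2 * e ^ (-c) := by
  have h0 := one_le_logb he h1
  have h2 : (lg c e : ℝ) ≤ c * Real.logb 2 (1 / e) + 1 := (Nat.ceil_lt_add_one (by positivity)).le
  rw [← Real.rpow_natCast]
  calc (2 : ℝ) ^ (lg c e : ℝ) ≤ (2 : ℝ) ^ (c * Real.logb 2 (1 / e) + 1) :=
        Real.rpow_le_rpow_of_exponent_le one_le_two h2
    _ = ((2 : ℝ) ^ Real.logb 2 (1 / e)) ^ c * 2 := by
        rw [Real.rpow_add two_pos, Real.rpow_one, mul_comm c, Real.rpow_mul two_pos.le]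
    _ = 2 * e ^ (-c) := by
        rw [Real.rpow_logb two_pos (by norm_num) (by positivity), one_div, Real.inv_rpow he.le,
          Real.rpow_neg he.le]
        ring

lemma le_two_lg {c e : ℝ} (he : 0 < e) : e ^ (-c) ≤ (2 : ℝ) ^ (lg c e) := by
  have h2 : c * Real.logb 2 (1 / e) ≤ (lg c e : ℝ) := Nat.le_ceil _
  rw [← Real.rpow_natCast]
  calc e ^ (-c) = ((2 : ℝ) ^ Real.logb 2 (1 / e)) ^ c := by
        rw [Real.rpow_logb two_pos (by norm_num) (by positivity), one_div, Real.inv_rpow he.le,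
          Real.rpow_neg he.le]
    _ = (2 : ℝ) ^ (c * Real.logb 2 (1 / e)) := by
        rw [mul_comm c, Real.rpow_mul two_pos.le]
    _ ≤ _ := Real.rpow_le_rpow_of_exponent_le one_le_two h2

lemma four_pow (n : ℕ) : (4 : ℝ) ^ n = ((2 : ℝ) ^ n) ^ 2 := by
  rw [← pow_mul, mul_comm, pow_mul]
  norm_num

lemma num1 {e f c1 D : ℝ} (he : 0 < e) (he2 : e ≤ 1 / 2) (hf : 0 < f) (hc1l : c1 ≤ 1) :
    e ^ f * (2 ^ (lg (f / 8) e) * D) ^ 2 ≤ 4 * (D ^ 2 * e ^ (c1 / 4 * f)) := by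
  have he1 : e ≤ 1 := by linarith
  have hf8 : 0 < f / 8 := by positivity
  have f1 := two_lg hf8.le he he2
  have f2 : ((2 : ℝ) ^ (lg (f / 8) e)) ^ 2 ≤ (2 * e ^ (-(f / 8))) ^ 2 :=
    pow_le_pow_left₀ (by positivity) f1 2
  have f3 : (2 * e ^ (-(f / 8))) ^ 2 = 4 * e ^ (-(f / 4)) := by
    rw [mul_pow, ← Real.rpow_natCast (e ^ (-(f / 8))), ← Real.rpow_mul he.le]
    norm_num
    congr 1
    ring
  rw [f3] at f2
  have hfe : 0 < e ^ f := Real.rpow_pos_of_pos he _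
  calc e ^ f * (2 ^ (lg (f / 8) e) * D) ^ 2 = e ^ f * (((2 : ℝ) ^ (lg (f / 8) e)) ^ 2 * D ^ 2) := by
        ring
    _ ≤ e ^ f * ((4 * e ^ (-(f / 4))) * D ^ 2) :=
        mul_le_mul_of_nonneg_left (mul_le_mul_of_nonneg_right f2 (sq_nonneg _)) hfe.le
    _ = 4 * (D ^ 2 * (e ^ f * e ^ (-(f / 4)))) := by ring
    _ = 4 * (D ^ 2 * e ^ (f + -(f / 4))) := by rw [← Real.rpow_add he]
    _ ≤ 4 * (D ^ 2 * e ^ (c1 / 4 * f)) := by
        refine mul_le_mul_of_nonneg_left (mul_le_mul_of_nonneg_left ?_ (sq_nonneg _))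
          (by norm_num)
        refine Real.rpow_le_rpow_of_exponent_ge he he1 ?_
        nlinarith

lemma inv_two_lg {c e : ℝ} {q : ℕ} (he : 0 < e) (hq : lg c e ≤ q) : ((2 : ℝ) ^ q)⁻¹ ≤ e ^ c := by
  have g3 : e ^ (-c) ≤ (2 : ℝ) ^ q := (le_two_lg he).trans (pow_le_pow_right₀ one_le_two hq)
  have g4 := inv_anti₀ (Real.rpow_pos_of_pos he _) g3
  rwa [← Real.rpow_neg he.le, neg_neg] at g4

lemma num2 {e f c0 c1 D : ℝ} (he : 0 < e) (hc1p : 0 < c1) (hc1l : c1 ≤ 1)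
    (hc10 : c1 ≤ c0) (hp4 : (4 : ℝ) ≤ (2 ^ (lg (f / 8) e)) ^ 2) :
    D ^ 2 * (4 * ((2 ^ (lg (f / 8) e)) ^ 2)⁻¹) ^ c0 ≤ 4 * (D ^ 2 * e ^ (c1 / 4 * f)) := by
  have f2 := inv_two_lg (c := f / 8) he le_rfl
  obtain ⟨u, hu⟩ : ∃ u : ℝ, u = ((2 : ℝ) ^ (lg (f / 8) e))⁻¹ := ⟨_, rfl⟩
  have hu0 : 0 < u := by
    rw [hu]
    positivity
  have hu2 : (((2 : ℝ) ^ (lg (f / 8) e)) ^ 2)⁻¹ = u ^ 2 := by rw [hu, inv_pow]
  rw [← hu] at f2
  have f0 : (4 : ℝ) * u ^ 2 ≤ 1 := by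
    rw [← hu2, ← div_eq_mul_inv, div_le_one (by positivity)]
    exact hp4
  rw [hu2]
  have f1 : ((4 : ℝ) * u ^ 2) ^ c0 ≤ (4 * u ^ 2) ^ c1 :=
    Real.rpow_le_rpow_of_exponent_ge (by positivity) f0 hc10
  have f3 : u ^ 2 ≤ e ^ (f / 4) := by
    have g5 : u ^ 2 ≤ (e ^ (f / 8)) ^ 2 := pow_le_pow_left₀ hu0.le f2 2
    refine g5.trans (le_of_eq ?_)
    rw [← Real.rpow_natCast (e ^ (f / 8)), ← Real.rpow_mul he.le]
    congr 1
    push_cast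
    ring
  have f4 : ((4 : ℝ) * u ^ 2) ^ c1 ≤ 4 * e ^ (c1 / 4 * f) := by
    rw [Real.mul_rpow (by norm_num) (by positivity)]
    have g6 : (4 : ℝ) ^ c1 ≤ 4 := by
      have := Real.rpow_le_rpow_of_exponent_le (x := (4 : ℝ)) (by norm_num) hc1l
      rwa [Real.rpow_one] at this
    have g7 : (u ^ 2) ^ c1 ≤ e ^ (c1 / 4 * f) := by
      have := Real.rpow_le_rpow (by positivity) f3 hc1p.le
      refine this.trans (le_of_eq ?_)
      rw [← Real.rpow_mul he.le]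
      congr 1
      ring
    exact mul_le_mul g6 g7 (Real.rpow_nonneg (by positivity) _) (by norm_num)
  calc D ^ 2 * (4 * u ^ 2) ^ c0 ≤ D ^ 2 * (4 * e ^ (c1 / 4 * f)) :=
        mul_le_mul_of_nonneg_left (f1.trans f4) (sq_nonneg _)
    _ = _ := by ring

lemma num3 {e C0 z D : ℝ} {q d : ℕ} (he : 0 < e) (hq : lg C0 e ≤ q) (hz : e ^ C0 ≤ z)
    (hD1 : 1 ≤ D) :
    ((2 ^ q) ^ 2 : ℝ)⁻¹ * (1 + D ^ 2 * (1 + ((d + q : ℕ) : ℝ) * Real.log 2)) ≤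
      8 * ((1 + d) * (D ^ 2 * z)) := by
  have hlog2 : Real.log 2 ≤ 1 := by
    have := Real.log_two_lt_d9
    linarith
  have hz0 : 0 < z := (Real.rpow_pos_of_pos he _).trans_le hz
  have f2 := (inv_two_lg he hq).trans hz
  obtain ⟨u, hu⟩ : ∃ u : ℝ, u = ((2 : ℝ) ^ q)⁻¹ := ⟨_, rfl⟩
  have f3 : (((2 : ℝ) ^ q) ^ 2)⁻¹ = u * u := by
    rw [hu, pow_two, mul_inv]
  rw [← hu] at f2
  have hu0 : 0 < u := by
    rw [hu]
    positivity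
  have f6 : u ≤ 1 := by
    rw [hu]
    exact inv_le_one_of_one_le₀ (one_le_pow₀ one_le_two)
  have f8 : u * (q : ℝ) ≤ 1 := by
    rw [hu, inv_mul_le_iff₀ (by positivity), mul_one]
    exact_mod_cast Nat.lt_two_pow_self.le
  have hd0 : (0 : ℝ) ≤ d := Nat.cast_nonneg d
  have hq0 : (0 : ℝ) ≤ q := Nat.cast_nonneg q
  have hD2 : 1 ≤ D ^ 2 := one_le_pow₀ hD1
  have f9 : 1 + D ^ 2 * (1 + ((d + q : ℕ) : ℝ) * Real.log 2) ≤ D ^ 2 * (2 + d + q) := by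
    push_cast
    have g8 : ((d : ℝ) + q) * Real.log 2 ≤ (d + q) * 1 :=
      mul_le_mul_of_nonneg_left hlog2 (by positivity)
    have g9 : D ^ 2 * (((d : ℝ) + q) * Real.log 2) ≤ D ^ 2 * ((d + q) * 1) :=
      mul_le_mul_of_nonneg_left g8 (sq_nonneg _)
    linarith
  rw [f3]
  calc u * u * (1 + D ^ 2 * (1 + ((d + q : ℕ) : ℝ) * Real.log 2))
      ≤ u * u * (D ^ 2 * (2 + d + q)) := mul_le_mul_of_nonneg_left f9 (by positivity)
    _ = u * (D ^ 2 * (u * (2 + d) + u * q)) := by ring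
    _ ≤ u * (D ^ 2 * (1 * (2 + d) + 1)) := by
        refine mul_le_mul_of_nonneg_left (mul_le_mul_of_nonneg_left ?_ (sq_nonneg _)) hu0.le
        have : u * (2 + (d : ℝ)) ≤ 1 * (2 + d) :=
          mul_le_mul_of_nonneg_right f6 (by positivity)
        linarith
    _ ≤ z * (D ^ 2 * (8 * (1 + d))) := by
        refine mul_le_mul f2 (mul_le_mul_of_nonneg_left (by linarith) (sq_nonneg _))
          (by positivity) hz0.le
    _ = _ := by ring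

lemma tn_pos (n : ℕ) : 0 < tn n := by
  unfold tn
  positivity

/-- **(E3) in the letters of `Good`**, all cells `2 ^ s` not larger than `2 ^ sE` -/
theorem trWt_good {b : ℝ} (hb : 0 < b) : ∃ C c : ℝ, 0 < C ∧ 0 < c ∧ c ≤ 1 ∧
    ∀ (P : Par) (n r s : ℕ) (e τ a : ℝ) [NeZero (2 ^ r / 2 ^ s)], 0 < P.pf → 0 < e →
      e ≤ P.es → P.pf + 4 ≤ P.C0 → s + lg P.C0 e ≤ n → n + 2 ≤ r → tn n ≤ τ → τ ≤ 4 * tn n →
      FL b (tn n) a (e ^ P.pf) (2 ^ r) → FL b (4 * tn n) a (e ^ P.pf) (2 ^ r) →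
      tn n * (Wt (2 ^ r) (2 ^ s) b (tn n) τ).trace ≤
        C * (1 + ((r - n : ℕ) : ℝ)) * ((2 : ℝ) ^ (r - n)) ^ 2 * e ^ (c * P.pf) := by
  obtain ⟨C, c0, hC, hc0, hT⟩ := trWt (b := b) hb
  obtain ⟨c1, hc1⟩ : ∃ c1 : ℝ, c1 = min c0 1 := ⟨_, rfl⟩
  have hc1p : 0 < c1 := by
    rw [hc1]
    exact lt_min hc0 one_pos
  have hc1l : c1 ≤ 1 := by
    rw [hc1]
    exact min_le_right _ _
  have hc10 : c1 ≤ c0 := by
    rw [hc1]
    exact min_le_left _ _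
  refine ⟨C * 20, c1 / 4, by positivity, by positivity, by linarith, ?_⟩
  intro P n r s e τ a _ hpf he hes hC0 hn hr h1 h2 F1 F4
  have he2 : e ≤ 1 / 2 := hes.trans P.es1
  have he1 : e ≤ 1 := by linarith
  have hL := one_le_logb he he2
  have hpf8 : 0 < P.pf / 8 := by positivity
  -- the scales
  have hp1 : 1 ≤ lg (P.pf / 8) e := one_le_lg hpf8 he he2
  have hpq0 : lg (P.pf / 8) e + 3 ≤ lg P.C0 e := by
    have f1 : ((lg (P.pf / 8) e : ℕ) : ℝ) ≤ P.pf / 8 * Real.logb 2 (1 / e) + 1 :=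
      (Nat.ceil_lt_add_one (by positivity)).le
    have f2 : P.C0 * Real.logb 2 (1 / e) ≤ ((lg P.C0 e : ℕ) : ℝ) := Nat.le_ceil _
    have f3 : (P.pf + 4) * Real.logb 2 (1 / e) ≤ P.C0 * Real.logb 2 (1 / e) :=
      mul_le_mul_of_nonneg_right hC0 (by linarith)
    have f4 : ((lg (P.pf / 8) e : ℕ) : ℝ) + 3 ≤ ((lg P.C0 e : ℕ) : ℝ) := by
      have : 0 ≤ P.pf * Real.logb 2 (1 / e) := by positivity
      linarith
    exact_mod_cast f4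
  have n1 := fun D : ℝ => num1 (D := D) he he2 hpf hc1l
  have n2 := fun (D : ℝ) (h : (4 : ℝ) ≤ (2 ^ (lg (P.pf / 8) e)) ^ 2) =>
    num2 (D := D) (f := P.pf) he hc1p hc1l hc10 h
  have hzz : e ^ P.C0 ≤ e ^ (c1 / 4 * P.pf) := by
    refine Real.rpow_le_rpow_of_exponent_ge he he1 ?_
    nlinarith
  obtain ⟨p, hp⟩ : ∃ p : ℕ, p = lg (P.pf / 8) e := ⟨_, rfl⟩
  rw [← hp] at hp1 hpq0 n1 n2
  obtain ⟨q, hsq⟩ : ∃ q : ℕ, s + q = n := ⟨n - s, by omega⟩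
  have hq : lg P.C0 e ≤ q := by omega
  have hpq : p + 3 ≤ q := hpq0.trans hq
  obtain ⟨j, hjp⟩ : ∃ j : ℕ, j + p = n := ⟨n - p, by omega⟩
  obtain ⟨d, hdr⟩ : ∃ d : ℕ, n + d = r := ⟨r - n, by omega⟩
  have hd : r - n = d := by omega
  rw [hd]
  have p2 : ∀ k : ℕ, (0 : ℝ) < 2 ^ k := fun k => by positivity
  have htn : tn n = (((2 : ℝ) ^ n) ^ 2)⁻¹ := by
    unfold tn
    rw [four_pow]
  have hN : ((2 ^ r : ℕ) : ℝ) = 2 ^ n * 2 ^ d := by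
    rw [← hdr]
    push_cast
    rw [pow_add]
  have hl : ((2 ^ s : ℕ) : ℝ) = 2 ^ s := by push_cast; rfl
  have hρ : ((2 ^ j : ℕ) : ℝ) = 2 ^ j := by push_cast; rfl
  have hns : (2 : ℝ) ^ n = 2 ^ s * 2 ^ q := by rw [← pow_add, hsq]
  have hnj : (2 : ℝ) ^ n = 2 ^ j * 2 ^ p := by rw [← pow_add, hjp]
  have hd2 : (4 : ℝ) ≤ 2 ^ d := by
    have : (2 : ℝ) ^ 2 ≤ 2 ^ d := pow_le_pow_right₀ one_le_two (by omega)
    linarith
  have tN : tn n * ((2 ^ r : ℕ) : ℝ) ^ 2 = (2 ^ d) ^ 2 := by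
    rw [htn, hN]
    have := (p2 n).ne'
    field_simp
  have tρ : tn n * ((2 ^ j : ℕ) : ℝ) ^ 2 = ((2 ^ p) ^ 2)⁻¹ := by
    rw [htn, hρ, hnj]
    have := (p2 j).ne'
    have := (p2 p).ne'
    field_simp
  have tl : tn n * ((2 ^ s : ℕ) : ℝ) ^ 2 = ((2 ^ q) ^ 2)⁻¹ := by
    rw [htn, hl, hns]
    have := (p2 s).ne'
    have := (p2 q).ne'
    field_simp
  have hp4 : (4 : ℝ) ≤ (2 ^ p) ^ 2 := by
    have h3 : (2 : ℝ) ^ 1 ≤ 2 ^ p := pow_le_pow_right₀ one_le_two hp1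
    nlinarith
  have g1 : ((2 ^ r : ℕ) : ℝ) / ((2 ^ j : ℕ) : ℝ) = 2 ^ p * 2 ^ d := by
    rw [hN, hρ, hnj]
    have := (p2 j).ne'
    field_simp
  have g2 : (((2 ^ r / 2 ^ s : ℕ) : ℕ) : ℝ) = 2 ^ (d + q) := by
    rw [Nat.pow_div (by omega) two_pos]
    push_cast
    congr 1
    omega
  have main := hT (2 ^ r) (2 ^ s) (2 ^ j) (tn n) τ a (e ^ P.pf)
    (pow_dvd_pow 2 (by omega)) (by
      have : 8 * 2 ^ s = 2 ^ (s + 3) := by ring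
      rw [this]
      exact pow_dvd_pow 2 (by omega)) (pow_dvd_pow 2 (by omega)) (tn_pos n) h1 h2
    (by rw [tN]; nlinarith) (by
      rw [mul_assoc, tρ]
      rw [← div_eq_mul_inv, div_le_one (by positivity)]
      exact hp4) F1 F4
  refine main.trans ?_
  rw [g1, tN, mul_assoc 4, tρ, tl, g2, Real.log_pow]
  have t1 := n1 (2 ^ d)
  have t2 := n2 (2 ^ d) hp4
  have t3 := num3 (D := 2 ^ d) (d := d) he hq hzz (by linarith)
  have hz0 : 0 < e ^ (c1 / 4 * P.pf) := Real.rpow_pos_of_pos he _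
  have hd0 : (0 : ℝ) ≤ d := Nat.cast_nonneg d
  clear main n1 n2 hT
  obtain ⟨z, hz⟩ : ∃ z : ℝ, z = e ^ (c1 / 4 * P.pf) := ⟨_, rfl⟩
  rw [← hz] at t1 t2 t3 hz0 ⊢
  obtain ⟨D, hD⟩ : ∃ D : ℝ, D = 2 ^ d := ⟨_, rfl⟩
  rw [← hD] at t1 t2 t3 ⊢
  have hx : 0 ≤ D ^ 2 * z := by positivity
  have hdx := mul_nonneg hd0 hx
  calc C * (e ^ P.pf * (2 ^ p * D) ^ 2 + D ^ 2 * (4 * ((2 ^ p) ^ 2)⁻¹) ^ c0 +
      ((2 ^ q) ^ 2 : ℝ)⁻¹ * (1 + D ^ 2 * (1 + ((d + q : ℕ) : ℝ) * Real.log 2)))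
      ≤ C * (20 * ((1 + d) * (D ^ 2 * z))) := by
        refine mul_le_mul_of_nonneg_left ?_ hC.le
        linarith
    _ = C * 20 * (1 + d) * D ^ 2 * z := by ring

end letters

end

end Vale.Agent.P159.H276
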