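import Vale.Agent.P159.H276.Uf1

/-!
P159, module UBF (helper276), part 2: energy decay of the potential `u = (1 + kap lapM)⁻¹ f` away from
the support of `f` (a Caccioppoli inequality, one step = a factor `1/3`).
-/

set_option linter.unusedSectionVars false

namespace Vale.Agent.P159.H276

open Finset Matrix
open Vale.Agent.P159.TM.Spec (V)
open Vale.Agent.P159.H817 (gr dv nrm lp e1 e2 eb GB U sz gr_eq parts dv_gr)
open Vale.Agent.P159.H864 (lapM)

noncomputable section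

variable {N : ℕ} [NeZero N]

/-- the other end of an edge -/
def fin2 (e : V N × Bool) : V N := e.1 + eb e.2

lemma gr_fin (u : V N → ℝ) (e : V N × Bool) : gr u e = u (fin2 e) - u e.1 := by
  obtain ⟨x, b⟩ := e
  exact gr_eq u x b

/-- every site is an end of four edges -/
lemma sum_ends (g : V N → ℝ) : ∑ e : V N × Bool, (g e.1 + g (fin2 e)) = 4 * ∑ x, g x := by
  rw [sum_add_distrib]
  have h1 : ∑ e : V N × Bool, g e.1 = 2 * ∑ x, g x := by
    rw [H817.sum_edges]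
    ring
  have h2 : ∑ e : V N × Bool, g (fin2 e) = 2 * ∑ x, g x := by
    rw [H817.sum_edges]
    have e1' : ∀ b : Bool, ∑ x : V N, g (fin2 (x, b)) = ∑ x, g x := fun b =>
      H817.sum_shift g (eb b)
    rw [e1', e1']
    ring
  rw [h1, h2]
  ring

/-- **Caccioppoli identity** -/
theorem cacc {κ : ℝ} {u χ : V N → ℝ} (hu : ∀ x, χ x ≠ 0 → u x + κ * (lapM *ᵥ u) x = 0) :
    ∑ x, (χ x * u x) ^ 2 + κ * nrm (gr fun x => χ x * u x) =
      κ * ∑ e, gr χ e ^ 2 * (u e.1 * u (fin2 e)) := by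
  have h1 : ∑ x, χ x ^ 2 * u x * (u x + κ * (lapM *ᵥ u) x) = 0 := by
    refine sum_eq_zero fun x _ => ?_
    by_cases h : χ x = 0
    · rw [h]
      ring
    · rw [hu x h]
      ring
  have h2 : ∑ x, χ x ^ 2 * u x * (u x + κ * (lapM *ᵥ u) x) =
      ∑ x, (χ x * u x) ^ 2 + κ * ∑ e, gr u e * gr (fun x => χ x ^ 2 * u x) e := by
    rw [parts (gr u) fun x => χ x ^ 2 * u x, mul_sum, ← sum_add_distrib]
    refine sum_congr rfl fun x _ => ?_
    rw [dv_gr, H817.lapM_mulVec]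
    ring
  have h3 : ∑ e, gr u e * gr (fun x => χ x ^ 2 * u x) e =
      nrm (gr fun x => χ x * u x) - ∑ e, gr χ e ^ 2 * (u e.1 * u (fin2 e)) := by
    unfold nrm
    rw [← sum_sub_distrib]
    refine sum_congr rfl fun e _ => ?_
    simp only [gr_fin]
    ring
  rw [h2, h3] at h1
  linarith

/-- the inequality -/
theorem cacc_le {κ δ : ℝ} (hκ : 0 ≤ κ) {u χ : V N → ℝ} (S : Finset (V N))
    (hu : ∀ x, χ x ≠ 0 → u x + κ * (lapM *ᵥ u) x = 0)
    (hS : ∀ e : V N × Bool, gr χ e ≠ 0 → e.1 ∈ S ∧ fin2 e ∈ S) (hδ : ∀ e, |gr χ e| ≤ δ) :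
    ∑ x, (χ x * u x) ^ 2 + κ * nrm (gr fun x => χ x * u x) ≤ 2 * (κ * δ ^ 2) * ∑ x ∈ S, u x ^ 2 := by
  classical
  rw [cacc hu]
  have h1 : ∀ e : V N × Bool, gr χ e ^ 2 * (u e.1 * u (fin2 e)) ≤
      δ ^ 2 / 2 * ((if e.1 ∈ S then u e.1 ^ 2 else 0) + if fin2 e ∈ S then u (fin2 e) ^ 2 else 0) := by
    intro e
    by_cases h : gr χ e = 0
    · rw [h]
      have h2 : 0 ≤ (if e.1 ∈ S then u e.1 ^ 2 else 0) + if fin2 e ∈ S then u (fin2 e) ^ 2 else 0 := by
        split_ifs <;> positivity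
      have h3 : 0 ≤ δ ^ 2 / 2 := by positivity
      have := mul_nonneg h3 h2
      simpa using this
    · obtain ⟨ha, hb⟩ := hS e h
      rw [if_pos ha, if_pos hb]
      have h2 : gr χ e ^ 2 ≤ δ ^ 2 := by
        rw [← sq_abs]
        exact pow_le_pow_left₀ (abs_nonneg _) (hδ e) 2
      have h3 : u e.1 * u (fin2 e) ≤ (u e.1 ^ 2 + u (fin2 e) ^ 2) / 2 := by
        nlinarith [sq_nonneg (u e.1 - u (fin2 e))]
      have h4 : 0 ≤ (u e.1 ^ 2 + u (fin2 e) ^ 2) / 2 := by positivity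
      calc gr χ e ^ 2 * (u e.1 * u (fin2 e)) ≤ gr χ e ^ 2 * ((u e.1 ^ 2 + u (fin2 e) ^ 2) / 2) :=
            mul_le_mul_of_nonneg_left h3 (sq_nonneg _)
        _ ≤ δ ^ 2 * ((u e.1 ^ 2 + u (fin2 e) ^ 2) / 2) := mul_le_mul_of_nonneg_right h2 h4
        _ = _ := by ring
  have h2 := sum_le_sum fun e (_ : e ∈ (univ : Finset (V N × Bool))) => h1 e
  rw [← mul_sum, sum_ends fun x => if x ∈ S then u x ^ 2 else 0] at h2
  have h3 : ∑ x, (if x ∈ S then u x ^ 2 else 0) = ∑ x ∈ S, u x ^ 2 := by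
    rw [← sum_filter, filter_mem_eq_inter, univ_inter]
  rw [h3] at h2
  calc κ * ∑ e, gr χ e ^ 2 * (u e.1 * u (fin2 e))
      ≤ κ * (δ ^ 2 / 2 * (4 * ∑ x ∈ S, u x ^ 2)) := mul_le_mul_of_nonneg_left h2 hκ
    _ = _ := by ring

/-- the mass of `u` outside the box of radius `ρ` around `z` -/
def mOut (u : V N → ℝ) (z : V N) (ρ : ℕ) : ℝ := ∑ x ∈ univ.filter (fun x => ρ ≤ sz (x - z)), u x ^ 2

/-- the gradient energy outside the box -/
def gOut (u : V N → ℝ) (z : V N) (ρ : ℕ) : ℝ :=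
  ∑ x ∈ univ.filter (fun x => ρ ≤ sz (x - z)), (gr u (x, false) ^ 2 + gr u (x, true) ^ 2)

/-- the mass of `u` inside the box of radius `ρ` around `z` -/
def mIn (u : V N → ℝ) (z : V N) (ρ : ℕ) : ℝ := ∑ x ∈ univ.filter (fun x => sz (x - z) ≤ ρ), u x ^ 2

/-- the gradient energy inside the box -/
def gIn (u : V N → ℝ) (z : V N) (ρ : ℕ) : ℝ :=
  ∑ x ∈ univ.filter (fun x => sz (x - z) ≤ ρ), (gr u (x, false) ^ 2 + gr u (x, true) ^ 2)

lemma mOut_nonneg (u : V N → ℝ) (z : V N) (ρ : ℕ) : 0 ≤ mOut u z ρ :=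
  sum_nonneg fun _ _ => sq_nonneg _

lemma gOut_nonneg (u : V N → ℝ) (z : V N) (ρ : ℕ) : 0 ≤ gOut u z ρ :=
  sum_nonneg fun _ _ => by positivity

lemma mIn_nonneg (u : V N → ℝ) (z : V N) (ρ : ℕ) : 0 ≤ mIn u z ρ :=
  sum_nonneg fun _ _ => sq_nonneg _

lemma gIn_nonneg (u : V N → ℝ) (z : V N) (ρ : ℕ) : 0 ≤ gIn u z ρ :=
  sum_nonneg fun _ _ => by positivity

lemma mOut_le (u : V N → ℝ) (z : V N) (ρ : ℕ) : mOut u z ρ ≤ ∑ x, u x ^ 2 :=
  sum_le_sum_of_subset_of_nonneg (filter_subset _ _) fun _ _ _ => sq_nonneg _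

lemma mIn_le (u : V N → ℝ) (z : V N) (ρ : ℕ) : mIn u z ρ ≤ ∑ x, u x ^ 2 :=
  sum_le_sum_of_subset_of_nonneg (filter_subset _ _) fun _ _ _ => sq_nonneg _

lemma nrm_ge (χ u : V N → ℝ) (A : Finset (V N))
    (hA : ∀ x ∈ A, ∀ b, χ x = 1 ∧ χ (x + eb b) = 1) :
    ∑ x ∈ A, (gr u (x, false) ^ 2 + gr u (x, true) ^ 2) ≤ nrm (gr fun x => χ x * u x) := by
  unfold nrm
  rw [H817.sum_edges, ← sum_add_distrib]
  refine (sum_le_sum fun x hx => le_of_eq ?_).trans
    (sum_le_sum_of_subset_of_nonneg (subset_univ A) fun x _ _ => by positivity)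
  have h1 := hA x hx false
  have h2 := hA x hx true
  rw [gr_eq, gr_eq, gr_eq, gr_eq, h1.1, h1.2, h2.2]
  ring

/-- **one step outwards** -/
theorem out_step {κ : ℝ} (hκ : 0 ≤ κ) {l : ℕ} (hl : 0 < l) (hκl : 4 * κ ≤ (l : ℝ) ^ 2)
    {u : V N → ℝ} {z : V N} {ρ : ℕ} (hu : ∀ x, ρ ≤ sz (x - z) → u x + κ * (lapM *ᵥ u) x = 0) :
    mOut u z (ρ + l) + κ * gOut u z (ρ + l + 1) ≤ 1 / 2 * mOut u z ρ := by
  classical
  have hl0 : (0 : ℝ) < l := by exact_mod_cast hl
  set χ : V N → ℝ := fun x => 1 - U ρ l (x - z) with hχ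
  have hgr : ∀ e, gr χ e = -gr (fun x => U ρ l (x - z)) e := by
    intro e
    simp only [gr_fin, hχ]
    ring
  have hδ : ∀ e, |gr χ e| ≤ 1 / (l : ℝ) := by
    intro e
    rw [hgr, abs_neg]
    exact H817.U_shift_GB ρ hl z e
  have h1 := cacc_le hκ (univ.filter fun x => ρ ≤ sz (x - z)) (u := u) (χ := χ) (δ := 1 / (l : ℝ))
    (fun x hx => hu x (by
      by_contra h
      exact hx (by
        rw [hχ]
        simp only
        rw [H817.U_one hl (by omega), sub_self])))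
    (fun e he => by
      have h2 := H817.sz_step (e.1 - z) e.2
      have h3 : e.1 - z + eb e.2 = fin2 e - z := by
        unfold fin2
        abel
      rw [h3] at h2
      constructor
      · refine mem_filter.2 ⟨mem_univ _, ?_⟩
        by_contra h
        refine he ?_
        rw [gr_fin, hχ]
        simp only
        rw [H817.U_one hl (show sz (fin2 e - z) ≤ ρ by omega), H817.U_one hl (by omega)]
        ring
      · refine mem_filter.2 ⟨mem_univ _, ?_⟩
        by_contra h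
        refine he ?_
        rw [gr_fin, hχ]
        simp only
        rw [H817.U_one hl (show sz (fin2 e - z) ≤ ρ by omega), H817.U_one hl (by omega)]
        ring) hδ
  have h2 : mOut u z (ρ + l) ≤ ∑ x, (χ x * u x) ^ 2 := by
    unfold mOut
    refine (sum_le_sum fun x hx => le_of_eq ?_).trans
      (sum_le_sum_of_subset_of_nonneg (filter_subset _ _) fun x _ _ => sq_nonneg _)
    rw [hχ]
    simp only
    rw [H817.U_zero (mem_filter.1 hx).2]
    ring
  have h3 : gOut u z (ρ + l + 1) ≤ nrm (gr fun x => χ x * u x) := by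
    refine nrm_ge χ u _ fun x hx b => ?_
    have h4 := (mem_filter.1 hx).2
    have h5 := (H817.sz_step (x - z) b).1
    have h6 : x - z + eb b = x + eb b - z := by abel
    rw [h6] at h5
    constructor
    · rw [hχ]
      simp only
      rw [H817.U_zero (by omega), sub_zero]
    · rw [hχ]
      simp only
      rw [H817.U_zero (by omega), sub_zero]
  have h4 : 2 * (κ * (1 / (l : ℝ)) ^ 2) ≤ 1 / 2 := by
    have : κ * (1 / (l : ℝ)) ^ 2 = κ / (l : ℝ) ^ 2 := by ring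
    rw [this]
    have h5 : κ / (l : ℝ) ^ 2 ≤ 1 / 4 := by
      rw [div_le_iff₀ (by positivity)]
      linarith
    linarith
  have h5 := mul_le_mul_of_nonneg_right h4 (mOut_nonneg u z ρ)
  have h6 := mul_le_mul_of_nonneg_left h3 hκ
  have h7 : ∑ x ∈ univ.filter (fun x => ρ ≤ sz (x - z)), u x ^ 2 = mOut u z ρ := rfl
  rw [h7] at h1
  linarith

/-- **one step inwards** -/
theorem in_step {κ : ℝ} (hκ : 0 ≤ κ) {l : ℕ} (hl : 0 < l) (hκl : 4 * κ ≤ (l : ℝ) ^ 2)
    {u : V N → ℝ} {z : V N} {ρ : ℕ} (hu : ∀ x, sz (x - z) ≤ ρ + l → u x + κ * (lapM *ᵥ u) x = 0) :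
    mIn u z ρ + κ * gIn u z (ρ - 1) ≤ 1 / 2 * mIn u z (ρ + l) ∨ ρ = 0 := by
  classical
  rcases Nat.eq_zero_or_pos ρ with h0 | h0
  · exact Or.inr h0
  refine Or.inl ?_
  have hl0 : (0 : ℝ) < l := by exact_mod_cast hl
  set χ : V N → ℝ := fun x => U ρ l (x - z) with hχ
  have hδ : ∀ e, |gr χ e| ≤ 1 / (l : ℝ) := fun e => H817.U_shift_GB ρ hl z e
  have h1 := cacc_le hκ (univ.filter fun x => sz (x - z) ≤ ρ + l) (u := u) (χ := χ)
    (δ := 1 / (l : ℝ))
    (fun x hx => hu x (by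
      by_contra h
      exact hx (by
        rw [hχ]
        simp only
        rw [H817.U_zero (by omega)])))
    (fun e he => by
      have h2 := H817.sz_step (e.1 - z) e.2
      have h3 : e.1 - z + eb e.2 = fin2 e - z := by
        unfold fin2
        abel
      rw [h3] at h2
      constructor
      · refine mem_filter.2 ⟨mem_univ _, ?_⟩
        by_contra h
        refine he ?_
        rw [gr_fin, hχ]
        simp only
        rw [H817.U_zero (show ρ + l ≤ sz (fin2 e - z) by omega), H817.U_zero (by omega)]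
        ring
      · refine mem_filter.2 ⟨mem_univ _, ?_⟩
        by_contra h
        refine he ?_
        rw [gr_fin, hχ]
        simp only
        rw [H817.U_zero (show ρ + l ≤ sz (fin2 e - z) by omega), H817.U_zero (by omega)]
        ring) hδ
  have h2 : mIn u z ρ ≤ ∑ x, (χ x * u x) ^ 2 := by
    unfold mIn
    refine (sum_le_sum fun x hx => le_of_eq ?_).trans
      (sum_le_sum_of_subset_of_nonneg (filter_subset _ _) fun x _ _ => sq_nonneg _)
    rw [hχ]
    simp only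
    rw [H817.U_one hl (mem_filter.1 hx).2]
    ring
  have h3 : gIn u z (ρ - 1) ≤ nrm (gr fun x => χ x * u x) := by
    refine nrm_ge χ u _ fun x hx b => ?_
    have h4 := (mem_filter.1 hx).2
    have h5 := (H817.sz_step (x - z) b).2
    have h6 : x - z + eb b = x + eb b - z := by abel
    rw [h6] at h5
    constructor
    · rw [hχ]
      simp only
      rw [H817.U_one hl (by omega)]
    · rw [hχ]
      simp only
      rw [H817.U_one hl (by omega)]
  have h4 : 2 * (κ * (1 / (l : ℝ)) ^ 2) ≤ 1 / 2 := by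
    have : κ * (1 / (l : ℝ)) ^ 2 = κ / (l : ℝ) ^ 2 := by ring
    rw [this]
    have h5 : κ / (l : ℝ) ^ 2 ≤ 1 / 4 := by
      rw [div_le_iff₀ (by positivity)]
      linarith
    linarith
  have h5 := mul_le_mul_of_nonneg_right h4 (mIn_nonneg u z (ρ + l))
  have h6 := mul_le_mul_of_nonneg_left h3 hκ
  have h7 : ∑ x ∈ univ.filter (fun x => sz (x - z) ≤ ρ + l), u x ^ 2 = mIn u z (ρ + l) := rfl
  rw [h7] at h1
  linarith

/-- **decay outwards**: `k` steps -/
theorem out_decay {κ : ℝ} (hκ : 0 ≤ κ) {l : ℕ} (hl : 0 < l) (hκl : 4 * κ ≤ (l : ℝ) ^ 2)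
    {u : V N → ℝ} {z : V N} {ρ : ℕ} (hu : ∀ x, ρ ≤ sz (x - z) → u x + κ * (lapM *ᵥ u) x = 0)
    (k : ℕ) : mOut u z (ρ + k * l) ≤ (1 / 2) ^ k * mOut u z ρ := by
  induction k with
  | zero => simp
  | succ k ih =>
    have h1 := out_step hκ hl hκl (u := u) (z := z) (ρ := ρ + k * l) fun x hx =>
      hu x (by omega)
    have h2 : ρ + (k + 1) * l = ρ + k * l + l := by ring
    rw [h2]
    have h3 := mul_nonneg hκ (gOut_nonneg u z (ρ + k * l + l + 1))
    rw [pow_succ]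
    linarith

/-- **decay outwards, with the gradient** -/
theorem out_decay_gr {κ : ℝ} (hκ : 0 ≤ κ) {l : ℕ} (hl : 0 < l) (hκl : 4 * κ ≤ (l : ℝ) ^ 2)
    {u : V N → ℝ} {z : V N} {ρ : ℕ} (hu : ∀ x, ρ ≤ sz (x - z) → u x + κ * (lapM *ᵥ u) x = 0)
    (k : ℕ) : mOut u z (ρ + (k + 1) * l) + κ * gOut u z (ρ + (k + 1) * l + 1) ≤
      (1 / 2) ^ (k + 1) * mOut u z ρ := by
  have h1 := out_step hκ hl hκl (u := u) (z := z) (ρ := ρ + k * l) fun x hx => hu x (by omega)
  have h2 := out_decay hκ hl hκl hu k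
  have h3 : ρ + (k + 1) * l = ρ + k * l + l := by ring
  rw [h3, pow_succ]
  linarith

/-- **decay inwards**: `k` steps -/
theorem in_decay {κ : ℝ} (hκ : 0 ≤ κ) {l : ℕ} (hl : 0 < l) (hκl : 4 * κ ≤ (l : ℝ) ^ 2)
    {u : V N → ℝ} {z : V N} {ρ : ℕ} (hρ : 0 < ρ) (k : ℕ)
    (hu : ∀ x, sz (x - z) ≤ ρ + k * l → u x + κ * (lapM *ᵥ u) x = 0) :
    mIn u z ρ ≤ (1 / 2) ^ k * mIn u z (ρ + k * l) := by
  induction k with
  | zero => simp
  | succ k ih =>
    have h2 : ρ + (k + 1) * l = ρ + k * l + l := by ring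
    rw [h2] at hu ⊢
    have h1 := in_step hκ hl hκl (u := u) (z := z) (ρ := ρ + k * l) hu
    have h3 := ih fun x hx => hu x (by omega)
    rcases h1 with h1 | h1
    · have h4 := mul_nonneg hκ (gIn_nonneg u z (ρ + k * l - 1))
      have h5 : mIn u z (ρ + k * l) ≤ 1 / 2 * mIn u z (ρ + k * l + l) := by linarith
      calc mIn u z ρ ≤ (1 / 2) ^ k * mIn u z (ρ + k * l) := h3
        _ ≤ (1 / 2) ^ k * (1 / 2 * mIn u z (ρ + k * l + l)) :=
          mul_le_mul_of_nonneg_left h5 (by positivity)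
        _ = _ := by rw [pow_succ]; ring
    · omega

/-- **decay inwards, with the gradient** -/
theorem in_decay_gr {κ : ℝ} (hκ : 0 ≤ κ) {l : ℕ} (hl : 0 < l) (hκl : 4 * κ ≤ (l : ℝ) ^ 2)
    {u : V N → ℝ} {z : V N} {ρ : ℕ} (k : ℕ)
    (hu : ∀ x, sz (x - z) ≤ ρ + 1 + (k + 1) * l → u x + κ * (lapM *ᵥ u) x = 0) :
    mIn u z (ρ + 1) + κ * gIn u z ρ ≤ (1 / 2) ^ (k + 1) * mIn u z (ρ + 1 + (k + 1) * l) := by
  have h1 := in_step hκ hl hκl (u := u) (z := z) (ρ := ρ + 1) fun x hx => hu x (by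
    have : l ≤ (k + 1) * l := Nat.le_mul_of_pos_left l (by omega)
    omega)
  rcases h1 with h1 | h1
  · have h2 := in_decay hκ hl hκl (u := u) (z := z) (ρ := ρ + 1 + l) (by omega) k fun x hx =>
      hu x (by
        have : (k + 1) * l = l + k * l := by ring
        omega)
    have h3 : ρ + 1 + l + k * l = ρ + 1 + (k + 1) * l := by ring
    rw [h3] at h2
    simp only [add_tsub_cancel_right] at h1
    rw [pow_succ]
    linarith
  · omega

end

end Vale.Agent.P159.H276
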