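import Vale.Agent.P159.H474.Cb8
import Vale.Agent.P159.H276.Uf2

/-!
P159, module FO (helper276), part 1: folded real fields.  `foJ` is the folded edge field (helper474's
`foE` with real values); gradients, divergences and sums over the folded torus in terms of the block.
-/

set_option linter.unusedSectionVars false

namespace Vale.Agent.P159.H276

open Finset
open Vale.Agent.P159.TM.Spec (V)
open Vale.Agent.P159.H817 (gr dv nrm e1 e2 eb sz)
open Vale.Agent.P159.H474.Cb (fo fc sgh foF foE fo_eq fo_succ fc_lt slabE)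

noncomputable section

/-! ### one direction -/

lemma sum_zmod (N : ℕ) [NeZero N] (f : ℕ → ℝ) : ∑ x : ZMod N, f x.val = ∑ k ∈ range N, f k := by
  refine Finset.sum_nbij' (fun x => x.val) (fun k => (k : ZMod N)) ?_ ?_ ?_ ?_ ?_
  · intro x _
    exact mem_range.2 (ZMod.val_lt x)
  · intro k _
    exact mem_univ _
  · intro x _
    exact ZMod.natCast_zmod_val x
  · intro k hk
    exact ZMod.val_natCast_of_lt (mem_range.1 hk)
  · intro x _
    rfl

/-- sum over the folded edges of one direction -/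
lemma sum_fc (m : ℕ) [NeZero ((m + 1) * 2)] (G : ℕ → ℝ) :
    ∑ x : ZMod ((m + 1) * 2), G (fc m x) = 2 * ∑ a ∈ range (m + 1), G a := by
  have h := sum_zmod ((m + 1) * 2) fun k => G (if k < m + 1 then k else (m + 1) * 2 - 1 - k)
  have h1 : ∑ x : ZMod ((m + 1) * 2), G (fc m x) = ∑ x : ZMod ((m + 1) * 2),
      G (if x.val < m + 1 then x.val else (m + 1) * 2 - 1 - x.val) := rfl
  have e : (m + 1) * 2 = (m + 1) + (m + 1) := by ring
  rw [h1, h, e, sum_range_add]
  have h2 : ∑ k ∈ range (m + 1), G (if k < m + 1 then k else (m + 1) + (m + 1) - 1 - k) =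
      ∑ k ∈ range (m + 1), G k := sum_congr rfl fun k hk => by rw [if_pos (mem_range.1 hk)]
  have h3 : ∑ k ∈ range (m + 1), G (if (m + 1) + k < m + 1 then (m + 1) + k else
      (m + 1) + (m + 1) - 1 - ((m + 1) + k)) = ∑ k ∈ range (m + 1), G k := by
    rw [← sum_range_reflect G (m + 1)]
    refine sum_congr rfl fun k hk => ?_
    rw [if_neg (by omega)]
    congr 1
    have := mem_range.1 hk
    omega
  rw [h2, h3]
  ring

/-- sum over the folded sites of one direction -/
lemma sum_fo (m : ℕ) [NeZero ((m + 1) * 2)] {G : ℕ → ℝ} (h0 : G 0 = 0) (h1 : G (m + 1) = 0) :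
    ∑ x : ZMod ((m + 1) * 2), G (fo m x) = 2 * ∑ a ∈ range (m + 1), G a := by
  have h := sum_zmod ((m + 1) * 2) fun k => G (min k ((m + 1) * 2 - k))
  have h1' : ∑ x : ZMod ((m + 1) * 2), G (fo m x) = ∑ x : ZMod ((m + 1) * 2),
      G (min x.val ((m + 1) * 2 - x.val)) := rfl
  have e : (m + 1) * 2 = (m + 1) + (m + 1) := by ring
  rw [h1', h, e, sum_range_add]
  have h2 : ∑ k ∈ range (m + 1), G (min k ((m + 1) + (m + 1) - k)) =
      ∑ k ∈ range (m + 1), G k := sum_congr rfl fun k hk => by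
    congr 1
    have := mem_range.1 hk
    omega
  have h3 : ∑ k ∈ range (m + 1), G (min ((m + 1) + k) ((m + 1) + (m + 1) - ((m + 1) + k))) =
      ∑ k ∈ range (m + 1), G (k + 1) := by
    rw [← sum_range_reflect (fun k => G (k + 1)) (m + 1)]
    refine sum_congr rfl fun k hk => ?_
    congr 1
    have := mem_range.1 hk
    omega
  have h4 := sum_range_succ' G (m + 1)
  have h5 := sum_range_succ G (m + 1)
  rw [h2, h3]
  rw [h0, add_zero] at h4
  rw [h1, add_zero] at h5
  rw [← h4, h5]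
  ring

/-- a coordinate on a grid line -/
lemma cast_mod {m n : ℕ} [NeZero ((m + 1) * n)] (i a : ℕ) :
    ((((m + 1) * i + a : ℕ) : ZMod ((m + 1) * n))).val % (m + 1) = a % (m + 1) := by
  rw [ZMod.val_natCast, Nat.mod_mul_right_mod, Nat.mul_add_mod]

lemma val_sub_one' (m : ℕ) [NeZero ((m + 1) * 2)] (x : ZMod ((m + 1) * 2)) :
    (x - 1).val = if x.val = 0 then (m + 1) * 2 - 1 else x.val - 1 := by
  have h := H474.Cb.val_add_one' m (x - 1)
  rw [sub_add_cancel] at h
  have h1 := ZMod.val_lt (x - 1)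
  split_ifs at h ⊢ <;> omega

/-- the divergence in one direction -/
lemma fold_dv1 {m n : ℕ} [NeZero ((m + 1) * n)] [NeZero ((m + 1) * 2)] (i : ℕ)
    {g : ZMod ((m + 1) * n) → ℝ}
    (hg : ∀ y, (y.val % (m + 1) = 0 ∨ (y + 1).val % (m + 1) = 0) → g y = 0)
    (x : ZMod ((m + 1) * 2)) :
    (sgh m (x - 1) : ℝ) * g (((m + 1) * i + fc m (x - 1) : ℕ) : ZMod ((m + 1) * n)) -
        (sgh m x : ℝ) * g (((m + 1) * i + fc m x : ℕ) : ZMod ((m + 1) * n)) =
      g ((((m + 1) * i + fo m x : ℕ) : ZMod ((m + 1) * n)) - 1) -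
        g (((m + 1) * i + fo m x : ℕ) : ZMod ((m + 1) * n)) := by
  have hx := ZMod.val_lt x
  have hv := val_sub_one' m x
  have hsub : ∀ a : ℕ, 1 ≤ a → ((((m + 1) * i + a : ℕ) : ZMod ((m + 1) * n)) - 1) =
      (((m + 1) * i + (a - 1) : ℕ) : ZMod ((m + 1) * n)) := by
    intro a ha
    have e : (m + 1) * i + a = (m + 1) * i + (a - 1) + 1 := by omega
    rw [e, Nat.cast_add _ 1, Nat.cast_one, add_sub_cancel_right]
  have hz : ∀ a : ℕ, (a % (m + 1) = 0 ∨ (a + 1) % (m + 1) = 0) →
      g (((m + 1) * i + a : ℕ) : ZMod ((m + 1) * n)) = 0 := by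
    intro a ha
    refine hg _ ?_
    rcases ha with ha | ha
    · left
      rw [cast_mod, ha]
    · right
      have e : (((m + 1) * i + a : ℕ) : ZMod ((m + 1) * n)) + 1 =
          (((m + 1) * i + (a + 1) : ℕ) : ZMod ((m + 1) * n)) := by
        push_cast
        ring
      rw [e, cast_mod, ha]
  have hm0 : (m + 1) % (m + 1) = 0 := Nat.mod_self _
  have hz0 := hz 0 (Or.inl (Nat.zero_mod _))
  have hzm := hz m (Or.inr hm0)
  have hzm1 := hz (m + 1) (Or.inl hm0)
  unfold fc sgh fo
  rcases Nat.eq_zero_or_pos x.val with h0 | h0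
  · -- the left line
    have c1 : (x - 1).val = (m + 1) * 2 - 1 := by rw [hv, if_pos h0]
    have hl : g ((((m + 1) * i + 0 : ℕ) : ZMod ((m + 1) * n)) - 1) = 0 := by
      refine hg _ (Or.inr ?_)
      rw [sub_add_cancel, cast_mod, Nat.zero_mod]
    rw [c1, h0, if_neg (by omega), if_neg (by omega), if_pos (by omega), if_pos (by omega)]
    have e1' : (m + 1) * 2 - 1 - ((m + 1) * 2 - 1) = 0 := by omega
    have e2' : min 0 ((m + 1) * 2 - 0) = 0 := by omega
    rw [e1', e2', hz0, hl]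
    simp
  · have c1 : (x - 1).val = x.val - 1 := by rw [hv, if_neg (by omega)]
    rcases Nat.lt_or_ge x.val (m + 1) with h1 | h1
    · rw [c1, if_pos (by omega), if_pos (by omega), if_pos h1, if_pos h1]
      have e2' : min x.val ((m + 1) * 2 - x.val) = x.val := by omega
      rw [e2', hsub _ h0]
      push_cast
      ring
    · rcases Nat.lt_or_ge (m + 1) x.val with h2 | h2
      · rw [c1, if_neg (by omega), if_neg (by omega), if_neg (by omega), if_neg (by omega)]
        have e2' : min x.val ((m + 1) * 2 - x.val) = (m + 1) * 2 - x.val := by omega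
        have e3 : (m + 1) * 2 - 1 - (x.val - 1) = (m + 1) * 2 - x.val := by omega
        have e4 : (m + 1) * 2 - 1 - x.val = (m + 1) * 2 - x.val - 1 := by omega
        rw [e2', e3, e4, hsub _ (by omega)]
        push_cast
        ring
      · have h3 : x.val = m + 1 := by omega
        rw [c1, h3, if_pos (by omega), if_pos (by omega), if_neg (by omega), if_neg (by omega)]
        have e2' : min (m + 1) ((m + 1) * 2 - (m + 1)) = m + 1 := by omega
        have e3 : m + 1 - 1 = m := by omega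
        have e4 : (m + 1) * 2 - 1 - (m + 1) = m := by omega
        rw [e2', e3, e4, hsub _ (by omega), e3, hzm, hzm1]
        ring

/-! ### the block -/

section two

variable {m n : ℕ}

/-- the point of the block `(i, j)` -/
def bp (m n i j a c : ℕ) : V ((m + 1) * n) :=
  ((((m + 1) * i + a : ℕ) : ZMod ((m + 1) * n)), (((m + 1) * j + c : ℕ) : ZMod ((m + 1) * n)))

/-- sum over the block `(i, j)` -/
def bsm (m : ℕ) {n : ℕ} (i j : ℕ) (G : V ((m + 1) * n) → ℝ) : ℝ :=
  ∑ a ∈ range (m + 1), ∑ c ∈ range (m + 1), G (bp m n i j a c)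

/-- on the lines of the grid -/
def OnG (m : ℕ) {N : ℕ} (x : V N) : Prop := x.1.val % (m + 1) = 0 ∨ x.2.val % (m + 1) = 0

/-- the sign of an edge of the folded torus -/
def sgE (m : ℕ) (e : V ((m + 1) * 2) × Bool) : ℝ := if e.2 then (sgh m e.1.2 : ℝ) else sgh m e.1.1

/-- the folded edge function, no sign -/
def foU (m : ℕ) (h : V ((m + 1) * n) × Bool → ℝ) (i j : ℕ) (e : V ((m + 1) * 2) × Bool) : ℝ :=
  if e.2 then h (bp m n i j (fo m e.1.1) (fc m e.1.2), true)
  else h (bp m n i j (fc m e.1.1) (fo m e.1.2), false)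

/-- **the folded edge field** -/
def foJ (m : ℕ) (β : V ((m + 1) * n) × Bool → ℝ) (i j : ℕ) (e : V ((m + 1) * 2) × Bool) : ℝ :=
  sgE m e * foU m β i j e

lemma foF_bp (G : V ((m + 1) * n) → ℝ) (i j : ℕ) (x : V ((m + 1) * 2)) :
    foF m G i j x = G (bp m n i j (fo m x.1) (fo m x.2)) := rfl

lemma sgE_sq (m : ℕ) (e : V ((m + 1) * 2) × Bool) : sgE m e * sgE m e = 1 := by
  unfold sgE sgh
  split_ifs <;> simp

lemma sgE_cases (m : ℕ) (e : V ((m + 1) * 2) × Bool) : sgE m e = 1 ∨ sgE m e = -1 := by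
  unfold sgE sgh
  split_ifs <;> simp

lemma foJ_mul (β γ : V ((m + 1) * n) × Bool → ℝ) (i j : ℕ) (e : V ((m + 1) * 2) × Bool) :
    foJ m β i j e * foJ m γ i j e = foU m (fun e => β e * γ e) i j e := by
  have h := sgE_sq m e
  unfold foJ
  have e1 : sgE m e * foU m β i j e * (sgE m e * foU m γ i j e) =
      (sgE m e * sgE m e) * (foU m β i j e * foU m γ i j e) := by ring
  rw [e1, h, one_mul]
  unfold foU
  split_ifs <;> rfl

lemma foJ_even {g : ℝ → ℝ} (hg : ∀ x, g (-x) = g x) (β : V ((m + 1) * n) × Bool → ℝ) (i j : ℕ)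
    (e : V ((m + 1) * 2) × Bool) : g (foJ m β i j e) = foU m (fun e => g (β e)) i j e := by
  unfold foJ
  have h1 : g (foU m β i j e) = foU m (fun e => g (β e)) i j e := by
    unfold foU
    split_ifs <;> rfl
  rcases sgE_cases m e with h | h
  · rw [h, one_mul, h1]
  · rw [h, neg_one_mul, hg, h1]

lemma foJ_add (β γ : V ((m + 1) * n) × Bool → ℝ) (i j : ℕ) (e : V ((m + 1) * 2) × Bool) :
    foJ m (fun e => β e + γ e) i j e = foJ m β i j e + foJ m γ i j e := by
  unfold foJ foU
  split_ifs <;> ring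

/-- helper474's folded dislocation -/
lemma foE_cast (η : V ((m + 1) * n) × Bool → ℤ) (i j : ℕ) (e : V ((m + 1) * 2) × Bool) :
    ((foE m η i j e : ℤ) : ℝ) = foJ m (fun e => (η e : ℝ)) i j e := by
  unfold foE foJ foU sgE sgh fc bp
  split_ifs <;> simp

lemma bp_succ1 (i j a c : ℕ) : bp m n i j (a + 1) c = bp m n i j a c + e1 := by
  unfold bp e1
  refine Prod.ext ?_ ?_
  · simp only [Prod.mk_add_mk]
    push_cast
    ring
  · simp

lemma bp_succ2 (i j a c : ℕ) : bp m n i j a (c + 1) = bp m n i j a c + e2 := by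
  unfold bp e2
  refine Prod.ext ?_ ?_
  · simp
  · simp only [Prod.mk_add_mk]
    push_cast
    ring

/-- **the gradient of the folded field is the folded gradient** -/
theorem gr_foF [NeZero ((m + 1) * n)] [NeZero ((m + 1) * 2)] (φ : V ((m + 1) * n) → ℝ) (i j : ℕ)
    (e : V ((m + 1) * 2) × Bool) : gr (foF m φ i j) e = foJ m (gr φ) i j e := by
  obtain ⟨⟨x1, x2⟩, b⟩ := e
  unfold foJ foU sgE sgh
  have f1 := fo_eq m x1
  have f2 := fo_eq m x2
  have s1 := fo_succ m x1
  have s2 := fo_succ m x2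
  cases b
  · rw [H817.gr_false, foF_bp, foF_bp]
    have hx : ((x1, x2) + e1 : V ((m + 1) * 2)) = (x1 + 1, x2) := by
      unfold e1
      simp
    rw [hx]
    simp only [Bool.false_eq_true, if_false, H817.gr_false]
    rw [s1, f1]
    by_cases h : x1.val < m + 1
    · rw [if_pos h, if_pos h, if_pos h, bp_succ1]
      simp
    · rw [if_neg h, if_neg h, if_neg h, bp_succ1]
      simp
  · rw [H817.gr_true, foF_bp, foF_bp]
    have hx : ((x1, x2) + e2 : V ((m + 1) * 2)) = (x1, x2 + 1) := by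
      unfold e2
      simp
    rw [hx]
    simp only [if_true, H817.gr_true]
    rw [s2, f2]
    by_cases h : x2.val < m + 1
    · rw [if_pos h, if_pos h, if_pos h, bp_succ2]
      simp
    · rw [if_neg h, if_neg h, if_neg h, bp_succ2]
      simp

variable [NeZero ((m + 1) * n)] [NeZero ((m + 1) * 2)]

lemma onG_bp0 (i j c : ℕ) : OnG m (bp m n i j 0 c) := Or.inl (by
  unfold bp
  rw [cast_mod, Nat.zero_mod])

lemma onG_bpm (i j c : ℕ) : OnG m (bp m n i j (m + 1) c) := Or.inl (by
  unfold bp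
  rw [cast_mod, Nat.mod_self])

lemma onG_bp0' (i j a : ℕ) : OnG m (bp m n i j a 0) := Or.inr (by
  unfold bp
  rw [cast_mod, Nat.zero_mod])

lemma onG_bpm' (i j a : ℕ) : OnG m (bp m n i j a (m + 1)) := Or.inr (by
  unfold bp
  rw [cast_mod, Nat.mod_self])

/-- **sums of site functions which vanish on the lines of the grid** -/
theorem sum_foF {G : V ((m + 1) * n) → ℝ} (hG : ∀ x, OnG m x → G x = 0) (i j : ℕ) :
    ∑ x : V ((m + 1) * 2), foF m G i j x = 4 * bsm m i j G := by
  have h1 : ∑ x : V ((m + 1) * 2), foF m G i j x =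
      ∑ x1 : ZMod ((m + 1) * 2), ∑ x2 : ZMod ((m + 1) * 2),
        G (bp m n i j (fo m x1) (fo m x2)) := by
    rw [Fintype.sum_prod_type]
    rfl
  have h2 : ∀ a : ℕ, ∑ x2 : ZMod ((m + 1) * 2), G (bp m n i j a (fo m x2)) =
      2 * ∑ c ∈ range (m + 1), G (bp m n i j a c) := fun a =>
    sum_fo m (G := fun c => G (bp m n i j a c)) (hG _ (onG_bp0' _ _ _)) (hG _ (onG_bpm' _ _ _))
  have h3 := sum_fo m (G := fun a => 2 * ∑ c ∈ range (m + 1), G (bp m n i j a c))
    (by
      rw [sum_eq_zero fun c _ => hG _ (onG_bp0 _ _ _), mul_zero])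
    (by
      rw [sum_eq_zero fun c _ => hG _ (onG_bpm _ _ _), mul_zero])
  rw [h1, sum_congr rfl fun x1 _ => h2 (fo m x1), h3, ← mul_sum]
  unfold bsm
  ring

/-- the edge function vanishes on the edges which touch the lines of the grid -/
def Eg0 (m : ℕ) {N : ℕ} (h : V N × Bool → ℝ) : Prop :=
  ∀ e : V N × Bool, (OnG m e.1 ∨ OnG m (e.1 + eb e.2)) → h e = 0

/-- **sums of edge functions** -/
theorem sum_foU {h : V ((m + 1) * n) × Bool → ℝ} (hh : Eg0 m h) (i j : ℕ) :
    ∑ e : V ((m + 1) * 2) × Bool, foU m h i j e =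
      4 * bsm m i j (fun x => h (x, false) + h (x, true)) := by
  have h1 : ∑ x : V ((m + 1) * 2), foU m h i j (x, false) =
      ∑ x1 : ZMod ((m + 1) * 2), ∑ x2 : ZMod ((m + 1) * 2),
        h (bp m n i j (fc m x1) (fo m x2), false) := by
    rw [Fintype.sum_prod_type]
    rfl
  have h2 : ∑ x : V ((m + 1) * 2), foU m h i j (x, true) =
      ∑ x1 : ZMod ((m + 1) * 2), ∑ x2 : ZMod ((m + 1) * 2),
        h (bp m n i j (fo m x1) (fc m x2), true) := by
    rw [Fintype.sum_prod_type]
    rfl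
  have h3 : ∀ a : ℕ, ∑ x2 : ZMod ((m + 1) * 2), h (bp m n i j a (fo m x2), false) =
      2 * ∑ c ∈ range (m + 1), h (bp m n i j a c, false) := fun a =>
    sum_fo m (G := fun c => h (bp m n i j a c, false)) (hh _ (Or.inl (onG_bp0' _ _ _)))
      (hh _ (Or.inl (onG_bpm' _ _ _)))
  have h4 := sum_fc m (fun a => 2 * ∑ c ∈ range (m + 1), h (bp m n i j a c, false))
  have h5 : ∀ a : ℕ, ∑ x2 : ZMod ((m + 1) * 2), h (bp m n i j a (fc m x2), true) =
      2 * ∑ c ∈ range (m + 1), h (bp m n i j a c, true) := fun a =>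
    sum_fc m fun c => h (bp m n i j a c, true)
  have h6 := sum_fo m (G := fun a => 2 * ∑ c ∈ range (m + 1), h (bp m n i j a c, true))
    (by
      rw [sum_eq_zero fun c _ => hh _ (Or.inl (onG_bp0 _ _ _)), mul_zero])
    (by
      rw [sum_eq_zero fun c _ => hh _ (Or.inl (onG_bpm _ _ _)), mul_zero])
  rw [H817.sum_edges, h1, h2, sum_congr rfl fun x1 _ => h3 (fc m x1), h4,
    sum_congr rfl fun x1 _ => h5 (fo m x1), h6, ← mul_sum, ← mul_sum]
  unfold bsm
  rw [← mul_add, ← mul_add, ← sum_add_distrib]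
  simp only [← sum_add_distrib]
  ring

/-- **the divergence of the folded edge field** -/
theorem dv_foJ {β : V ((m + 1) * n) × Bool → ℝ} (hβ : Eg0 m β) (i j : ℕ) (x : V ((m + 1) * 2)) :
    dv (foJ m β i j) x = foF m (dv β) i j x := by
  obtain ⟨x1, x2⟩ := x
  have h1 := fold_dv1 (m := m) (n := n) i
    (g := fun y => β ((y, (((m + 1) * j + fo m x2 : ℕ) : ZMod ((m + 1) * n))), false)) (by
      intro y hy
      refine hβ _ ?_
      rcases hy with hy | hy
      · exact Or.inl (Or.inl hy)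
      · refine Or.inr (Or.inl ?_)
        have e : ((y, (((m + 1) * j + fo m x2 : ℕ) : ZMod ((m + 1) * n))) + eb false :
            V ((m + 1) * n)).1 = y + 1 := by
          unfold eb e1
          simp
        rw [e]
        exact hy) x1
  have h2 := fold_dv1 (m := m) (n := n) j
    (g := fun y => β (((((m + 1) * i + fo m x1 : ℕ) : ZMod ((m + 1) * n)), y), true)) (by
      intro y hy
      refine hβ _ ?_
      rcases hy with hy | hy
      · exact Or.inl (Or.inr hy)
      · refine Or.inr (Or.inr ?_)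
        have e : (((((m + 1) * i + fo m x1 : ℕ) : ZMod ((m + 1) * n)), y) + eb true :
            V ((m + 1) * n)).2 = y + 1 := by
          unfold eb e2
          simp
        rw [e]
        exact hy) x2
  have k1 : ((x1, x2) - e1 : V ((m + 1) * 2)) = (x1 - 1, x2) := by
    unfold e1
    simp
  have k2 : ((x1, x2) - e2 : V ((m + 1) * 2)) = (x1, x2 - 1) := by
    unfold e2
    simp
  rw [foF_bp]
  unfold dv
  rw [k1, k2]
  have l1 : bp m n i j (fo m x1) (fo m x2) - e1 =
      ((((m + 1) * i + fo m x1 : ℕ) : ZMod ((m + 1) * n)) - 1,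
        (((m + 1) * j + fo m x2 : ℕ) : ZMod ((m + 1) * n))) := by
    unfold bp e1
    simp
  have l2 : bp m n i j (fo m x1) (fo m x2) - e2 =
      ((((m + 1) * i + fo m x1 : ℕ) : ZMod ((m + 1) * n)),
        (((m + 1) * j + fo m x2 : ℕ) : ZMod ((m + 1) * n)) - 1) := by
    unfold bp e2
    simp
  rw [l1, l2]
  exact congrArg₂ (· + ·) h1 h2

/-- **the sum over the blocks is the sum over the torus** -/
theorem sum_bsm (G : V ((m + 1) * n) → ℝ) :
    ∑ p : Fin n × Fin n, bsm m p.1 p.2 G = ∑ x, G x := by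
  have h1 : ∀ g : ZMod ((m + 1) * n) → ℝ, ∑ x, g x =
      ∑ i : Fin n, ∑ a ∈ range (m + 1), g (((m + 1) * i + a : ℕ) : ZMod ((m + 1) * n)) := by
    intro g
    rw [← Equiv.sum_comp (slabE m n) g, Fintype.sum_prod_type]
    refine sum_congr rfl fun i _ => ?_
    rw [Finset.sum_range]
    rfl
  rw [Fintype.sum_prod_type, Fintype.sum_prod_type, h1]
  refine sum_congr rfl fun i _ => ?_
  unfold bsm
  rw [sum_comm]
  refine sum_congr rfl fun a _ => ?_
  rw [h1]
  rfl

end two

end

end Vale.Agent.P159.H276
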