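import Vale.Agent.P159.H474.Cb14
import Vale.Agent.P159.H276.Fo1

/-!
P159, module FO (helper276), part 2: **(UB) on the folded blocks** (`fold_UB`): the exponent of the
folded torus is four times the exponent of the block.
-/

set_option linter.unusedSectionVars false

namespace Vale.Agent.P159.H276

open Finset
open Vale.Agent.P159.H37 (ZM)
open Vale.Agent.P159.H770 (Ed eS eT wTD)
open Vale.Agent.P159.TM.SpecC (Tor wT)
open Vale.Agent.P159.TM.Spec (V)
open Vale.Agent.P159.H817 (gr dv nrm e1 e2 eb sz)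
open Vale.Agent.P159.H474.Cb (fo fc sgh foF foE fo_eq fo_succ fc_lt slabE Z0 Z0_pos)
open Vale.Agent.P159.H513 (cuZ)
open Vale.Agent.P159.H529.Qf (EQ DQ InT InB fq four dq_foE EQ_four four_in EQ_nonneg mem_rf1 mem_rf2
  rf1 rf2)

noncomputable section

section one

variable {N : ℕ} [NeZero N]

/-- **the exponent of (UB)** -/
def Uex (b t : ℝ) (η : V N × Bool → ℤ) (φ f K : V N → ℝ) (j : V N × Bool → ℝ) : ℝ :=
  -(t / 2 * ∑ x, f x ^ 2) + (∑ x, K x ^ 2) / (2 * t) - ∑ e, j e * ((η e : ℝ) + gr φ e) +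
    b * ∑ e, (Real.cosh (j e) - 1)

/-- its density -/
def Dns (b t : ℝ) (η : V N × Bool → ℤ) (φ f K : V N → ℝ) (j : V N × Bool → ℝ) (x : V N) : ℝ :=
  -(t / 2 * f x ^ 2) + K x ^ 2 / (2 * t) -
    (j (x, false) * ((η (x, false) : ℝ) + gr φ (x, false)) +
      j (x, true) * ((η (x, true) : ℝ) + gr φ (x, true))) +
    b * ((Real.cosh (j (x, false)) - 1) + (Real.cosh (j (x, true)) - 1))

lemma Uex_eq (b t : ℝ) (η : V N × Bool → ℤ) (φ f K : V N → ℝ) (j : V N × Bool → ℝ) :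
    Uex b t η φ f K j = ∑ x, Dns b t η φ f K j x := by
  unfold Uex Dns
  rw [H817.sum_edges, H817.sum_edges]
  simp only [sum_add_distrib, sum_sub_distrib, sum_neg_distrib, ← mul_sum, ← sum_div]

/-- the edge touches the region of faces -/
def TchT (N : ℕ) [NeZero N] (Λ : Finset (ℤ × ℤ)) (e : V N × Bool) : Prop :=
  ((e.1.1.val : ℤ), (e.1.2.val : ℤ)) ∈ Λ ∨
    (((e.1 - (if e.2 then (1, 0) else (0, 1))).1.val : ℤ),
      ((e.1 - (if e.2 then (1, 0) else (0, 1))).2.val : ℤ)) ∈ Λ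

/-- **(UB) on the torus** -/
def UBT (N : ℕ) [NeZero N] (b t : ℝ) : Prop :=
  ∀ (η : V N × Bool → ℤ) (q : ℤ × ℤ → ℤ) (Λ : Finset (ℤ × ℤ)) (φ f K : V N → ℝ)
    (j : V N × Bool → ℝ), DQ N η q → InT N Λ → (∀ e, TchT N Λ e → j e = 0) →
    (∀ x, t * f x = K x + dv j x) →
    ZM (wTD N b η) (t • (1 : Matrix (Tor N) (Tor N) ℝ)) (fun x => φ x + f x) ≤
      EQ b Λ q * Real.exp (Uex b t η φ f K j) * ZM (wT b N) (t • (1 : Matrix (Tor N) (Tor N) ℝ)) 0

end one

section two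

variable {m n : ℕ} [NeZero ((m + 1) * n)] [NeZero ((m + 1) * 2)]

lemma bsm_congr {G G' : V ((m + 1) * n) → ℝ} (i j : ℕ) (h : ∀ x, G x = G' x) :
    bsm m i j G = bsm m i j G' := by
  unfold bsm
  simp only [h]

/-- **the exponent of the folded data** -/
theorem Uex_fold (b t : ℝ) (η : V ((m + 1) * n) × Bool → ℤ) (φ : V ((m + 1) * n) → ℝ)
    {f K : V ((m + 1) * n) → ℝ} {j : V ((m + 1) * n) × Bool → ℝ}
    (hf : ∀ x, OnG m x → f x = 0) (hK : ∀ x, OnG m x → K x = 0) (hj : Eg0 m j) (i k : ℕ) :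
    Uex b t (foE m η i k) (foF m φ i k) (foF m f i k) (foF m K i k) (foJ m j i k) =
      4 * bsm m i k (Dns b t η φ f K j) := by
  have h1 : ∑ x, foF m f i k x ^ 2 = 4 * bsm m i k (fun x => f x ^ 2) :=
    sum_foF (G := fun x => f x ^ 2) (fun x hx => by rw [hf x hx]; ring) i k
  have h2 : ∑ x, foF m K i k x ^ 2 = 4 * bsm m i k (fun x => K x ^ 2) :=
    sum_foF (G := fun x => K x ^ 2) (fun x hx => by rw [hK x hx]; ring) i k
  have h3 : ∑ e, foJ m j i k e * (((foE m η i k e : ℤ) : ℝ) + gr (foF m φ i k) e) =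
      4 * bsm m i k (fun x => j (x, false) * ((η (x, false) : ℝ) + gr φ (x, false)) +
        j (x, true) * ((η (x, true) : ℝ) + gr φ (x, true))) := by
    rw [← sum_foU (h := fun e => j e * ((η e : ℝ) + gr φ e)) (fun e he => by
      show j e * ((η e : ℝ) + gr φ e) = 0
      rw [hj e he, zero_mul]) i k]
    refine sum_congr rfl fun e _ => ?_
    rw [foE_cast, gr_foF, ← foJ_add, foJ_mul]
  have h4 : ∑ e, (Real.cosh (foJ m j i k e) - 1) =
      4 * bsm m i k (fun x => (Real.cosh (j (x, false)) - 1) + (Real.cosh (j (x, true)) - 1)) := by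
    rw [← sum_foU (h := fun e => Real.cosh (j e) - 1) (fun e he => by
      show Real.cosh (j e) - 1 = 0
      rw [hj e he, Real.cosh_zero, sub_self]) i k]
    refine sum_congr rfl fun e _ => ?_
    exact foJ_even (g := fun x => Real.cosh x - 1) (fun x => by rw [Real.cosh_neg]) j i k e
  unfold Uex
  rw [h1, h2, h3, h4]
  unfold bsm Dns
  simp only [sum_add_distrib, sum_sub_distrib, sum_neg_distrib, ← mul_sum, ← sum_div]
  ring

lemma mem_four_fc {Λ : Finset (ℤ × ℤ)} (hΛ : InB m Λ) {x1 x2 : ZMod ((m + 1) * 2)}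
    (h : ((x1.val : ℤ), (x2.val : ℤ)) ∈ four m Λ) : (((fc m x1 : ℕ) : ℤ), ((fc m x2 : ℕ) : ℤ)) ∈ Λ := by
  have v1 := ZMod.val_lt x1
  have v2 := ZMod.val_lt x2
  have key : ∀ {y1 y2 : ℤ}, (y1, y2) ∈ Λ → (y1 = x1.val ∨ y1 = 2 * m + 1 - x1.val) →
      (y2 = x2.val ∨ y2 = 2 * m + 1 - x2.val) →
      (((fc m x1 : ℕ) : ℤ), ((fc m x2 : ℕ) : ℤ)) ∈ Λ := by
    intro y1 y2 hy h1 h2
    have h3 := hΛ _ hy
    simp only at h3
    have e1' : ((fc m x1 : ℕ) : ℤ) = y1 := by
      unfold fc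
      split_ifs <;> omega
    have e2' : ((fc m x2 : ℕ) : ℤ) = y2 := by
      unfold fc
      split_ifs <;> omega
    rw [e1', e2']
    exact hy
  unfold four at h
  rcases Finset.mem_union.1 h with h | h
  · rcases Finset.mem_union.1 h with h | h
    · exact key h (Or.inl rfl) (Or.inl rfl)
    · rw [mem_rf1] at h
      exact key h (Or.inr rfl) (Or.inl rfl)
  · rw [mem_rf2] at h
    rcases Finset.mem_union.1 h with h | h
    · exact key h (Or.inl rfl) (Or.inr rfl)
    · rw [mem_rf1] at h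
      exact key h (Or.inr rfl) (Or.inr rfl)

lemma fo_near (x : ZMod ((m + 1) * 2)) :
    |((fo m x : ℕ) : ℤ) - (fc m x : ℕ)| ≤ 1 ∧ |((fo m x : ℕ) : ℤ) - (fc m (x - 1) : ℕ)| ≤ 1 := by
  have h1 := fo_eq m x
  have h2 := fo_succ m (x - 1)
  rw [sub_add_cancel] at h2
  constructor
  · rw [h1, abs_le]
    split_ifs <;> constructor <;> push_cast <;> omega
  · rw [h2, abs_le]
    split_ifs <;> constructor <;> push_cast <;> omega

/-- **(UB) on a folded block** -/
theorem fold_UB {b t : ℝ} (hU : UBT ((m + 1) * 2) b t) (η : V ((m + 1) * n) × Bool → ℤ) (i k : ℕ)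
    {q : ℤ × ℤ → ℤ}
    (hq : ∀ a c : ℕ, a ≤ m → c ≤ m → cuZ η ((((m + 1) * i + a : ℕ) : ZMod ((m + 1) * n)),
        (((m + 1) * k + c : ℕ) : ZMod ((m + 1) * n))) = q ((a : ℤ), (c : ℤ)))
    {Λ : Finset (ℤ × ℤ)} (hΛ : InB m Λ) (φ : V ((m + 1) * n) → ℝ)
    {f K : V ((m + 1) * n) → ℝ} {j : V ((m + 1) * n) × Bool → ℝ}
    (hf : ∀ x, OnG m x → f x = 0) (hK : ∀ x, OnG m x → K x = 0) (hj : Eg0 m j)
    (hT : ∀ (a c : ℕ) (o : Bool), (∃ w ∈ Λ, |(a : ℤ) - w.1| ≤ 1 ∧ |(c : ℤ) - w.2| ≤ 1) →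
      j (bp m n i k a c, o) = 0)
    (heq : ∀ x, t * f x = K x + dv j x) :
    ZM (wTD ((m + 1) * 2) b (foE m η i k))
        (t • (1 : Matrix (Tor ((m + 1) * 2)) (Tor ((m + 1) * 2)) ℝ))
        (foF m (fun x => φ x + f x) i k) ≤
      EQ b Λ q ^ 4 * Real.exp (4 * bsm m i k (Dns b t η φ f K j)) * Z0 ((m + 1) * 2) b t := by
  have h := hU (foE m η i k) (fq m q) (four m Λ) (foF m φ i k) (foF m f i k) (foF m K i k)
    (foJ m j i k) (dq_foE η i k hq) (four_in hΛ) ?_ ?_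
  · rw [EQ_four b hΛ q, Uex_fold b t η φ hf hK hj i k] at h
    exact h
  · rintro ⟨⟨x1, x2⟩, o⟩ he
    unfold foJ
    have h0 : foU m j i k ((x1, x2), o) = 0 := by
      have g1 := fo_near (m := m) x1
      have g2 := fo_near (m := m) x2
      unfold foU
      rcases o with _ | _
      · simp only [Bool.false_eq_true, if_false]
        refine hT _ _ _ ?_
        rcases he with he | he
        · exact ⟨_, mem_four_fc hΛ he, by simp, g2.1⟩
        · have he' : ((x1.val : ℤ), ((x2 - 1).val : ℤ)) ∈ four m Λ := by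
            simp only [Bool.false_eq_true, if_false] at he
            have e1' : ((x1, x2) - ((0, 1) : V ((m + 1) * 2))) = (x1, x2 - 1) := by simp
            rw [e1'] at he
            exact he
          exact ⟨_, mem_four_fc hΛ he', by simp, g2.2⟩
      · simp only [if_true]
        refine hT _ _ _ ?_
        rcases he with he | he
        · exact ⟨_, mem_four_fc hΛ he, g1.1, by simp⟩
        · have he' : (((x1 - 1).val : ℤ), (x2.val : ℤ)) ∈ four m Λ := by
            simp only [if_true] at he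
            have e1' : ((x1, x2) - ((1, 0) : V ((m + 1) * 2))) = (x1 - 1, x2) := by simp
            rw [e1'] at he
            exact he
          exact ⟨_, mem_four_fc hΛ he', g1.2, by simp⟩
    rw [h0, mul_zero]
  · intro x
    rw [dv_foJ hj]
    exact heq _

end two

end

end Vale.Agent.P159.H276
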