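import Vale.Agent.P159.H276.Fo2

/-!
P159, module FO (helper276), part 3: **`QB_UB`**, the block numbers of decorated data from (UB) on the
folded torus.
-/

set_option linter.unusedSectionVars false

namespace Vale.Agent.P159.H276

open Finset
open Vale.Agent.P159.H37 (ZM)
open Vale.Agent.P159.H770 (Ed eS eT wTD)
open Vale.Agent.P159.TM.SpecC (Tor wT)
open Vale.Agent.P159.TM.Spec (V)
open Vale.Agent.P159.TM.H459 (sd sn)
open Vale.Agent.P159.H817 (gr dv nrm e1 e2 eb sz)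
open Vale.Agent.P159.H474.Cb (fo fc sgh foF foE fo_eq fo_succ fc_lt slabE Z0 Z0_pos GE trF trD GOK
  QB Qc rgn qblk blkz mem_rgn rgn_in rgn_sep EQ_rgn EQ_biUnion)
open Vale.Agent.P159.H513 (cuZ)
open Vale.Agent.P159.H529.Qf (EQ InB EQ_nonneg root_EQ)

noncomputable section

/-- translated edge field -/
def trJ {N : ℕ} (s : V N) (j : V N × Bool → ℝ) (e : V N × Bool) : ℝ := j (e.1 + s, e.2)

section tr

variable {N : ℕ} [NeZero N]

lemma gr_trF (s : V N) (φ : V N → ℝ) (x : V N) (o : Bool) :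
    gr (trF s φ) (x, o) = gr φ (x + s, o) := by
  rw [H817.gr_eq, H817.gr_eq]
  unfold trF
  rw [add_right_comm]

lemma dv_trJ (s : V N) (j : V N × Bool → ℝ) (x : V N) : dv (trJ s j) x = dv j (x + s) := by
  have h1 : x - e1 + s = x + s - e1 := by abel
  have h2 : x - e2 + s = x + s - e2 := by abel
  unfold dv trJ
  simp only [h1, h2]

lemma Dns_tr (b t : ℝ) (s : V N) (η : V N × Bool → ℤ) (φ f K : V N → ℝ) (j : V N × Bool → ℝ)
    (x : V N) : Dns b t (trD s η) (trF s φ) (trF s f) (trF s K) (trJ s j) x =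
      Dns b t η φ f K j (x + s) := by
  unfold Dns
  rw [gr_trF, gr_trF]
  rfl

end tr

section near

variable {m n : ℕ} [NeZero ((m + 1) * n)]

/-- a point near an interior point of a block -/
lemma near1 {κ : ℕ} {x z : ZMod ((m + 1) * n)} (h1 : κ ≤ z.val % (m + 1))
    (h2 : z.val % (m + 1) + κ + 1 ≤ m + 1) (h : (x - z).valMinAbs.natAbs ≤ κ) :
    x.val / (m + 1) = z.val / (m + 1) ∧
      ((x.val % (m + 1) : ℕ) : ℤ) = ((z.val % (m + 1) : ℕ) : ℤ) + (x - z).valMinAbs := by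
  obtain ⟨k, hk⟩ : ∃ k : ℤ, k = (x - z).valMinAbs := ⟨_, rfl⟩
  rw [← hk] at h ⊢
  have hx : x = z + (k : ZMod ((m + 1) * n)) := by
    rw [hk, ZMod.coe_valMinAbs]
    ring
  have hz := ZMod.val_lt z
  have hd := Nat.div_add_mod z.val (m + 1)
  have hQ : z.val / (m + 1) < n := by
    rw [Nat.div_lt_iff_lt_mul (Nat.succ_pos m), mul_comm n]
    exact hz
  set Q := z.val / (m + 1) with hQd
  set r := z.val % (m + 1) with hrd
  have hb : (m + 1) * Q + (m + 1) ≤ (m + 1) * n := by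
    calc (m + 1) * Q + (m + 1) = (m + 1) * (Q + 1) := by ring
      _ ≤ (m + 1) * n := Nat.mul_le_mul_left _ hQ
  obtain ⟨r', hr'⟩ : ∃ r' : ℕ, (r' : ℤ) = (r : ℤ) + k := ⟨((r : ℤ) + k).toNat, by
    rw [Int.toNat_of_nonneg]
    omega⟩
  have hr'm : r' < m + 1 := by omega
  have hv : x = (((m + 1) * Q + r' : ℕ) : ZMod ((m + 1) * n)) := by
    rw [hx]
    have e1' : (((m + 1) * Q + r' : ℕ) : ℤ) = (z.val : ℤ) + k := by
      rw [← hd]
      push_cast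
      rw [hr']
      ring
    have e2' := congrArg (Int.cast : ℤ → ZMod ((m + 1) * n)) e1'
    rw [Int.cast_natCast, Int.cast_add, Int.cast_natCast, ZMod.natCast_zmod_val] at e2'
    exact e2'.symm
  have hval : x.val = (m + 1) * Q + r' := by
    rw [hv, ZMod.val_natCast_of_lt (by omega)]
  rw [hval]
  constructor
  · rw [Nat.mul_add_div (Nat.succ_pos m), Nat.div_eq_of_lt hr'm, add_zero]
  · rw [Nat.mul_add_mod, Nat.mod_eq_of_lt hr'm, hr']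

lemma sz_le_iff {N : ℕ} [NeZero N] {x : V N} {r : ℕ} :
    sz x ≤ r ↔ x.1.valMinAbs.natAbs ≤ r ∧ x.2.valMinAbs.natAbs ≤ r := by
  unfold H817.sz
  exact max_le_iff

end near

section main

variable {m n : ℕ} [NeZero ((m + 1) * (n + 2))] [NeZero ((m + 1) * 2)] {b t : ℝ}

lemma near2 {κ : ℕ} {Pc : Finset (V ((m + 1) * (n + 2)))} {s : V ((m + 1) * (n + 2))}
    (hs : GOK m n κ Pc s) {z : V ((m + 1) * (n + 2))} (hz : z ∈ Pc) {x : V ((m + 1) * (n + 2))}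
    (hx : sz (x + s - z) ≤ κ) :
    (x.1.val / (m + 1) = (z - s).1.val / (m + 1) ∧
      ((x.1.val % (m + 1) : ℕ) : ℤ) = (((z - s).1.val % (m + 1) : ℕ) : ℤ) +
        (x + s - z).1.valMinAbs) ∧
    (x.2.val / (m + 1) = (z - s).2.val / (m + 1) ∧
      ((x.2.val % (m + 1) : ℕ) : ℤ) = (((z - s).2.val % (m + 1) : ℕ) : ℤ) +
        (x + s - z).2.valMinAbs) := by
  obtain ⟨h1, h2⟩ := sz_le_iff.1 hx
  obtain ⟨⟨⟨a1, a2⟩, a3, a4⟩, _⟩ := hs z hz
  have e1' : (x + s - z).1 = x.1 - (z - s).1 := by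
    show x.1 + s.1 - z.1 = x.1 - (z.1 - s.1)
    ring
  have e2' : (x + s - z).2 = x.2 - (z - s).2 := by
    show x.2 + s.2 - z.2 = x.2 - (z.2 - s.2)
    ring
  rw [e1'] at h1 ⊢
  rw [e2'] at h2 ⊢
  exact ⟨near1 a1 a2 h1, near1 a3 a4 h2⟩

/-- points near the centres are off the lines -/
lemma not_onG {κ ρ : ℕ} {Pc : Finset (V ((m + 1) * (n + 2)))} {s : V ((m + 1) * (n + 2))}
    (hs : GOK m n κ Pc s) (hρ : ρ + 1 ≤ κ) {z : V ((m + 1) * (n + 2))} (hz : z ∈ Pc)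
    {x : V ((m + 1) * (n + 2))} (hx : sz (x + s - z) ≤ ρ) : ¬ OnG m x := by
  have h := near2 hs hz (hx.trans (by omega))
  obtain ⟨h1, h2⟩ := sz_le_iff.1 hx
  obtain ⟨⟨⟨a1, a2⟩, a3, a4⟩, _⟩ := hs z hz
  have k1 := h.1.2
  have k2 := h.2.2
  unfold OnG
  omega

lemma cast_near (y : ZMod ((m + 1) * (n + 2))) (P a : ℕ) (hP : y.val / (m + 1) = P) :
    ((((m + 1) * P + a : ℕ) : ZMod ((m + 1) * (n + 2))) - y).valMinAbs.natAbs ≤
      ((a : ℤ) - ((y.val % (m + 1) : ℕ) : ℤ)).natAbs := by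
  have e : (((m + 1) * P + a : ℕ) : ZMod ((m + 1) * (n + 2))) - y =
      (((a : ℤ) - ((y.val % (m + 1) : ℕ) : ℤ) : ℤ) : ZMod ((m + 1) * (n + 2))) := by
    have hd := Nat.div_add_mod y.val (m + 1)
    rw [hP] at hd
    have hy : y = (((m + 1) * P + y.val % (m + 1) : ℕ) : ZMod ((m + 1) * (n + 2))) := by
      rw [hd, ZMod.natCast_zmod_val]
    generalize y.val % (m + 1) = r0 at hy ⊢
    rw [hy]
    push_cast
    ring
  rw [e]
  exact H764.vma_le _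

/-- edges which touch the region of a centre -/
lemma touch_rgn {j : V ((m + 1) * (n + 2)) × Bool → ℝ} {s z : V ((m + 1) * (n + 2))}
    {r : V ((m + 1) * (n + 2)) → ℕ}
    (hjr : ∀ e : V ((m + 1) * (n + 2)) × Bool, sz (e.1 - z) ≤ r z + 1 → j e = 0)
    {P1 P2 : ℕ} (b1 : (z - s).1.val / (m + 1) = P1) (b2 : (z - s).2.val / (m + 1) = P2)
    {w : ℤ × ℤ} (hw : w ∈ rgn m s r z) {a c : ℕ} (o : Bool) (w1 : |(a : ℤ) - w.1| ≤ 1)
    (w2 : |(c : ℤ) - w.2| ≤ 1) : trJ s j (bp m (n + 2) P1 P2 a c, o) = 0 := by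
  have g := mem_rgn hw
  unfold trJ
  refine hjr _ ?_
  have k1 := cast_near (z - s).1 P1 a b1
  have k2 := cast_near (z - s).2 P2 c b2
  simp only
  rw [sz_le_iff]
  have e1' : (bp m (n + 2) P1 P2 a c + s - z).1 =
      (((m + 1) * P1 + a : ℕ) : ZMod ((m + 1) * (n + 2))) - (z - s).1 := by
    show (((m + 1) * P1 + a : ℕ) : ZMod ((m + 1) * (n + 2))) + s.1 - z.1 = _ - (z.1 - s.1)
    ring
  have e2' : (bp m (n + 2) P1 P2 a c + s - z).2 =
      (((m + 1) * P2 + c : ℕ) : ZMod ((m + 1) * (n + 2))) - (z - s).2 := by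
    show (((m + 1) * P2 + c : ℕ) : ZMod ((m + 1) * (n + 2))) + s.2 - z.2 = _ - (z.2 - s.2)
    ring
  rw [e1', e2']
  rw [abs_le] at w1 w2
  constructor
  · refine k1.trans ?_
    omega
  · refine k2.trans ?_
    omega

/-- nothing in the block at the origin -/
lemma bsm_origin {κ ρ : ℕ} {Pc : Finset (V ((m + 1) * (n + 2)))} {s : V ((m + 1) * (n + 2))}
    (hs : GOK m n κ Pc s) (hρ : ρ ≤ κ) {D : V ((m + 1) * (n + 2)) → ℝ}
    (oD : ∀ x, D x ≠ 0 → ∃ z ∈ Pc, sz (x + s - z) ≤ ρ) : bsm m (n := n + 2) 0 0 D = 0 := by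
  unfold bsm
  refine Finset.sum_eq_zero fun a ha => Finset.sum_eq_zero fun c hc => ?_
  by_contra h
  obtain ⟨z, hz, h1⟩ := oD _ h
  have h2 := near2 hs hz (h1.trans hρ)
  have h3 : ∀ a : ℕ, a < m + 1 →
      ((((m + 1) * 0 + a : ℕ) : ZMod ((m + 1) * (n + 2)))).val / (m + 1) = 0 := by
    intro a ha
    rw [mul_zero, zero_add, ZMod.val_natCast_of_lt (by nlinarith), Nat.div_eq_of_lt ha]
  have a1 : (z - s).1.val / (m + 1) = 0 := by
    rw [← h2.1.1]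
    exact h3 a (Finset.mem_range.1 ha)
  have a2 : (z - s).2.val / (m + 1) = 0 := by
    rw [← h2.2.1]
    exact h3 c (Finset.mem_range.1 hc)
  exact (hs z hz).2 ⟨(Nat.div_eq_zero_iff_lt (Nat.succ_pos m)).1 a1,
    (Nat.div_eq_zero_iff_lt (Nat.succ_pos m)).1 a2⟩

/-- the sum over the other blocks -/
lemma sum_erase_bsm {κ ρ : ℕ} {Pc : Finset (V ((m + 1) * (n + 2)))} {s : V ((m + 1) * (n + 2))}
    (hs : GOK m n κ Pc s) (hρ : ρ ≤ κ) {D : V ((m + 1) * (n + 2)) → ℝ}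
    (oD : ∀ x, D x ≠ 0 → ∃ z ∈ Pc, sz (x + s - z) ≤ ρ) :
    ∑ p ∈ univ.erase ((0, 0) : Fin (n + 2) × Fin (n + 2)), bsm m p.1 p.2 D = ∑ x, D x := by
  have h1 := sum_bsm (m := m) (n := n + 2) D
  rw [← Finset.add_sum_erase _ _ (Finset.mem_univ ((0, 0) : Fin (n + 2) × Fin (n + 2)))] at h1
  have h3 : bsm m (n := n + 2) (((0, 0) : Fin (n + 2) × Fin (n + 2)).1 : ℕ)
      (((0, 0) : Fin (n + 2) × Fin (n + 2)).2 : ℕ) D = 0 := bsm_origin hs hρ oD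
  rw [h3, zero_add] at h1
  exact h1

/-- the fourth root of the number of a block -/
lemma root_blk (hb : 0 ≤ b) {κ : ℕ} {Kc : Finset (V ((m + 1) * (n + 2)))}
    {s : V ((m + 1) * (n + 2))} (hs : GOK m n κ Kc s) {r : V ((m + 1) * (n + 2)) → ℕ}
    (hr : ∀ z ∈ Kc, r z + 1 ≤ κ) (hsep : ∀ z ∈ Kc, ∀ z' ∈ Kc, z ≠ z' → r z + r z' + 2 ≤ sd z z')
    (X : GE ((m + 1) * (n + 2))) (p : Fin (n + 2) × Fin (n + 2)) (u : ℝ) :
    (EQ b ((Kc.filter fun z => blkz m n s z = p).biUnion (rgn m s r))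
      (qblk m n s X.1 p) ^ 4 * Real.exp (4 * u)) ^ (1 / 4 : ℝ) =
      (∏ z ∈ Kc with blkz m n s z = p, H474.Cb.Qc b X z (r z)) * Real.exp u := by
  rw [Real.mul_rpow (pow_nonneg (EQ_nonneg hb _ _) 4) (Real.exp_pos _).le, root_EQ hb,
    EQ_biUnion]
  · congr 1
    · refine Finset.prod_congr rfl fun z hz => ?_
      obtain ⟨hz, hzp⟩ := Finset.mem_filter.1 hz
      exact EQ_rgn hs hr X hz hzp
    · rw [← Real.exp_mul]
      congr 1
      ring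
  · intro z hz z' hz' hne
    obtain ⟨hz, hzp⟩ := Finset.mem_filter.1 hz
    obtain ⟨hz', hzp'⟩ := Finset.mem_filter.1 hz'
    exact rgn_sep (hsep z hz z' hz' hne) (hzp.trans hzp'.symm)

/-- the product over the blocks -/
lemma prod_blk {κ : ℕ} {Kc : Finset (V ((m + 1) * (n + 2)))} {s : V ((m + 1) * (n + 2))}
    (hs : GOK m n κ Kc s) (g : V ((m + 1) * (n + 2)) → ℝ) :
    ∏ p ∈ univ.erase ((0, 0) : Fin (n + 2) × Fin (n + 2)), ∏ z ∈ Kc with blkz m n s z = p, g z =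
      ∏ z ∈ Kc, g z := by
  refine Finset.prod_fiberwise_of_maps_to (fun z hz => ?_) _
  rw [Finset.mem_erase]
  refine ⟨fun h => (hs z hz).2 ?_, Finset.mem_univ _⟩
  have b1 : (z - s).1.val / (m + 1) = 0 :=
    congrArg (fun p : Fin (n + 2) × Fin (n + 2) => (p.1 : ℕ)) h
  have b2 : (z - s).2.val / (m + 1) = 0 :=
    congrArg (fun p : Fin (n + 2) × Fin (n + 2) => (p.2 : ℕ)) h
  exact ⟨(Nat.div_eq_zero_iff_lt (Nat.succ_pos m)).1 b1,
    (Nat.div_eq_zero_iff_lt (Nat.succ_pos m)).1 b2⟩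

/-- the fields of a decoration -/
structure Dcr (t : ℝ) (ρ : ℕ) (Pc : Finset (V ((m + 1) * (n + 2))))
    (f K : V ((m + 1) * (n + 2)) → ℝ) (j : V ((m + 1) * (n + 2)) × Bool → ℝ) : Prop where
  f0 : ∀ x, f x ≠ 0 → ∃ z ∈ Pc, sz (x - z) ≤ ρ
  K0 : ∀ x, K x ≠ 0 → ∃ z ∈ Pc, sz (x - z) ≤ ρ
  j0 : ∀ e : V ((m + 1) * (n + 2)) × Bool, j e ≠ 0 → ∃ z ∈ Pc, sz (e.1 - z) ≤ ρ
  eq : ∀ x, t * f x = K x + dv j x

variable {f K : V ((m + 1) * (n + 2)) → ℝ} {j : V ((m + 1) * (n + 2)) × Bool → ℝ} {κ ρ : ℕ}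
    {Pc Kc : Finset (V ((m + 1) * (n + 2)))} {s : V ((m + 1) * (n + 2))}

lemma Dcr.of (h : Dcr t ρ Pc f K j) (hs : GOK m n κ Pc s) (hρ : ρ + 2 ≤ κ)
    (x : V ((m + 1) * (n + 2))) (hx : OnG m x) : trF s f x = 0 := by
  by_contra h0
  obtain ⟨z, hz, h1⟩ := h.f0 (x + s) h0
  exact not_onG hs (by omega) hz h1 hx

lemma Dcr.oK (h : Dcr t ρ Pc f K j) (hs : GOK m n κ Pc s) (hρ : ρ + 2 ≤ κ)
    (x : V ((m + 1) * (n + 2))) (hx : OnG m x) : trF s K x = 0 := by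
  by_contra h0
  obtain ⟨z, hz, h1⟩ := h.K0 (x + s) h0
  exact not_onG hs (by omega) hz h1 hx

lemma Dcr.oj (h : Dcr t ρ Pc f K j) (hs : GOK m n κ Pc s) (hρ : ρ + 2 ≤ κ) :
    Eg0 m (trJ s j) := by
  intro e he
  by_contra h0
  obtain ⟨z, hz, h1⟩ := h.j0 (e.1 + s, e.2) h0
  simp only at h1
  rcases he with he | he
  · exact not_onG hs (by omega) hz h1 he
  · refine not_onG (ρ := ρ + 1) hs (by omega) hz ?_ he
    have h2 := (H817.sz_step (e.1 + s - z) e.2).2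
    have h3 : e.1 + s - z + eb e.2 = e.1 + eb e.2 + s - z := by abel
    rw [h3] at h2
    omega

lemma Dcr.oD (h : Dcr t ρ Pc f K j) (b : ℝ) (η : V ((m + 1) * (n + 2)) × Bool → ℤ)
    (φ : V ((m + 1) * (n + 2)) → ℝ) (x : V ((m + 1) * (n + 2)))
    (hx : Dns b t (trD s η) (trF s φ) (trF s f) (trF s K) (trJ s j) x ≠ 0) :
    ∃ z ∈ Pc, sz (x + s - z) ≤ ρ := by
  by_contra hcon
  refine hx ?_
  have c1 : f (x + s) = 0 := by
    by_contra h0
    exact hcon (h.f0 (x + s) h0)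
  have c2 : K (x + s) = 0 := by
    by_contra h0
    exact hcon (h.K0 (x + s) h0)
  have c3 : ∀ o, j (x + s, o) = 0 := by
    intro o
    by_contra h0
    obtain ⟨z, hz, h1⟩ := h.j0 (x + s, o) h0
    exact hcon ⟨z, hz, h1⟩
  rw [Dns_tr]
  unfold Dns
  rw [c1, c2, c3, c3, Real.cosh_zero]
  ring

/-- one block -/
lemma blk_UB (hU : UBT ((m + 1) * 2) b t) (η : V ((m + 1) * (n + 2)) × Bool → ℤ)
    (φ : V ((m + 1) * (n + 2)) → ℝ) (h : Dcr t ρ Pc f K j) (hρ : ρ + 2 ≤ κ) (hKc : Kc ⊆ Pc)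
    (hs : GOK m n κ Pc s) {r : V ((m + 1) * (n + 2)) → ℕ} (hr : ∀ z ∈ Kc, r z + 1 ≤ κ)
    (hjr : ∀ z ∈ Kc, ∀ e : V ((m + 1) * (n + 2)) × Bool, sz (e.1 - z) ≤ r z + 1 → j e = 0)
    (p : Fin (n + 2) × Fin (n + 2)) :
    ZM (wTD ((m + 1) * 2) b (foE m (trD s η) p.1 p.2))
        (t • (1 : Matrix (Tor ((m + 1) * 2)) (Tor ((m + 1) * 2)) ℝ))
        (foF m (trF s fun x => φ x + f x) p.1 p.2) ≤
      EQ b ((Kc.filter fun z => blkz m n s z = p).biUnion (rgn m s r)) (qblk m n s η p) ^ 4 *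
        Real.exp (4 * bsm m p.1 p.2
          (Dns b t (trD s η) (trF s φ) (trF s f) (trF s K) (trJ s j))) *
        Z0 ((m + 1) * 2) b t := by
  have hs' : GOK m n κ Kc s := fun z hz => hs z (hKc hz)
  refine fold_UB hU (trD s η) p.1 p.2 (q := qblk m n s η p) (fun a c _ _ => ?_)
    (fun v hv => ?_) (trF s φ) (h.of hs hρ) (h.oK hs hρ) (h.oj hs hρ) ?_ ?_
  · unfold qblk
    simp only [Int.toNat_natCast]
  · obtain ⟨z, hz, hv'⟩ := Finset.mem_biUnion.1 hv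
    exact rgn_in hs' hr (Finset.mem_filter.1 hz).1 hv'
  · rintro a c o ⟨w, hw, w1, w2⟩
    obtain ⟨z, hz, hv'⟩ := Finset.mem_biUnion.1 hw
    obtain ⟨hz, hzp⟩ := Finset.mem_filter.1 hz
    have b1 : (z - s).1.val / (m + 1) = p.1 :=
      congrArg (fun p : Fin (n + 2) × Fin (n + 2) => (p.1 : ℕ)) hzp
    have b2 : (z - s).2.val / (m + 1) = p.2 :=
      congrArg (fun p : Fin (n + 2) × Fin (n + 2) => (p.2 : ℕ)) hzp
    exact touch_rgn (hjr z hz) b1 b2 hv' o w1 w2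
  · intro x
    rw [dv_trJ]
    exact h.eq (x + s)

/-- **the block numbers of decorated data** -/
theorem QB_UB (hU : UBT ((m + 1) * 2) b t) (hb : 0 < b) (η : V ((m + 1) * (n + 2)) × Bool → ℤ)
    (φ : V ((m + 1) * (n + 2)) → ℝ) (h : Dcr t ρ Pc f K j) (hρ : ρ + 2 ≤ κ) (hKc : Kc ⊆ Pc)
    (hs : GOK m n κ Pc s) {r : V ((m + 1) * (n + 2)) → ℕ} (hr : ∀ z ∈ Kc, r z + 1 ≤ κ)
    (hsep : ∀ z ∈ Kc, ∀ z' ∈ Kc, z ≠ z' → r z + r z' + 2 ≤ sd z z')
    (hjr : ∀ z ∈ Kc, ∀ e : V ((m + 1) * (n + 2)) × Bool, sz (e.1 - z) ≤ r z + 1 → j e = 0) :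
    QB m n b t (η, fun x => φ x + f x) s
      ((∏ z ∈ Kc, H474.Cb.Qc b (η, fun x => φ x + f x) z (r z)) *
        Real.exp (Uex b t η φ f K j)) := by
  classical
  have hs' : GOK m n κ Kc s := fun z hz => hs z (hKc hz)
  refine ⟨fun p => EQ b ((Kc.filter fun z => blkz m n s z = p).biUnion (rgn m s r))
    (qblk m n s η p) ^ 4 * Real.exp (4 * bsm m p.1 p.2
      (Dns b t (trD s η) (trF s φ) (trF s f) (trF s K) (trJ s j))), fun p =>
      mul_nonneg (pow_nonneg (EQ_nonneg hb.le _ _) 4) (Real.exp_pos _).le,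
      fun p _ => blk_UB hU η φ h hρ hKc hs hr hjr p, ?_⟩
  rw [Finset.prod_congr rfl fun p _ => root_blk hb.le hs' hr hsep
    ((η, fun x => φ x + f x) : GE ((m + 1) * (n + 2))) p _, Finset.prod_mul_distrib,
    ← Real.exp_sum, sum_erase_bsm hs (by omega : ρ ≤ κ) (h.oD b η φ), prod_blk hs', Uex_eq]
  refine le_of_eq ?_
  congr 2
  simp only [Dns_tr]
  exact Equiv.sum_comp (Equiv.addRight s) (fun x => Dns b t η φ f K j x)

end main

end

end Vale.Agent.P159.H276
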