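import Vale.Agent.P159.H27.Ub1
import Vale.Agent.P159.H276.Fo3

/-!
P159, module FO (helper276), part 4: `QB_UB` without hypothesis: helper27's (UB) on the folded torus.
-/

set_option linter.unusedSectionVars false

namespace Vale.Agent.P159.H276

open Finset
open Vale.Agent.P159.H37 (ZM)
open Vale.Agent.P159.H770 (Ed eS eT wTD)
open Vale.Agent.P159.TM.SpecC (Tor wT)
open Vale.Agent.P159.TM.Spec (V)
open Vale.Agent.P159.TM.H459 (sd sn)
open Vale.Agent.P159.H817 (gr dv nrm e1 e2 eb sz)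
open Vale.Agent.P159.H474.Cb (GE trF trD GOK QB)

noncomputable section

/-- **(UB) on every torus** -/
theorem ubt {N : ℕ} [NeZero N] (hN : 2 ≤ N) {b t : ℝ} (hb : 0 < b) (ht : 0 < t) : UBT N b t := by
  intro η q Λ φ f K j hη hΛ hj hf
  have h := H27.ub_ZM' hN hb ht (η := η) (q := q) (Λ := Λ) (j := j) hη.cu hΛ hj φ f K hf
  have e : Uex b t η φ f K j = b * ∑ e : Ed N, (Real.cosh (j e) - 1) -
      ∑ e : Ed N, j e * ((η e : ℝ) + gr φ e) - t / 2 * ∑ x, f x ^ 2 +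
        (∑ x, K x ^ 2) / (2 * t) := by
    unfold Uex
    ring
  rw [e]
  exact h

variable {m n : ℕ} [NeZero ((m + 1) * (n + 2))] [NeZero ((m + 1) * 2)] {b t : ℝ}
  {f K : V ((m + 1) * (n + 2)) → ℝ} {j : V ((m + 1) * (n + 2)) × Bool → ℝ} {κ ρ : ℕ}
  {Pc Kc : Finset (V ((m + 1) * (n + 2)))} {s : V ((m + 1) * (n + 2))}

/-- **the block numbers of decorated data** -/
theorem QB_dec (hb : 0 < b) (ht : 0 < t) (η : V ((m + 1) * (n + 2)) × Bool → ℤ)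
    (φ : V ((m + 1) * (n + 2)) → ℝ) (h : Dcr t ρ Pc f K j) (hρ : ρ + 2 ≤ κ) (hKc : Kc ⊆ Pc)
    (hs : GOK m n κ Pc s) {r : V ((m + 1) * (n + 2)) → ℕ} (hr : ∀ z ∈ Kc, r z + 1 ≤ κ)
    (hsep : ∀ z ∈ Kc, ∀ z' ∈ Kc, z ≠ z' → r z + r z' + 2 ≤ sd z z')
    (hjr : ∀ z ∈ Kc, ∀ e : V ((m + 1) * (n + 2)) × Bool, sz (e.1 - z) ≤ r z + 1 → j e = 0) :
    QB m n b t (η, fun x => φ x + f x) s
      ((∏ z ∈ Kc, H474.Cb.Qc b (η, fun x => φ x + f x) z (r z)) *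
        Real.exp (Uex b t η φ f K j)) :=
  QB_UB (ubt (by omega) hb ht) hb η φ h hρ hKc hs hr hsep hjr

end

end Vale.Agent.P159.H276
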