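import Vale.Agent.P159.H276.Uf4
import Vale.Agent.P159.H817.St16

/-!
P159, module UBF (helper276), part 5: **the flow of decorated fields on any torus** (`Dcs`): one
decoration, sums of decorations with separated centres, helper817's `edec`.
-/

set_option linter.unusedSectionVars false

namespace Vale.Agent.P159.H276

open Finset
open Vale.Agent.P159.TM.Spec (V)
open Vale.Agent.P159.H817 (gr dv nrm e1 e2 eb sz dec SuppD edec)

noncomputable section

variable {N : ℕ} [NeZero N] {t A J A' J' : ℝ} {ρ r : ℕ}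

/-- **decorations with their flow** : `t f = K + dv j`, all supported in the balls of radius `ρ`
around the centres `Pc`, `j = 0` on the balls of radius `r + 1` -/
structure Dcs (t : ℝ) (ρ r : ℕ) (Pc : Finset (V N)) (A J : ℝ) (f K : V N → ℝ)
    (j : V N × Bool → ℝ) : Prop where
  f0 : ∀ x, f x ≠ 0 → ∃ z ∈ Pc, sz (x - z) ≤ ρ
  K0 : ∀ x, K x ≠ 0 → ∃ z ∈ Pc, sz (x - z) ≤ ρ
  j0 : ∀ e : V N × Bool, j e ≠ 0 → ∃ z ∈ Pc, sz (e.1 - z) ≤ ρ
  jr : ∀ z ∈ Pc, ∀ e : V N × Bool, sz (e.1 - z) ≤ r + 1 → j e = 0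
  j1 : ∀ e, |j e| ≤ 1
  eq : ∀ x, t * f x = K x + dv j x
  K2 : ∑ x, K x ^ 2 ≤ t * A
  j2 : ∑ e, j e ^ 2 ≤ J

lemma cosh_sub_le {x : ℝ} (h : |x| ≤ 1) : Real.cosh x - 1 ≤ x ^ 2 := by
  have h2 := Real.cosh_le_exp_half_sq x
  have h3 : x ^ 2 ≤ 1 := by
    rw [← sq_abs]
    exact pow_le_one₀ (abs_nonneg _) h
  have h4 := Real.abs_exp_sub_one_le (x := x ^ 2 / 2) (by
    rw [abs_of_nonneg (by positivity)]
    linarith)
  rw [abs_of_nonneg (by positivity : (0 : ℝ) ≤ x ^ 2 / 2)] at h4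
  have h5 := (abs_le.1 h4).2
  linarith

section one

variable {Pc Pc' : Finset (V N)} {f K f' K' : V N → ℝ} {j j' : V N × Bool → ℝ}

lemma Dcs.cosh (h : Dcs t ρ r Pc A J f K j) : ∑ e, (Real.cosh (j e) - 1) ≤ J :=
  (sum_le_sum fun e _ => cosh_sub_le (h.j1 e)).trans h.j2

lemma Dcs.neg (h : Dcs t ρ r Pc A J f K j) :
    Dcs t ρ r Pc A J (fun x => -f x) (fun x => -K x) (fun e => -j e) where
  f0 x hx := h.f0 x fun h0 => hx (by rw [h0, neg_zero])
  K0 x hx := h.K0 x fun h0 => hx (by rw [h0, neg_zero])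
  j0 e he := h.j0 e fun h0 => he (by rw [h0, neg_zero])
  jr z hz e he := by rw [h.jr z hz e he, neg_zero]
  j1 e := by
    rw [abs_neg]
    exact h.j1 e
  eq x := by
    have h1 := h.eq x
    unfold dv at h1 ⊢
    linarith
  K2 := by simpa only [neg_sq] using h.K2
  j2 := by simpa only [neg_sq] using h.j2

lemma Dcs.mono (h : Dcs t ρ r Pc A J f K j) (ht : 0 ≤ t) {ρ1 r1 : ℕ} {A1 J1 : ℝ} (h1 : ρ ≤ ρ1)
    (h2 : r1 ≤ r) (h3 : A ≤ A1) (h4 : J ≤ J1) : Dcs t ρ1 r1 Pc A1 J1 f K j where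
  f0 x hx := by
    obtain ⟨z, hz, g⟩ := h.f0 x hx
    exact ⟨z, hz, g.trans h1⟩
  K0 x hx := by
    obtain ⟨z, hz, g⟩ := h.K0 x hx
    exact ⟨z, hz, g.trans h1⟩
  j0 e he := by
    obtain ⟨z, hz, g⟩ := h.j0 e he
    exact ⟨z, hz, g.trans h1⟩
  jr z hz e he := h.jr z hz e (by omega)
  j1 := h.j1
  eq := h.eq
  K2 := h.K2.trans (mul_le_mul_of_nonneg_left h3 ht)
  j2 := h.j2.trans h4

/-- no decoration -/
lemma Dcs.zero (ht : 0 ≤ t) (hA : 0 ≤ A) (hJ : 0 ≤ J) (Pc : Finset (V N)) :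
    Dcs t ρ r Pc A J (fun _ => 0) (fun _ => 0) (fun _ => 0) where
  f0 x hx := absurd rfl hx
  K0 x hx := absurd rfl hx
  j0 e he := absurd rfl he
  jr z hz e he := rfl
  j1 e := by
    rw [abs_zero]
    exact zero_le_one
  eq x := by
    unfold dv
    ring
  K2 := by
    simp only [ne_eq, OfNat.ofNat_ne_zero, not_false_eq_true, zero_pow, sum_const_zero]
    positivity
  j2 := by
    simp only [ne_eq, OfNat.ofNat_ne_zero, not_false_eq_true, zero_pow, sum_const_zero]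
    exact hJ

/-- **two groups of decorations** -/
theorem Dcs.add (h : Dcs t ρ r Pc A J f K j) (h' : Dcs t ρ r Pc' A' J' f' K' j')
    (hsep : ∀ z ∈ Pc, ∀ z' ∈ Pc', 2 * ρ < sz (z - z') ∧ ρ + r + 1 < sz (z - z'))
    {P : Finset (V N)} (hP : ∀ z, z ∈ P ↔ z ∈ Pc ∨ z ∈ Pc') :
    Dcs t ρ r P (A + A') (J + J') (fun x => f x + f' x) (fun x => K x + K' x)
      (fun e => j e + j' e) := by
  have tri : ∀ x z z' : V N, sz (z - z') ≤ sz (x - z) + sz (x - z') := by
    intro x z z'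
    have h1 := H817.sz_add_le (z - x) (x - z')
    have h2 : z - x + (x - z') = z - z' := by abel
    rw [h2, H817.sz_sub_comm z x] at h1
    exact h1
  have dis : ∀ x : V N, (∃ z ∈ Pc, sz (x - z) ≤ ρ) → (∃ z ∈ Pc', sz (x - z) ≤ ρ) → False := by
    rintro x ⟨z, hz, h1⟩ ⟨z', hz', h2⟩
    have h3 := (hsep z hz z' hz').1
    have h4 := tri x z z'
    omega
  have or0 : ∀ {a c : ℝ}, a + c ≠ 0 → a ≠ 0 ∨ c ≠ 0 := by
    intro a c hac
    by_contra hcon
    push Not at hcon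
    exact hac (by rw [hcon.1, hcon.2, add_zero])
  refine ⟨fun x hx => ?_, fun x hx => ?_, fun e he => ?_, fun z hz e he => ?_, fun e => ?_,
    fun x => ?_, ?_, ?_⟩
  · rcases or0 hx with h1 | h1
    · obtain ⟨z, hz, g⟩ := h.f0 x h1
      exact ⟨z, (hP z).2 (Or.inl hz), g⟩
    · obtain ⟨z, hz, g⟩ := h'.f0 x h1
      exact ⟨z, (hP z).2 (Or.inr hz), g⟩
  · rcases or0 hx with h1 | h1
    · obtain ⟨z, hz, g⟩ := h.K0 x h1
      exact ⟨z, (hP z).2 (Or.inl hz), g⟩
    · obtain ⟨z, hz, g⟩ := h'.K0 x h1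
      exact ⟨z, (hP z).2 (Or.inr hz), g⟩
  · rcases or0 he with h1 | h1
    · obtain ⟨z, hz, g⟩ := h.j0 e h1
      exact ⟨z, (hP z).2 (Or.inl hz), g⟩
    · obtain ⟨z, hz, g⟩ := h'.j0 e h1
      exact ⟨z, (hP z).2 (Or.inr hz), g⟩
  · rcases (hP z).1 hz with h1 | h1
    · have g1 := h.jr z h1 e he
      have g2 : j' e = 0 := by
        by_contra h0
        obtain ⟨z', hz', g⟩ := h'.j0 e h0
        have h3 := (hsep z h1 z' hz').2
        have h4 := tri e.1 z z'
        omega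
      rw [g1, g2, add_zero]
    · have g1 := h'.jr z h1 e he
      have g2 : j e = 0 := by
        by_contra h0
        obtain ⟨z', hz', g⟩ := h.j0 e h0
        have h3 := (hsep z' hz' z h1).2
        have h4 := tri e.1 z' z
        omega
      rw [g1, g2, add_zero]
  · by_cases h0 : j e = 0
    · rw [h0, zero_add]
      exact h'.j1 e
    · have g2 : j' e = 0 := by
        by_contra h1
        exact dis e.1 (h.j0 e h0) (h'.j0 e h1)
      rw [g2, add_zero]
      exact h.j1 e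
  · have h1 := h.eq x
    have h2 := h'.eq x
    unfold dv at h1 h2 ⊢
    linarith
  · have e1 : ∀ x, (K x + K' x) ^ 2 = K x ^ 2 + K' x ^ 2 := by
      intro x
      by_cases h0 : K x = 0
      · rw [h0]
        ring
      · have g2 : K' x = 0 := by
          by_contra h1
          exact dis x (h.K0 x h0) (h'.K0 x h1)
        rw [g2]
        ring
    simp only [e1]
    rw [sum_add_distrib, mul_add]
    exact add_le_add h.K2 h'.K2
  · have e1 : ∀ e, (j e + j' e) ^ 2 = j e ^ 2 + j' e ^ 2 := by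
      intro e
      by_cases h0 : j e = 0
      · rw [h0]
        ring
      · have g2 : j' e = 0 := by
          by_contra h1
          exact dis e.1 (h.j0 e h0) (h'.j0 e h1)
        rw [g2]
        ring
    simp only [e1]
    rw [sum_add_distrib]
    exact add_le_add h.j2 h'.j2

end one

/-- **one decoration on any torus** -/
theorem dcs_dec {F : ℤ → ℤ → ℝ} (h : FlD t ρ r A J F) (hN : 2 * ρ + 4 < N) (p : V N) :
    ∃ K j, Dcs t ρ r {p} A J (dec F p) K j := by
  obtain ⟨K, j, hf, hK, hj⟩ := h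
  refine ⟨dec K p, decE j p, ⟨fun x hx => ⟨p, mem_singleton_self p, ?_⟩,
    fun x hx => ⟨p, mem_singleton_self p, ?_⟩, fun e he => ⟨p, mem_singleton_self p, ?_⟩,
    fun z hz e he => ?_, fun e => hf.j1 _ _ _, fun x => ?_, ?_, ?_⟩⟩
  · by_contra h0
    exact hx (H817.dec_zero hf.F0 (not_le.1 h0))
  · by_contra h0
    exact hx (H817.dec_zero hf.K0 (not_le.1 h0))
  · have := hf.j0 _ _ _ he
    unfold H817.sz
    exact max_le this.1 this.2
  · rw [mem_singleton] at hz
    subst hz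
    unfold H817.sz at he
    obtain ⟨g1, g2⟩ := max_le_iff.1 he
    exact hf.jr _ _ _ g1 g2
  · rw [dv_decE hN hf.j0]
    exact hf.eq _ _
  · have h3 := sum_dec (N := N) (ρ := ρ) (by omega) (G := fun a c => K a c ^ 2)
      (fun a c hh => hf.K0 _ _ fun h0 => hh (by
        show K a c ^ 2 = 0
        rw [h0]
        ring)) p
    have h4 : ∑ x, dec K p x ^ 2 = ∑ x, dec (fun a c => K a c ^ 2) p x := rfl
    rw [h4, h3]
    exact hK
  · have h3 := sum_dec (N := N) (ρ := ρ) (by omega)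
      (G := fun a c => j a c false ^ 2 + j a c true ^ 2)
      (fun a c hh => by
        by_contra hcon
        refine hh ?_
        have b : ∀ o, j a c o = 0 := fun o => by
          by_contra h0
          exact hcon (hf.j0 _ _ _ h0)
        show j a c false ^ 2 + j a c true ^ 2 = 0
        rw [b, b]
        ring) p
    have h4 : ∑ e, decE j p e ^ 2 = ∑ x, dec (fun a c => j a c false ^ 2 + j a c true ^ 2) p x := by
      rw [H817.sum_edges, ← sum_add_distrib]
      rfl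
    rw [h4, h3]
    exact hj

/-- **helper817's two decorations on any torus** -/
theorem dcs_edec {F0 F1 : ℤ → ℤ → ℝ} (h0 : FlD t ρ r A J F0) (h1 : FlD t ρ r A' J' F1)
    (hN : 2 * ρ + 4 < N) {p q : V N} (hs1 : 2 * ρ < sz (q - p)) (hs2 : ρ + r + 1 < sz (q - p)) :
    ∃ K j, Dcs t ρ r {p, q} (A + A') (J + J') (edec F0 F1 p q) K j := by
  obtain ⟨K, j, g⟩ := dcs_dec h0 hN p
  obtain ⟨K', j', g'⟩ := dcs_dec h1 hN q
  refine ⟨_, _, g.add g' (P := {p, q}) (fun z hz z' hz' => ?_) fun z => ?_⟩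
  · rw [mem_singleton] at hz hz'
    rw [hz, hz', H817.sz_sub_comm]
    exact ⟨hs1, hs2⟩
  · rw [mem_insert, mem_singleton, mem_singleton]

end

end Vale.Agent.P159.H276
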