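import Vale.Agent.P159.H276.Fo4
import Vale.Agent.P159.H276.Uf5

/-!
P159, module FO (helper276), part 5: `QB_dec` in the letters of `Dcs`.
-/

set_option linter.unusedSectionVars false

namespace Vale.Agent.P159.H276

open Finset
open Vale.Agent.P159.TM.Spec (V)
open Vale.Agent.P159.TM.H459 (sd sn)
open Vale.Agent.P159.H817 (gr dv nrm e1 e2 eb sz)
open Vale.Agent.P159.H474.Cb (GE trF trD GOK QB)

noncomputable section

variable {m n : ℕ} [NeZero ((m + 1) * (n + 2))] [NeZero ((m + 1) * 2)] {b t A J : ℝ}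
  {f K : V ((m + 1) * (n + 2)) → ℝ} {j : V ((m + 1) * (n + 2)) × Bool → ℝ} {κ ρ r : ℕ}
  {Pc Kc : Finset (V ((m + 1) * (n + 2)))} {s : V ((m + 1) * (n + 2))}

lemma Dcs.dcr (h : Dcs t ρ r Pc A J f K j) : Dcr t ρ Pc f K j := ⟨h.f0, h.K0, h.j0, h.eq⟩

/-- **the block numbers of decorations with a flow** -/
theorem QB_dcs (hb : 0 < b) (ht : 0 < t) (η : V ((m + 1) * (n + 2)) × Bool → ℤ)
    (φ : V ((m + 1) * (n + 2)) → ℝ) (h : Dcs t ρ r Pc A J f K j) (hρ : ρ + 2 ≤ κ) (hr : r + 1 ≤ κ)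
    (hKc : Kc ⊆ Pc) (hsep : ∀ z ∈ Kc, ∀ z' ∈ Kc, z ≠ z' → 2 * r + 2 ≤ sd z z')
    (hs : GOK m n κ Pc s) :
    QB m n b t (η, fun x => φ x + f x) s
      ((∏ z ∈ Kc, H474.Cb.Qc b (η, fun x => φ x + f x) z r) *
        Real.exp (Uex b t η φ f K j)) :=
  QB_dec hb ht η φ h.dcr hρ hKc hs (r := fun _ => r) (fun z _ => hr)
    (fun z hz z' hz' hne => by
      have := hsep z hz z' hz' hne
      omega) fun z hz e he => h.jr z (hKc hz) e he

end

end Vale.Agent.P159.H276
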