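import Vale.Agent.P159.H276.Cm1
import Vale.Agent.P159.H276.Uf5
import Vale.Agent.P159.H191.Ct6

/-!
P159 (helper276): **the smeared decorations have flows**: the class event of helper264 for the
smeared decoration of the smoothed field around a core, in helper191's letters, and its conclusion
in the torus free class `FlD`.
-/

set_option linter.unusedSectionVars false

namespace Vale.Agent.P159.H276.Mf

open Finset Matrix MeasureTheory
open Vale.Agent.P159.TM.Spec (V)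
open Vale.Agent.P159.TM.SpecC (wT)
open Vale.Agent.P159.H37 (re)
open Vale.Agent.P159.H864 (lapM)
open Vale.Agent.P159.H817 (gr nrm sz U abs_U U_zero Dec SuppD dec sz_add_le sz_neg sz_le_add rfl2)
open Vale.Agent.P159.H276 (nbZ Qa Qb Qc pot pot_eq FlD flD_of_Q)
open Vale.Agent.P159.H883
open Vale.Agent.P159.H264.Gq
open Vale.Agent.P159.H191 (mn chi Wts dcs)
open Vale.Agent.P159.H276.Cm
open Vale.Agent.P159.H663.Dr (tT)

noncomputable section

variable {N : ℕ} [NeZero N]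

/-! ### elementary facts -/

lemma card_nb (p : V N) (ρ : ℕ) : ((nbZ {p} ρ).card : ℝ) ≤ (2 * ρ + 1) ^ 2 := by
  have h1 : nbZ {p} ρ ⊆ TM.H459.ball p ρ := by
    intro x hx
    obtain ⟨z, hz, h⟩ := (Finset.mem_filter.1 hx).2
    rw [Finset.mem_singleton] at hz
    subst hz
    exact TM.H459.mem_ball.2 h
  have h2 := (Finset.card_le_card h1).trans (TM.H459.card_ball_le p ρ)
  exact_mod_cast h2

lemma sz_le (x y : V N) : (sz x : ℝ) - sz y ≤ sz (x - y) := by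
  have h1 := sz_add_le (x - y) y
  rw [sub_add_cancel] at h1
  have h2 : (sz x : ℝ) ≤ sz (x - y) + sz y := by exact_mod_cast h1
  linarith

lemma U_lip (m : ℕ) {l : ℕ} (hl : 0 < l) (x y : V N) :
    |U m l x - U m l y| ≤ sz (x - y) / l := by
  have hl' : (0 : ℝ) < l := by exact_mod_cast hl
  unfold U
  have h1 : ∀ A B : ℝ, |max 0 A - max 0 B| ≤ |A - B| := fun A B => by
    rw [max_comm 0 A, max_comm 0 B]
    exact abs_max_sub_max_le_abs A B 0
  refine (h1 _ _).trans ?_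
  have h2 : |min 1 (((m : ℝ) + l - sz x) / l) - min 1 (((m : ℝ) + l - sz y) / l)| ≤
      |((m : ℝ) + l - sz x) / l - ((m : ℝ) + l - sz y) / l| := by
    have := abs_min_sub_min_le_max (1 : ℝ) (((m : ℝ) + l - sz x) / l) 1
      (((m : ℝ) + l - sz y) / l)
    simpa using this
  refine h2.trans ?_
  rw [← sub_div, abs_div, abs_of_pos hl']
  refine div_le_div_of_nonneg_right ?_ hl'.le
  have h3 := sz_le x y
  have h4 := sz_le y x
  rw [H817.sz_sub_comm y x] at h4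
  rw [abs_le]
  constructor <;> linarith

/-! ### the decoration of one core -/

/-- the smeared decoration at the core `p` -/
def dcp (l : ℕ) (μ w : V N → ℝ) (p : V N) (H : V N → ℝ) (x : V N) : ℝ :=
  ∑ v, w v * (chi l (x - v - p) * (H x - mn μ (p + v) H))

lemma dcs_dcp (l : ℕ) (μ w : V N → ℝ) (p q : V N) (H : V N → ℝ) (x : V N) :
    dcs l μ w p q H x = dcp l μ w p H x + dcp l μ w q H x := by
  unfold dcs dcp
  rw [← Finset.sum_add_distrib]
  exact Finset.sum_congr rfl fun v _ => by ring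

lemma dcp_zero {l s : ℕ} {μ w : V N → ℝ} (hw : Wts w s) {p x : V N} (H : V N → ℝ)
    (h : 20 * l + s ≤ sz (x - p)) : dcp l μ w p H x = 0 := by
  unfold dcp
  refine Finset.sum_eq_zero fun v _ => ?_
  by_cases hv : w v = 0
  · rw [hv, zero_mul]
  · have h1 := hw.sup v hv
    have h2 : sz (x - p) ≤ sz (x - v - p) + sz v := by
      have := sz_add_le (x - v - p) v
      have e : x - v - p + v = x - p := by abel
      rwa [e] at this
    have h3 : chi l (x - v - p) = 0 := U_zero (by omega)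
    rw [h3, zero_mul, mul_zero]

lemma Mw_dcp (l q : ℕ) (μ w : V N → ℝ) (p : V N) (F : V N → ℝ) :
    Mw w (fun v x => chi l (x - v - p)) (fun v y => μ (y - (p + v))) (tM N q) *ᵥ F =
      dcp l μ w p (tT N q F) := by
  funext x
  rw [Mw_mulVec, tM_mulVec]
  rfl

/-- **the data of the smeared cut-off** -/
theorem smr_dcp {l s q : ℕ} {μ w : V N → ℝ} (hw : Wts w s) (hl : 0 < l)
    (hμ0 : ∀ v, 0 ≤ μ v) (hμ1 : ∑ v, μ v = 1) {s2 ℓ : ℝ} (hμ2 : ∑ v, μ v ^ 2 ≤ s2)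
    (hℓ : (q : ℝ) / (2 * l) ≤ ℓ) (p : V N) :
    Smr w (fun v x => chi l (x - v - p)) (fun v y => μ (y - (p + v))) q ℓ s2
      (nbZ {p} (20 * l + s)) Set.univ where
  w0 := hw.nn
  w1 := hw.one
  c1 := fun v x => abs_U _ _ _
  cl := by
    intro v x y hxy
    have h1 := U_lip (18 * l) (l := 2 * l) (by omega) (x - v - p) (y - v - p)
    have e : x - v - p - (y - v - p) = x - y := by abel
    rw [e] at h1
    refine h1.trans (le_trans ?_ hℓ)
    have h2 : (sz (x - y) : ℝ) ≤ q := by exact_mod_cast hxy.le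
    have h3 : ((2 * l : ℕ) : ℝ) = 2 * l := by push_cast; ring
    rw [h3]
    exact div_le_div_of_nonneg_right h2 (by positivity)
  cs := by
    intro v hv x hx
    refine Finset.mem_filter.2 ⟨Finset.mem_univ _, p, Finset.mem_singleton_self p, ?_⟩
    by_contra hc
    refine hx (U_zero ?_)
    have h1 := hw.sup v hv
    have h2 : sz (x - p) ≤ sz (x - v - p) + sz v := by
      have := sz_add_le (x - v - p) v
      have e : x - v - p + v = x - p := by abel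
      rwa [e] at this
    omega
  b0 := fun v y => hμ0 _
  b1 := by
    intro v
    rw [← hμ1]
    exact Fintype.sum_equiv (Equiv.subRight (p + v)) _ _ fun y => rfl
  b2 := by
    intro v
    refine le_trans (le_of_eq ?_) hμ2
    exact Fintype.sum_equiv (Equiv.subRight (p + v)) _ _ fun y => rfl
  cD := fun v _ x _ => Set.mem_univ _
  bD := fun v _ x _ => Set.mem_univ _

lemma nb_ne (p : V N) (ρ : ℕ) : (nbZ {p} ρ).Nonempty := ⟨p, mem_nbZ p ρ⟩

/-- **flows of the smeared decorations**: one event, one core -/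
theorem cls_dcp {b t κ : ℝ} {L q l s l0 l1 r : ℕ} (hb : 0 < b) (ht : 0 < t) (x₀ : V N)
    (hN : N = 2 * L) (hq : 0 < q) (hl : 0 < l) {μ w : V N → ℝ} (hw : Wts w s)
    (hμ0 : ∀ v, 0 ≤ μ v) (hμ1 : ∑ v, μ v = 1) {s2 : ℝ} (hs2 : 0 < s2) (hμ2 : ∑ v, μ v ^ 2 ≤ s2)
    (hκ : 0 < κ) {m : ℕ} (hm : 1 ≤ m) (hmκ : (m : ℝ) ^ 2 ≤ 2 * κ) (hr : 0 < r) (hl1 : 0 < l1)
    (hκl : 4 * κ ≤ (l1 : ℝ) ^ 2) (hl0 : 2 * (l0 + l1 + 1) + 4 < N)
    {g : V N → ℝ} {B : ℝ} (hB : 0 ≤ B) (hg : ∀ x, |tT N q g x| ≤ B)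
    (p : V N) {Aa Ab Ac E Ed ℓ : ℝ} (hℓ : (q : ℝ) / (2 * l) ≤ ℓ)
    (a1 : 64 * t * B ^ 2 * ((nbZ {p} (20 * l + s)).card : ℝ) < Aa)
    (a2 : 128 * (E + 1 / 2) * (gT N (tM N q) κ + s2) * ((nbZ {p} (20 * l + s)).card : ℝ) ≤ Aa)
    (b1 : 64 * t * B ^ 2 * ((nbZ {p} (2 * r)).card : ℝ) < Ab)
    (b2 : 128 * (E + 1 / 2) * (g2 N (tM N q) + s2) * ((nbZ {p} (2 * r)).card : ℝ) ≤ Ab)
    (c1 : 2048 * (t * κ ^ 2) * B ^ 2 * ((nbZ {p} (2 * r + 1)).card : ℝ) / ((r : ℝ) * m) ^ 2 < Ac)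
    (c2 : 64 * (E + 1 / 2) * κ * (((nbZ {p} (2 * r + 1)).card : ℝ) *
      (4 * (gT N (tM N q) κ + ℓ ^ 2 * g1 N κ) + 64 * s2 * κ / (m : ℝ) ^ 2)) / (r : ℝ) ^ 2 ≤ Ac)
    (d1 : 2048 * (t * κ) ^ 2 * B ^ 2 / (m : ℝ) ^ 2 < 1)
    (d2 : 64 * (Ed + 1 / 2) * (t * κ) * (4 * (gT N (tM N q) κ + ℓ ^ 2 * g1 N κ) +
      64 * s2 * κ / (m : ℝ) ^ 2) ≤ 1) :
    ∃ G : Set (V N → ℝ), MeasurableSet G ∧
      (nuM (wT b N) (t • (1 : Matrix (V N) (V N) ℝ)) x₀).real Gᶜ ≤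
        Pp (wT b N) x₀ (HtB (tM N q) B)ᶜ + 3 * Real.exp (-E) + (N : ℝ) ^ 2 * Real.exp (-Ed) ∧
      ∀ F ∈ G, ∀ F0 : ℤ → ℤ → ℝ, SuppD l0 F0 →
        (∀ x, dec F0 p x = dcp l μ w p (tT N q (F + g)) x) →
        FlD t (l0 + l1 + 1) r (3 * (2 * Aa + Ab + 4 * Ac)) (t * κ * Aa) F0 := by
  obtain ⟨G, mG, hG, hF⟩ := cls_ev' hb ht x₀ (smo_tM (N := N) hq) hN hκ hm hmκ hs2
    (nb_ne p (20 * l + s)) (smr_dcp hw hl hμ0 hμ1 hμ2 hℓ p) (cg := 0) hB
    (fun x _ => by rw [tM_mulVec, sub_zero]; exact hg x) p hr a1 a2 b1 b2 c1 c2 d1 d2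
  refine ⟨G, mG, hG, fun F hFG F0 hs0 he => ?_⟩
  obtain ⟨f1, f2, f3, f4⟩ := hF F hFG
  have e : Mw w (fun v x => chi l (x - v - p)) (fun v y => μ (y - (p + v))) (tM N q) *ᵥ (F + g) =
      dec F0 p := by
    rw [Mw_dcp]
    funext x
    exact (he x).symm
  rw [e] at f1 f2 f3 f4
  have h1 := flD_of_Q ht hκ.le hr hl1 hκl hl0 hs0 p (u := pot κ (dec F0 p))
    (fun x => pot_eq hκ.le (dec F0 p) x) f4
  refine h1.mono ht.le le_rfl le_rfl ?_ ?_
  · have h2 : 2 * Qa t κ (pot κ (dec F0 p)) + Qb t {p} r (dec F0 p) +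
        4 * Qc t κ {p} r (pot κ (dec F0 p)) ≤ 2 * Aa + Ab + 4 * Ac := by linarith
    linarith
  · exact mul_le_mul_of_nonneg_left f1 (mul_nonneg ht.le hκ.le)

end

end Vale.Agent.P159.H276.Mf
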