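import Vale.Agent.P159.H276.Mf1
import Vale.Agent.P159.H264.Cl8
import Vale.Agent.P159.H972.Good

/-!
P159 (helper276): **flows of the smeared decorations, the numbers**: mass `t = 4^(-n)`, cells
`q = 2^(n - sc)`, cut-off length `l ≥ 2^n`, torus `N = q 2^K`: off an event of probability
`exp (-Z) / 2` the decoration of a core is in the class `FlD` with both numbers
`O(K ^ 2 (Z + K) (l / 2^n) ^ 2)`.
-/

set_option linter.unusedSectionVars false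

namespace Vale.Agent.P159.H276.Mf

open Finset Matrix MeasureTheory
open Vale.Agent.P159.TM.Spec (V)
open Vale.Agent.P159.TM.SpecC (wT)
open Vale.Agent.P159.H37 (re)
open Vale.Agent.P159.H817 (gr nrm sz U abs_U U_zero Dec SuppD dec sz_add_le sz_neg sz_le_add rfl2)
open Vale.Agent.P159.H276 (nbZ FlD)
open Vale.Agent.P159.H883
open Vale.Agent.P159.H264.Gq
open Vale.Agent.P159.H191 (mn chi Wts dcs)
open Vale.Agent.P159.H276.Cm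
open Vale.Agent.P159.H663.Dr (tT)
open Vale.Agent.P159.H972 (tn)

noncomputable section

/-! ### elementary numbers -/

lemma log4_lt : Real.log 4 < 1.4 := by
  have h1 : Real.log 4 = 2 * Real.log 2 := by
    rw [show (4 : ℝ) = 2 ^ 2 by norm_num, Real.log_pow]
    norm_num
  have := Real.log_two_lt_d9
  linarith

lemma log_a (s : ℕ) : Real.log (1 + (4 : ℝ) ^ s) ≤ 1 + 1.4 * s := by
  have h1 : (1 : ℝ) ≤ 4 ^ s := one_le_pow₀ (by norm_num)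
  have h2 : Real.log (1 + (4 : ℝ) ^ s) ≤ Real.log (2 * 4 ^ s) :=
    Real.log_le_log (by positivity) (by linarith)
  rw [Real.log_mul (by norm_num) (by positivity), Real.log_pow] at h2
  have h3 := Real.log_two_lt_d9
  have h4 := mul_le_mul_of_nonneg_left log4_lt.le (Nat.cast_nonneg (α := ℝ) s)
  linarith

lemma log_b (n : ℕ) : Real.log (1 + 9 * (4 : ℝ) ^ n) ≤ 3 + 1.4 * n := by
  have h1 : (1 : ℝ) ≤ 4 ^ n := one_le_pow₀ (by norm_num)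
  have h2 : Real.log (1 + 9 * (4 : ℝ) ^ n) ≤ Real.log (4 * 4 * 4 ^ n) :=
    Real.log_le_log (by positivity) (by linarith)
  rw [Real.log_mul (by norm_num) (by positivity), Real.log_mul (by norm_num) (by norm_num),
    Real.log_pow] at h2
  have h3 := log4_lt
  have h4 := mul_le_mul_of_nonneg_left log4_lt.le (Nat.cast_nonneg (α := ℝ) n)
  linarith

variable {N : ℕ} [NeZero N]

lemma tT_le {q : ℕ} (hq : 0 < q) {g : V N → ℝ} {B : ℝ} (h : ∀ x, |g x| ≤ B) (x : V N) :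
    |tT N q g x| ≤ B := by
  have hT := smo_tM (N := N) hq
  rw [← tM_mulVec]
  show |∑ y, tM N q x y * g y| ≤ B
  refine (Finset.abs_sum_le_sum_abs _ _).trans ?_
  have h1 : ∀ y, |tM N q x y * g y| ≤ tM N q x y * B := by
    intro y
    rw [abs_mul, abs_of_nonneg (hT.nn x y)]
    exact mul_le_mul_of_nonneg_left (h y) (hT.nn x y)
  refine (Finset.sum_le_sum fun y _ => h1 y).trans (le_of_eq ?_)
  rw [← Finset.sum_mul, hT.row, one_mul]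

lemma inv_sq_le {n : ℕ} (hN : 2 ^ n ≤ N) : 1 / (N : ℝ) ^ 2 ≤ ((4 : ℝ) ^ n)⁻¹ := by
  rw [one_div]
  refine inv_anti₀ (by positivity) ?_
  have h1 : (2 : ℝ) ^ n ≤ N := by exact_mod_cast hN
  have h2 : (4 : ℝ) ^ n = (2 ^ n) ^ 2 := by
    rw [← pow_mul, mul_comm, pow_mul]
    norm_num
  rw [h2]
  exact pow_le_pow_left₀ (by positivity) h1 2

/-- the number of the smoothed resolvent -/
lemma gT_num {n s : ℕ} (hs : s ≤ n) (hN : 2 ^ n ≤ N) :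
    gT N (tM N (2 ^ (n - s))) (4 ^ n) ≤ ((4 : ℝ) ^ n)⁻¹ * (1331 * (1 + s)) := by
  have hq : 0 < 2 ^ (n - s) := by positivity
  have h1 := gT_le (smo_tM (N := N) hq) hq (κ := (4 : ℝ) ^ n) (by positivity)
  have e1 : (4 : ℝ) ^ n / ((2 ^ (n - s) : ℕ) : ℝ) ^ 2 = 4 ^ s := by
    push_cast
    rw [← pow_mul, mul_comm, pow_mul]
    norm_num
    rw [div_eq_iff (by positivity), ← pow_add]
    congr 1
    omega
  rw [e1] at h1
  have h2 := inv_sq_le (N := N) hN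
  have h3 := log_a s
  have hX : (0 : ℝ) < ((4 : ℝ) ^ n)⁻¹ := by positivity
  have h4 : 1 + (25 * (1 + Real.log (1 + (4 : ℝ) ^ s)) + 1280) ≤ 1331 * (1 + s) := by
    have : (0 : ℝ) ≤ s := Nat.cast_nonneg _
    linarith
  calc gT N (tM N (2 ^ (n - s))) (4 ^ n)
      ≤ ((4 : ℝ) ^ n)⁻¹ + ((4 : ℝ) ^ n)⁻¹ * (25 * (1 + Real.log (1 + (4 : ℝ) ^ s)) + 1280) := by
        linarith
    _ = ((4 : ℝ) ^ n)⁻¹ * (1 + (25 * (1 + Real.log (1 + (4 : ℝ) ^ s)) + 1280)) := by ring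
    _ ≤ _ := mul_le_mul_of_nonneg_left h4 hX.le

/-- the number of the resolvent -/
lemma g1_num {n : ℕ} (hN : 2 ^ n ≤ N) :
    g1 N ((4 : ℝ) ^ n) ≤ ((4 : ℝ) ^ n)⁻¹ * (101 + 35 * n) := by
  have h1 := g1_le (N := N) (κ := (4 : ℝ) ^ n) (by positivity)
  have h2 := inv_sq_le (N := N) hN
  have h3 := log_b n
  have hX : (0 : ℝ) < ((4 : ℝ) ^ n)⁻¹ := by positivity
  calc g1 N ((4 : ℝ) ^ n)
      ≤ ((4 : ℝ) ^ n)⁻¹ + ((4 : ℝ) ^ n)⁻¹ * (25 * (1 + Real.log (1 + 9 * (4 : ℝ) ^ n))) := by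
        linarith
    _ = ((4 : ℝ) ^ n)⁻¹ * (1 + 25 * (1 + Real.log (1 + 9 * (4 : ℝ) ^ n))) := by ring
    _ ≤ _ := mul_le_mul_of_nonneg_left (by linarith) hX.le

/-- the gradient number -/
lemma gX_num {n s : ℕ} (hs : s ≤ n) (hN : 2 ^ n ≤ N) (hn : (n : ℝ) ≤ 4 ^ s) {s2 : ℝ}
    (hs2 : s2 ≤ 16 * ((4 : ℝ) ^ n)⁻¹) :
    4 * (gT N (tM N (2 ^ (n - s))) (4 ^ n) + (1 / 2 * ((2 : ℝ) ^ s)⁻¹) ^ 2 * g1 N (4 ^ n)) +
      64 * s2 * 4 ^ n / ((2 ^ n : ℕ) : ℝ) ^ 2 ≤ ((4 : ℝ) ^ n)⁻¹ * (6500 * (1 + s)) := by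
  have h1 := gT_num (N := N) hs hN
  have h2 := g1_num (N := N) (n := n) hN
  have hX : (0 : ℝ) < ((4 : ℝ) ^ n)⁻¹ := by positivity
  have e1 : (1 / 2 * ((2 : ℝ) ^ s)⁻¹) ^ 2 = 1 / 4 * ((4 : ℝ) ^ s)⁻¹ := by
    rw [mul_pow, inv_pow, ← pow_mul, mul_comm s 2, pow_mul]
    norm_num
  have e2 : (4 : ℝ) ^ n / ((2 ^ n : ℕ) : ℝ) ^ 2 = 1 := by
    push_cast
    rw [← pow_mul, mul_comm n 2, pow_mul]
    norm_num
  have e3 : 64 * s2 * (4 : ℝ) ^ n / ((2 ^ n : ℕ) : ℝ) ^ 2 = 64 * s2 := by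
    rw [mul_div_assoc, e2, mul_one]
  rw [e1, e3]
  have h3 : ((4 : ℝ) ^ s)⁻¹ * (101 + 35 * n) ≤ 136 := by
    have a1 : (1 : ℝ) ≤ 4 ^ s := one_le_pow₀ (by norm_num)
    rw [← div_eq_inv_mul, div_le_iff₀ (by positivity)]
    linarith
  have h4 : 1 / 4 * ((4 : ℝ) ^ s)⁻¹ * g1 N ((4 : ℝ) ^ n) ≤ ((4 : ℝ) ^ n)⁻¹ * 34 := by
    have a2 : 0 ≤ 1 / 4 * ((4 : ℝ) ^ s)⁻¹ := by positivity
    have a3 := mul_le_mul_of_nonneg_left h2 a2
    have a4 := mul_le_mul_of_nonneg_left h3 hX.le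
    calc 1 / 4 * ((4 : ℝ) ^ s)⁻¹ * g1 N ((4 : ℝ) ^ n)
        ≤ 1 / 4 * ((4 : ℝ) ^ s)⁻¹ * (((4 : ℝ) ^ n)⁻¹ * (101 + 35 * n)) := a3
      _ = 1 / 4 * (((4 : ℝ) ^ n)⁻¹ * (((4 : ℝ) ^ s)⁻¹ * (101 + 35 * n))) := by ring
      _ ≤ 1 / 4 * (((4 : ℝ) ^ n)⁻¹ * 136) := mul_le_mul_of_nonneg_left a4 (by norm_num)
      _ = _ := by ring
  have hs0 : (0 : ℝ) ≤ s := Nat.cast_nonneg _
  have h5 : ((4 : ℝ) ^ n)⁻¹ * 0 ≤ ((4 : ℝ) ^ n)⁻¹ * s := mul_le_mul_of_nonneg_left hs0 hX.le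
  nlinarith

end

end Vale.Agent.P159.H276.Mf
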