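import Vale.Agent.P159.H276.Mf2

/-!
P159 (helper276): **flows of the smeared decorations**: the event and the class at one core, with
explicit numbers.
-/

set_option linter.unusedSectionVars false

namespace Vale.Agent.P159.H276.Mf

open Finset Matrix MeasureTheory
open Vale.Agent.P159.TM.Spec (V)
open Vale.Agent.P159.TM.SpecC (wT)
open Vale.Agent.P159.H37 (re)
open Vale.Agent.P159.H817 (gr nrm sz U abs_U U_zero Dec SuppD dec sz_add_le sz_neg sz_le_add rfl2)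
open Vale.Agent.P159.H276 (nbZ FlD)
open Vale.Agent.P159.H883
open Vale.Agent.P159.H264.Gq
open Vale.Agent.P159.H191 (mn chi Wts dcs)
open Vale.Agent.P159.H276.Cm
open Vale.Agent.P159.H663.Dr (tT)
open Vale.Agent.P159.H972 (tn)

noncomputable section

variable {N : ℕ} [NeZero N]

lemma pow4_sq (n : ℕ) : (4 : ℝ) ^ n = (2 ^ n) ^ 2 := by
  rw [← pow_mul, mul_comm, pow_mul]
  norm_num

lemma four_le_exp (K : ℕ) : (4 : ℝ) ^ K ≤ Real.exp (2 * K) := by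
  have h1 : (4 : ℝ) ≤ Real.exp 2 := by
    have h2 : (2 : ℝ) ≤ Real.exp 1 := by
      have := Real.add_one_le_exp (1 : ℝ)
      linarith
    have e : Real.exp 2 = Real.exp 1 * Real.exp 1 := by
      rw [← Real.exp_add]
      norm_num
    rw [e]
    nlinarith
  calc (4 : ℝ) ^ K ≤ Real.exp 2 ^ K := pow_le_pow_left₀ (by norm_num) h1 K
    _ = Real.exp (2 * K) := by
        rw [← Real.exp_nat_mul]
        congr 1
        ring

lemma e3_ge : (12 : ℝ) ≤ Real.exp 3 := by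
  have h1 : (2.7 : ℝ) ≤ Real.exp 1 := by
    have := Real.exp_one_gt_d9
    linarith
  have e : Real.exp 3 = Real.exp 1 * (Real.exp 1 * Real.exp 1) := by
    rw [← Real.exp_add, ← Real.exp_add]
    norm_num
  rw [e]
  nlinarith

/-- total of the numbers -/
lemma tot_num {P B2 E1 S b Kr Z : ℝ} (hP : 1 ≤ P) (hb : 0 < b) (hK : 1 ≤ Kr) (hZ : 1 ≤ Z)
    (hB0 : 0 ≤ B2) (hB2 : B2 = 2 * (2 * b * Kr ^ 2 + 1) * (Z + 3 + 2 * Kr)) (hE : E1 = Z + 3 + 1 / 2)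
    (hS0 : 1 ≤ S) (hS : S ≤ 1 + Kr) :
    3 * (2 * (P * (118336 * B2 + 320000000 * (E1 * S))) + (5184 * B2 + 14000000 * E1) +
      4 * (100352 * B2 + 21000000 * (E1 * S))) ≤
      10000000000 * (1 + b) * (P * ((Kr + 1) ^ 2 * (Z + Kr))) ∧
    P * (118336 * B2 + 320000000 * (E1 * S)) ≤
      10000000000 * (1 + b) * (P * ((Kr + 1) ^ 2 * (Z + Kr))) := by
  have hE1 : 0 < E1 := by rw [hE]; linarith
  have hES : 0 < E1 * S := by positivity
  set Q : ℝ := (Kr + 1) ^ 2 * (Z + Kr) with hQ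
  have hQ0 : 0 < Q := by positivity
  have b1 : B2 ≤ 8 * (2 * b + 1) * Q := by
    rw [hB2, hQ]
    have h1 : 2 * b * Kr ^ 2 + 1 ≤ (2 * b + 1) * (Kr + 1) ^ 2 := by nlinarith [mul_pos hb (by linarith : 0 < Kr)]
    have h2 : Z + 3 + 2 * Kr ≤ 4 * (Z + Kr) := by linarith
    calc 2 * (2 * b * Kr ^ 2 + 1) * (Z + 3 + 2 * Kr)
        ≤ 2 * ((2 * b + 1) * (Kr + 1) ^ 2) * (4 * (Z + Kr)) :=
          mul_le_mul (by linarith) h2 (by linarith) (by positivity)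
      _ = _ := by ring
  have b2 : E1 * S ≤ 9 / 4 * Q := by
    have h1 : E1 ≤ 9 / 2 * (Z + Kr) := by rw [hE]; linarith
    have h2 : S ≤ (Kr + 1) ^ 2 / 2 := by nlinarith
    calc E1 * S ≤ 9 / 2 * (Z + Kr) * ((Kr + 1) ^ 2 / 2) :=
          mul_le_mul h1 h2 (by linarith) (by positivity)
      _ = _ := by rw [hQ]; ring
  have b3 : E1 ≤ E1 * S := by nlinarith
  have p1 : B2 ≤ P * B2 := by nlinarith
  have p2 : E1 * S ≤ P * (E1 * S) := by nlinarith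
  have q1 : P * B2 ≤ P * (8 * (2 * b + 1) * Q) := mul_le_mul_of_nonneg_left b1 (by linarith)
  have q2 : P * (E1 * S) ≤ P * (9 / 4 * Q) := mul_le_mul_of_nonneg_left b2 (by linarith)
  have hPQ : 0 < P * Q := by positivity
  have hbPQ : 0 < b * (P * Q) := by positivity
  constructor <;> nlinarith

/-- number (a1) -/
lemma num_a1 {X l2 P B2 c F : ℝ} (hX : 0 < X) (hP : P = l2 * X⁻¹) (hP0 : 0 < P) (hB : 0 ≤ B2)
    (hc : c ≤ 1849 * l2) (hF : 0 < F) :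
    64 * X⁻¹ * B2 * c < P * (118336 * B2 + 320000000 * F) := by
  have a1 : 64 * X⁻¹ * B2 * c ≤ 64 * X⁻¹ * B2 * (1849 * l2) :=
    mul_le_mul_of_nonneg_left hc (by positivity)
  have e : 64 * X⁻¹ * B2 * (1849 * l2) = P * (118336 * B2) := by
    rw [hP]
    ring
  rw [e] at a1
  refine a1.trans_lt (mul_lt_mul_of_pos_left ?_ hP0)
  linarith

/-- number (a2) -/
lemma num_a2 {X l2 P B2 c E1 S g s2 : ℝ} (hX : 0 < X) (hl : 0 < l2) (hP : P = l2 * X⁻¹)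
    (hP1 : 1 ≤ P) (hB : 0 ≤ B2) (hc0 : 0 ≤ c) (hc : c ≤ 1849 * l2) (hE : 0 < E1) (hS : 1 ≤ S)
    (hg0 : 0 ≤ g) (hg : g ≤ X⁻¹ * (1331 * S)) (hs : s2 = 16 / l2) :
    128 * E1 * (g + s2) * c ≤ P * (118336 * B2 + 320000000 * (E1 * S)) := by
  have hs0 : 0 < s2 := by rw [hs]; positivity
  have a1 : 128 * E1 * (g + s2) * c ≤ 128 * E1 * (X⁻¹ * (1331 * S) + s2) * (1849 * l2) := by
    refine mul_le_mul ?_ hc hc0 (by positivity)
    exact mul_le_mul_of_nonneg_left (by linarith) (by positivity)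
  have e : 128 * E1 * (X⁻¹ * (1331 * S) + s2) * (1849 * l2) =
      236672 * (1331 * (P * (E1 * S)) + 16 * E1) := by
    rw [hP, hs]
    field_simp
    ring
  rw [e] at a1
  have hES : 0 < E1 * S := by positivity
  have a2 : E1 ≤ P * (E1 * S) := by
    have b1 : E1 ≤ E1 * S := le_mul_of_one_le_right hE.le hS
    exact b1.trans (le_mul_of_one_le_left hES.le hP1)
  have a3 : 0 ≤ P * (118336 * B2) := by positivity
  have a4 : P * (118336 * B2 + 320000000 * (E1 * S)) =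
      P * (118336 * B2) + 320000000 * (P * (E1 * S)) := by ring
  rw [a4]
  have a5 : 0 ≤ P * (E1 * S) := by positivity
  linarith

/-- number (b1) -/
lemma num_b1 {X B2 c q2 E1 : ℝ} (hX : 0 < X) (hB : 0 ≤ B2) (hc : c ≤ 81 * q2) (hq : q2 ≤ X)
    (hE : 0 < E1) : 64 * X⁻¹ * B2 * c < 5184 * B2 + 14000000 * E1 := by
  have a1 : 64 * X⁻¹ * B2 * c ≤ 64 * X⁻¹ * B2 * (81 * X) :=
    mul_le_mul_of_nonneg_left (hc.trans (by linarith)) (by positivity)
  have e : 64 * X⁻¹ * B2 * (81 * X) = 5184 * B2 * (X⁻¹ * X) := by ring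
  rw [e, inv_mul_cancel₀ hX.ne', mul_one] at a1
  linarith

/-- number (b2) -/
lemma num_b2 {X B2 c q2 E1 g s2 : ℝ} (hX : 0 < X) (hq0 : 0 < q2) (hB : 0 ≤ B2) (hc0 : 0 ≤ c)
    (hc : c ≤ 81 * q2) (hq : q2 ≤ X) (hE : 0 < E1) (hg0 : 0 ≤ g) (hg : g ≤ 1301 / q2)
    (hs0 : 0 ≤ s2) (hs : s2 ≤ 16 * X⁻¹) :
    128 * E1 * (g + s2) * c ≤ 5184 * B2 + 14000000 * E1 := by
  have a1 : 128 * E1 * (g + s2) * c ≤ 128 * E1 * (1301 / q2 + s2) * (81 * q2) := by
    refine mul_le_mul ?_ hc hc0 (by positivity)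
    exact mul_le_mul_of_nonneg_left (by linarith) (by positivity)
  have e : 128 * E1 * (1301 / q2 + s2) * (81 * q2) = 10368 * E1 * (1301 + s2 * q2) := by
    field_simp
    ring
  rw [e] at a1
  have a2 : s2 * q2 ≤ 16 := by
    have b1 := mul_le_mul hs hq hq0.le (by positivity)
    have b2 : 16 * X⁻¹ * X = 16 := by rw [mul_assoc, inv_mul_cancel₀ hX.ne', mul_one]
    linarith
  have a3 : 10368 * E1 * (1301 + s2 * q2) ≤ 10368 * E1 * 1317 :=
    mul_le_mul_of_nonneg_left (by linarith) (by positivity)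
  linarith

/-- number (c1) -/
lemma num_c1 {X B2 c r F : ℝ} (hX : 0 < X) (hr : 0 < r) (hB : 0 ≤ B2) (hc : c ≤ 49 * r ^ 2)
    (hF : 0 < F) : 2048 * (X⁻¹ * X ^ 2) * B2 * c / (r ^ 2 * X) < 100352 * B2 + 21000000 * F := by
  have e0 : X⁻¹ * X ^ 2 = X := by
    rw [pow_two, ← mul_assoc, inv_mul_cancel₀ hX.ne', one_mul]
  rw [e0, div_lt_iff₀ (by positivity)]
  have a1 : 2048 * X * B2 * c ≤ 2048 * X * B2 * (49 * r ^ 2) :=
    mul_le_mul_of_nonneg_left hc (by positivity)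
  refine a1.trans_lt ?_
  have e : (100352 * B2 + 21000000 * F) * (r ^ 2 * X) =
      2048 * X * B2 * (49 * r ^ 2) + 21000000 * F * (r ^ 2 * X) := by ring
  rw [e]
  have : 0 < 21000000 * F * (r ^ 2 * X) := by positivity
  linarith

/-- number (c2) -/
lemma num_c2 {X B2 c r E1 S Y : ℝ} (hX : 0 < X) (hr : 0 < r) (hB : 0 ≤ B2) (hc0 : 0 ≤ c)
    (hc : c ≤ 49 * r ^ 2) (hE : 0 < E1) (hS : 0 < S) (hY0 : 0 ≤ Y) (hY : Y ≤ X⁻¹ * (6500 * S)) :
    64 * E1 * X * (c * Y) / r ^ 2 ≤ 100352 * B2 + 21000000 * (E1 * S) := by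
  rw [div_le_iff₀ (by positivity)]
  have a1 : 64 * E1 * X * (c * Y) ≤ 64 * E1 * X * (49 * r ^ 2 * (X⁻¹ * (6500 * S))) := by
    refine mul_le_mul_of_nonneg_left ?_ (by positivity)
    exact mul_le_mul hc hY hY0 (by positivity)
  refine a1.trans ?_
  have e : 64 * E1 * X * (49 * r ^ 2 * (X⁻¹ * (6500 * S))) =
      20384000 * (E1 * S) * r ^ 2 * (X⁻¹ * X) := by ring
  rw [e, inv_mul_cancel₀ hX.ne', mul_one]
  refine mul_le_mul_of_nonneg_right ?_ (by positivity)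
  have : 0 < E1 * S := by positivity
  linarith

/-- number (d2) -/
lemma num_d2 {X Z n K L Y S : ℝ} (hX : 0 < X) (hZ : 1 ≤ Z) (hn : 0 ≤ n) (hK : 1 ≤ K)
    (hL0 : 0 ≤ L) (hL : L ≤ 0.7 * (n + K)) (hS : S ≤ 1 + K) (hY0 : 0 ≤ Y)
    (hY : Y ≤ X⁻¹ * (6500 * S)) (h3 : 500000 * (Z + 4 + 2 * n + 2 * K) * (1 + K) ≤ X) :
    64 * (Z + 3 + 2 * L + 1 / 2) * Y ≤ 1 := by
  have a3 : 64 * (Z + 3 + 2 * L + 1 / 2) * Y ≤
      64 * (Z + 4 + 2 * n + 2 * K) * (X⁻¹ * (6500 * (1 + K))) := by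
    refine mul_le_mul (by linarith) (hY.trans ?_) hY0 (by positivity)
    exact mul_le_mul_of_nonneg_left (by linarith) (inv_nonneg.2 hX.le)
  refine a3.trans ?_
  have e : 64 * (Z + 4 + 2 * n + 2 * K) * (X⁻¹ * (6500 * (1 + K))) =
      416000 * (Z + 4 + 2 * n + 2 * K) * (1 + K) / X := by
    field_simp
    ring
  rw [e, div_le_one hX]
  refine le_trans ?_ h3
  have : 0 ≤ (Z + 4 + 2 * n + 2 * K) * (1 + K) := by positivity
  linarith

/-- the probability -/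
lemma num_p {K : ℕ} {Z N B2 v p1 : ℝ} (hN : 0 < N) (hv : 0 < v)
    (hB : B2 = 2 * v * (Z + 3 + 2 * K)) (h1 : p1 ≤ 2 * (4 : ℝ) ^ K * Real.exp (-(B2 / (2 * v)))) :
    p1 + 3 * Real.exp (-(Z + 3)) + N ^ 2 * Real.exp (-(Z + 3 + 2 * Real.log N)) ≤
      Real.exp (-Z) / 2 := by
  have e1 : B2 / (2 * v) = Z + 3 + 2 * K := by
    rw [hB]
    field_simp
  rw [e1] at h1
  have k2 : 2 * (4 : ℝ) ^ K * Real.exp (-(Z + 3 + 2 * K)) ≤ 2 * Real.exp (-(Z + 3)) := by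
    have a1 := four_le_exp K
    have e2 : Real.exp (-(Z + 3 + 2 * K)) = Real.exp (-(Z + 3)) * Real.exp (-(2 * K)) := by
      rw [← Real.exp_add]
      congr 1
      ring
    have a2 : (4 : ℝ) ^ K * Real.exp (-(2 * K)) ≤ 1 := by
      calc (4 : ℝ) ^ K * Real.exp (-(2 * K)) ≤ Real.exp (2 * K) * Real.exp (-(2 * K)) :=
            mul_le_mul_of_nonneg_right a1 (Real.exp_pos _).le
        _ = 1 := by rw [← Real.exp_add, add_neg_cancel, Real.exp_zero]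
    rw [e2]
    calc 2 * (4 : ℝ) ^ K * (Real.exp (-(Z + 3)) * Real.exp (-(2 * K))) =
        2 * Real.exp (-(Z + 3)) * ((4 : ℝ) ^ K * Real.exp (-(2 * K))) := by ring
      _ ≤ 2 * Real.exp (-(Z + 3)) * 1 :=
        mul_le_mul_of_nonneg_left a2 (by positivity)
      _ = _ := mul_one _
  have k3 : N ^ 2 * Real.exp (-(Z + 3 + 2 * Real.log N)) = Real.exp (-(Z + 3)) := by
    have e3 : N ^ 2 = Real.exp (2 * Real.log N) := by
      rw [two_mul, Real.exp_add, Real.exp_log hN]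
      ring
    rw [e3, ← Real.exp_add]
    congr 1
    ring
  have k4 : 6 * Real.exp (-(Z + 3)) ≤ Real.exp (-Z) / 2 := by
    have e4 : Real.exp (-Z) = Real.exp (-(Z + 3)) * Real.exp 3 := by
      rw [← Real.exp_add]
      congr 1
      ring
    rw [e4]
    have := mul_le_mul_of_nonneg_left e3_ge (Real.exp_pos (-(Z + 3))).le
    linarith
  rw [k3]
  linarith

/-- the size of `B` against the cells -/
lemma num_B {v y q : ℝ} {B : ℝ} (hB0 : 0 ≤ B) (hB : B ^ 2 = 2 * v * y) (hv : 1 ≤ v)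
    (hq : 0 ≤ q) (hy : 8 * y ≤ q ^ 2) : 2 * B ≤ q * v := by
  have hqv : 0 ≤ q * v := by positivity
  refine (pow_le_pow_iff_left₀ (by positivity) hqv two_ne_zero).1 ?_
  calc (2 * B) ^ 2 = 8 * y * v := by rw [mul_pow, hB]; ring
    _ ≤ q ^ 2 * v := mul_le_mul_of_nonneg_right hy (by linarith)
    _ ≤ q ^ 2 * v * v := le_mul_of_one_le_right (by positivity) hv
    _ = (q * v) ^ 2 := by ring

end

end Vale.Agent.P159.H276.Mf
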