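import Vale.Agent.P159.H276.Mf3

/-!
P159 (helper276): **flows of the smeared decorations**: the event and the class at one core, with
explicit numbers.
-/

set_option linter.unusedSectionVars false

namespace Vale.Agent.P159.H276.Mf

open Finset Matrix MeasureTheory
open Vale.Agent.P159.TM.Spec (V)
open Vale.Agent.P159.TM.SpecC (wT)
open Vale.Agent.P159.H37 (re)
open Vale.Agent.P159.H817 (gr nrm sz U abs_U U_zero Dec SuppD dec sz_add_le sz_neg sz_le_add rfl2)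
open Vale.Agent.P159.H276 (nbZ FlD)
open Vale.Agent.P159.H883
open Vale.Agent.P159.H264.Gq
open Vale.Agent.P159.H191 (mn chi Wts dcs)
open Vale.Agent.P159.H276.Cm
open Vale.Agent.P159.H663.Dr (tT)
open Vale.Agent.P159.H972 (tn)

noncomputable section

variable {N : ℕ} [NeZero N]

/-- the number of the class -/
def AJ (b : ℝ) (n l : ℕ) (K Z : ℝ) : ℝ :=
  10000000000 * (1 + b) * ((l : ℝ) ^ 2 * ((4 : ℝ) ^ n)⁻¹ * ((K + 1) ^ 2 * (Z + K)))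

/-- conditions on the numbers -/
structure NumF (b : ℝ) (n sc K l : ℕ) (Z : ℝ) : Prop where
  hs : sc ≤ n
  hK : sc + 1 ≤ K
  hl : 2 ^ n ≤ l
  hZ : 1 ≤ Z
  n4 : (n : ℝ) ≤ 4 ^ sc
  q4 : 8 * (Z + 3 + 2 * K) ≤ (4 : ℝ) ^ (n - sc)
  e4 : 500000 * (Z + 4 + 2 * n + 2 * K) * (1 + K) ≤ (4 : ℝ) ^ n
  d4 : 4096 * ((2 * b * K ^ 2 + 1) * (Z + 3 + 2 * K)) < (4 : ℝ) ^ n

/-- cardinalities -/
lemma card_D (p : V N) {l s : ℕ} (hl : 0 < l) (hs : s ≤ l) :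
    ((nbZ {p} (20 * l + s)).card : ℝ) ≤ 1849 * (l : ℝ) ^ 2 := by
  refine (card_nb p _).trans ?_
  have a1 : (s : ℝ) ≤ l := by exact_mod_cast hs
  have a2 : (1 : ℝ) ≤ l := by exact_mod_cast hl
  have a3 : (0 : ℝ) ≤ s := Nat.cast_nonneg _
  have a4 : (2 * ((20 * l + s : ℕ) : ℝ) + 1) ≤ 43 * l := by push_cast; linarith
  calc (2 * ((20 * l + s : ℕ) : ℝ) + 1) ^ 2 ≤ (43 * l) ^ 2 :=
        pow_le_pow_left₀ (by positivity) a4 2
    _ = _ := by ring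

lemma card_B (p : V N) {q : ℕ} (hq : 1 ≤ q) :
    ((nbZ {p} (2 * (q + 1))).card : ℝ) ≤ 81 * (q : ℝ) ^ 2 := by
  refine (card_nb p _).trans ?_
  have e : ((2 * (q + 1) : ℕ) : ℝ) = 2 * (q + 1) := by push_cast; ring
  have hq1 : (1 : ℝ) ≤ q := by exact_mod_cast hq
  rw [e]
  calc (2 * (2 * ((q : ℝ) + 1)) + 1) ^ 2 ≤ (9 * q) ^ 2 :=
        pow_le_pow_left₀ (by linarith) (by linarith) 2
    _ = _ := by ring

lemma card_C (p : V N) (q : ℕ) :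
    ((nbZ {p} (2 * (q + 1) + 1)).card : ℝ) ≤ 49 * ((q : ℝ) + 1) ^ 2 := by
  refine (card_nb p _).trans ?_
  have e : ((2 * (q + 1) + 1 : ℕ) : ℝ) = 2 * (q + 1) + 1 := by push_cast; ring
  have hq1 : (0 : ℝ) ≤ q := Nat.cast_nonneg _
  rw [e]
  calc (2 * (2 * ((q : ℝ) + 1) + 1) + 1) ^ 2 ≤ (7 * (q + 1)) ^ 2 :=
        pow_le_pow_left₀ (by linarith) (by linarith) 2
    _ = _ := by ring

lemma ell_le {n sc l : ℕ} (hs : sc ≤ n) (hl : 2 ^ n ≤ l) :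
    ((2 ^ (n - sc) : ℕ) : ℝ) / (2 * l) ≤ 1 / 2 * ((2 : ℝ) ^ sc)⁻¹ := by
  have hl0 : 0 < l := lt_of_lt_of_le (by positivity) hl
  have hl' : (0 : ℝ) < l := by exact_mod_cast hl0
  rw [div_le_iff₀ (by positivity)]
  have a1 : (2 : ℝ) ^ n ≤ l := by exact_mod_cast hl
  have a2 : ((2 ^ (n - sc) : ℕ) : ℝ) * (2 : ℝ) ^ sc = (2 : ℝ) ^ n := by
    push_cast
    rw [← pow_add]
    congr 1
    omega
  have a3 : (0 : ℝ) < (2 : ℝ) ^ sc := by positivity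
  have e : 1 / 2 * ((2 : ℝ) ^ sc)⁻¹ * (2 * l) = l / (2 : ℝ) ^ sc := by
    field_simp
  rw [e, le_div_iff₀ a3, a2]
  exact a1

lemma logN_le {n sc K : ℕ} (hN : N = 2 ^ (n - sc) * 2 ^ K) : Real.log N ≤ 0.7 * (n + K) := by
  have e : (N : ℝ) = 2 ^ (n - sc + K) := by
    rw [hN]
    push_cast
    rw [pow_add]
  rw [e, Real.log_pow]
  have b1 := Real.log_two_lt_d9
  have b2 : ((n - sc + K : ℕ) : ℝ) ≤ n + K := by
    have : n - sc + K ≤ n + K := by omega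
    exact_mod_cast this
  have b3 : 0 ≤ Real.log 2 := Real.log_nonneg (by norm_num)
  calc ((n - sc + K : ℕ) : ℝ) * Real.log 2 ≤ (n + K) * Real.log 2 :=
        mul_le_mul_of_nonneg_right b2 b3
    _ ≤ (n + K) * 0.7 := mul_le_mul_of_nonneg_left (by linarith) (by positivity)
    _ = _ := by ring

/-- **flows of the smeared decoration of one core**, with the numbers -/
theorem flD_ev {b : ℝ} (hb : 0 < b) {n sc K l s l0 : ℕ} (x₀ : V N)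
    (hN : N = 2 ^ (n - sc) * 2 ^ K) {Z : ℝ} (H : NumF b n sc K l Z)
    (hsl : s ≤ l) {μ w : V N → ℝ} (hw : Wts w s) (hμ0 : ∀ v, 0 ≤ μ v) (hμ1 : ∑ v, μ v = 1)
    (hμ2 : (∑ v, μ v ^ 2) * (l : ℝ) ^ 2 ≤ 16) {g : V N → ℝ} (hg : ∀ x, |g x| ≤ 1)
    (hl0 : 2 * (l0 + 2 ^ (n + 1) + 1) + 4 < N) (p : V N) :
    ∃ G : Set (V N → ℝ), MeasurableSet G ∧
      (nuM (wT b N) (tn n • (1 : Matrix (V N) (V N) ℝ)) x₀).real Gᶜ ≤ Real.exp (-Z) / 2 ∧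
      ∀ F ∈ G, ∀ F0 : ℤ → ℤ → ℝ, SuppD l0 F0 →
        (∀ x, dec F0 p x = dcp l μ w p (tT N (2 ^ (n - sc)) (F + g)) x) →
        FlD (tn n) (l0 + 2 ^ (n + 1) + 1) (2 ^ (n - sc) + 1) (AJ b n l K Z) (AJ b n l K Z) F0 := by
  obtain ⟨hs, hK, hl, hZ, h1, h2, h3, h4⟩ := H
  have hq : 0 < 2 ^ (n - sc) := by positivity
  have hX : (0 : ℝ) < (4 : ℝ) ^ n := by positivity
  have htn : tn n = ((4 : ℝ) ^ n)⁻¹ := rfl
  have htκ : ((4 : ℝ) ^ n)⁻¹ * (4 : ℝ) ^ n = 1 := inv_mul_cancel₀ hX.ne'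
  have hNn : 2 ^ n ≤ N := by
    rw [hN, ← pow_add]
    exact Nat.pow_le_pow_right (by norm_num) (by omega)
  have hqN : 2 ^ (n - sc) ≤ N := (Nat.pow_le_pow_right (by norm_num) (by omega)).trans hNn
  have hlpos : 0 < l := lt_of_lt_of_le (by positivity) hl
  have hl' : (0 : ℝ) < l := by exact_mod_cast hlpos
  have hl2 : (0 : ℝ) < (l : ℝ) ^ 2 := by positivity
  have hlX : (4 : ℝ) ^ n ≤ (l : ℝ) ^ 2 := by
    rw [pow4_sq]
    exact pow_le_pow_left₀ (by positivity) (by exact_mod_cast hl) 2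
  have hK0 : (1 : ℝ) ≤ K := by
    have : 1 ≤ K := by omega
    exact_mod_cast this
  have hscK : 1 + (sc : ℝ) ≤ 1 + K := by
    have : sc ≤ K := by omega
    have h : (sc : ℝ) ≤ K := by exact_mod_cast this
    linarith
  have hsc0 : (0 : ℝ) ≤ sc := Nat.cast_nonneg _
  set v : ℝ := 2 * b * (K : ℝ) ^ 2 + 1 with hv
  have hv1 : 1 ≤ v := by
    rw [hv]
    have : 0 ≤ 2 * b * (K : ℝ) ^ 2 := by positivity
    linarith
  set B : ℝ := Real.sqrt (2 * v * (Z + 3 + 2 * K)) with hB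
  have hB0 : 0 ≤ B := Real.sqrt_nonneg _
  have hBarg : 0 ≤ 2 * v * (Z + 3 + 2 * K) := by positivity
  have hBsq : B ^ 2 = 2 * v * (Z + 3 + 2 * K) := Real.sq_sqrt hBarg
  have hB2 : 0 ≤ B ^ 2 := sq_nonneg _
  have hB1 : 1 ≤ B := by
    rw [hB, ← Real.sqrt_one]
    refine Real.sqrt_le_sqrt ?_
    nlinarith
  set P : ℝ := (l : ℝ) ^ 2 * ((4 : ℝ) ^ n)⁻¹ with hP
  have hP1 : 1 ≤ P := by
    rw [hP, ← div_eq_mul_inv, one_le_div hX]
    exact hlX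
  have hs20 : (0 : ℝ) < 16 / (l : ℝ) ^ 2 := by positivity
  have hs2X : 16 / (l : ℝ) ^ 2 ≤ 16 * ((4 : ℝ) ^ n)⁻¹ := by
    rw [← div_eq_mul_inv]
    exact div_le_div_of_nonneg_left (by norm_num) hX hlX
  have hμ2' : ∑ v, μ v ^ 2 ≤ 16 / (l : ℝ) ^ 2 := by
    rw [le_div_iff₀ hl2]
    exact hμ2
  have hE1 : (0 : ℝ) < Z + 3 + 1 / 2 := by linarith
  have hS1 : (1 : ℝ) ≤ 1 + sc := by linarith
  have hS0 : (0 : ℝ) < 1 + sc := by linarith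
  have hES : 0 < (Z + 3 + 1 / 2) * (1 + (sc : ℝ)) := mul_pos hE1 hS0
  have hq1 : (1 : ℝ) ≤ ((2 ^ (n - sc) : ℕ) : ℝ) := by exact_mod_cast hq
  have hq0 : (0 : ℝ) < ((2 ^ (n - sc) : ℕ) : ℝ) := by linarith
  have hqX : ((2 ^ (n - sc) : ℕ) : ℝ) ^ 2 ≤ (4 : ℝ) ^ n := by
    rw [pow4_sq]
    refine pow_le_pow_left₀ (by positivity) ?_ 2
    exact_mod_cast Nat.pow_le_pow_right (by norm_num) (Nat.sub_le n sc)
  have nT := gT_num (N := N) hs hNn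
  have nX := gX_num (N := N) hs hNn h1 hs2X
  have n2 := g2_le (smo_tM (N := N) hq) hq hqN
  have hgT00 : 0 ≤ gT N (tM N (2 ^ (n - sc))) (4 ^ n) := gT_nonneg (by positivity)
  have hY0 : 0 ≤ 4 * (gT N (tM N (2 ^ (n - sc))) (4 ^ n) +
      (1 / 2 * ((2 : ℝ) ^ sc)⁻¹) ^ 2 * g1 N (4 ^ n)) +
      64 * (16 / (l : ℝ) ^ 2) * 4 ^ n / ((2 ^ n : ℕ) : ℝ) ^ 2 := by
    have := g1_nonneg (N := N) (κ := (4 : ℝ) ^ n) (by positivity)
    positivity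
  have hg20 : 0 ≤ g2 N (tM N (2 ^ (n - sc))) := g2_nonneg
  have hm2 : ((2 ^ n : ℕ) : ℝ) ^ 2 = (4 : ℝ) ^ n := by
    rw [pow4_sq]
    push_cast
    ring
  have hNpos : (1 : ℝ) ≤ N := by
    have : 1 ≤ N := Nat.pos_of_ne_zero (NeZero.ne N)
    exact_mod_cast this
  obtain ⟨t1, t2⟩ := tot_num hP1 hb hK0 hZ hB2 (by rw [hBsq, hv]) (rfl : Z + 3 + 1 / 2 = _) hS1
    hscK
  have q0 : 0 < 2 ^ (n - sc) + 1 := Nat.succ_pos _
  have key := cls_dcp (b := b) (t := tn n) (κ := (4 : ℝ) ^ n)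
    (L := 2 ^ (n - sc + K - 1)) (q := 2 ^ (n - sc)) (l := l) (s := s) (l0 := l0)
    (l1 := 2 ^ (n + 1)) (r := 2 ^ (n - sc) + 1) hb (by rw [htn]; exact inv_pos.2 hX) x₀
    (by
      rw [hN, ← pow_add, ← pow_succ']
      congr 1
      omega) hq hlpos hw hμ0 hμ1 hs20 hμ2' hX (m := 2 ^ n) Nat.one_le_two_pow
    (by rw [hm2]; linarith) q0 (by positivity)
    (by
      rw [pow4_sq]
      push_cast
      rw [pow_succ]
      ring_nf
      exact le_rfl) hl0 (B := B) hB0 (fun x => tT_le hq (fun y => (hg y).trans hB1) x) p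
    (ell_le hs hl)
    (Aa := P * (118336 * B ^ 2 + 320000000 * ((Z + 3 + 1 / 2) * (1 + sc))))
    (Ab := 5184 * B ^ 2 + 14000000 * (Z + 3 + 1 / 2))
    (Ac := 100352 * B ^ 2 + 21000000 * ((Z + 3 + 1 / 2) * (1 + sc))) (E := Z + 3)
    (Ed := Z + 3 + 2 * Real.log N)
    (by rw [htn]; exact num_a1 hX hP (by linarith) hB2 (card_D p hlpos hsl) hES)
    (num_a2 hX hl2 hP hP1 hB2 (Nat.cast_nonneg _) (card_D p hlpos hsl) hE1 hS1 hgT00 nT rfl)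
    (by rw [htn]; exact num_b1 hX hB2 (card_B p hq) hqX hE1)
    (num_b2 hX (by positivity) hB2 (Nat.cast_nonneg _) (card_B p hq) hqX hE1 hg20 n2 hs20.le hs2X)
    (by
      rw [htn, mul_pow, hm2, show ((2 ^ (n - sc) + 1 : ℕ) : ℝ) = ((2 ^ (n - sc) : ℕ) : ℝ) + 1 by
        push_cast; ring]
      exact num_c1 hX (by linarith) hB2 (card_C p _) hES)
    (by
      rw [show ((2 ^ (n - sc) + 1 : ℕ) : ℝ) = ((2 ^ (n - sc) : ℕ) : ℝ) + 1 by push_cast; ring]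
      exact num_c2 hX (by linarith) hB2 (Nat.cast_nonneg _) (card_C p _) hE1 hS0 hY0 nX)
    (by
      rw [htn, htκ, hm2, one_pow, mul_one, div_lt_one hX, hBsq]
      refine lt_of_le_of_lt (le_of_eq ?_) h4
      rw [hv]
      ring)
    (by
      rw [htn, htκ, mul_one]
      exact num_d2 hX hZ (Nat.cast_nonneg n) hK0 (Real.log_nonneg hNpos) (logN_le hN) hscK hY0 nX
        h3)
  obtain ⟨G, mG, hG, hF⟩ := key
  refine ⟨G, mG, hG.trans ?_, fun F hFG F0 hs0 he => ?_⟩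
  · refine num_p (K := K) (by linarith) (by linarith : 0 < v) hBsq ?_
    refine ht_prob2 (N := N) hb x₀ hN Nat.one_le_two_pow hB0 (by linarith : 0 < v)
      (by rw [hv]; linarith) (num_B hB0 hBsq hv1 hq0.le ?_)
    have e : (4 : ℝ) ^ (n - sc) = ((2 ^ (n - sc) : ℕ) : ℝ) ^ 2 := by
      rw [pow4_sq]
      push_cast
      ring
    rw [← e]
    exact h2
  · have h5 := hF F hFG F0 hs0 he
    refine h5.mono (by rw [htn]; exact (inv_pos.2 hX).le) le_rfl le_rfl t1 ?_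
    rw [htn, htκ, one_mul]
    exact t2

end

end Vale.Agent.P159.H276.Mf
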