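import Vale.Agent.P159.H276.Mf4
import Vale.Agent.P159.H764.Tk0
import Vale.Agent.P159.H663.Kap
import Vale.Agent.P159.H663.Fbx

/-!
P159 (helper276): **flows of the decorations of a pair** in helper145's letters (`Spc0`): off an
event of probability `exp (-Z)` both decorations of the window and their reflections belong to the
class `FlD` with explicit numbers.
-/

set_option linter.unusedSectionVars false

namespace Vale.Agent.P159.H276.Mf

open Finset Matrix MeasureTheory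
open Vale.Agent.P159.TM.Spec (V)
open Vale.Agent.P159.TM.SpecC (wT)
open Vale.Agent.P159.H817 (gr sz Dec SuppD dec rfl2 e1)
open Vale.Agent.P159.H276 (FlD bxT)
open Vale.Agent.P159.H883
open Vale.Agent.P159.H191 (mn chi Wts dcs)
open Vale.Agent.P159.H663.Dr (tT kT km km_dot km_le mn_kT wts_kT sum_kT_one)
open Vale.Agent.P159.H972 (tn)
open Vale.Agent.P159.H773 (sd nuF)
open Vale.Agent.P159.H686 (wdS)
open Vale.Agent.P159.H708 (Bx)
open Vale.Agent.P159.H447 (tent)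
open Vale.Agent.P159.H145.Sp (bZ zL zR bxZ tnZ chZ mnZ dcZ T0 T1 wB muK lC l0C DC supp_T0 supp_T1)
open Vale.Agent.P159.H764.Tk (sum_wB half_eq mem_bZ)

noncomputable section

variable {N : ℕ} [NeZero N]

/-! ### weights -/

lemma card_bZ (ρ : ℕ) : ((bZ ρ).card : ℝ) = ((2 * ρ + 1 : ℕ) : ℝ) ^ 2 := by
  unfold H145.Sp.bZ
  rw [Finset.card_product, Int.card_Icc]
  have e : ((ρ : ℤ) + 1 - -(ρ : ℤ)).toNat = 2 * ρ + 1 := by omega
  rw [e]
  push_cast
  ring

/-- **uniform weights** -/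
theorem wts_wB {ρ : ℕ} (hN : 2 * ρ < N) : Wts (wB N ρ) ρ where
  nn v := by
    unfold H145.Sp.wB
    split_ifs
    · positivity
    · exact le_rfl
  one := by
    have h := sum_wB hN fun _ : V N => (1 : ℝ)
    simp only [mul_one, Finset.sum_const, nsmul_eq_mul] at h
    rw [h, card_bZ]
    have h0 : (((2 * ρ + 1 : ℕ) : ℝ)) ≠ 0 := by positivity
    field_simp
  sup v hv := by
    by_contra hc
    refine hv ?_
    unfold H145.Sp.wB
    rw [if_neg hc]

lemma bxT_le {h : ℕ} (hh : 0 < h) {F : V N → ℝ} {c : ℝ} (hF : ∀ x, F x ≤ c) (x : V N) :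
    bxT N h F x ≤ c := by
  have h0 : (0 : ℝ) < (h : ℝ) ^ 2 := by
    have : (0 : ℝ) < h := by exact_mod_cast hh
    positivity
  unfold H276.bxT
  rw [inv_mul_le_iff₀ h0]
  calc ∑ i ∈ range h, ∑ j ∈ range h, F (x + ((i : ZMod N), (j : ZMod N)))
      ≤ ∑ _i ∈ range h, ∑ _j ∈ range h, c := Finset.sum_le_sum fun i _ => Finset.sum_le_sum
        fun j _ => hF _
    _ = (h : ℝ) ^ 2 * c := by
        simp only [Finset.sum_const, Finset.card_range, nsmul_eq_mul]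
        ring

lemma tT_le' {h : ℕ} (hh : 0 < h) {F : V N → ℝ} {c : ℝ} (hF : ∀ x, bxT N h F x ≤ c) (x : V N) :
    tT N h F x ≤ c := by
  have h0 : (0 : ℝ) < (h : ℝ) ^ 2 := by
    have : (0 : ℝ) < h := by exact_mod_cast hh
    positivity
  unfold H663.Dr.tT
  rw [inv_mul_le_iff₀ h0]
  calc ∑ i ∈ range h, ∑ j ∈ range h, bxT N h F (x - ((i : ZMod N), (j : ZMod N)))
      ≤ ∑ _i ∈ range h, ∑ _j ∈ range h, c := Finset.sum_le_sum fun i _ => Finset.sum_le_sum
        fun j _ => hF _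
    _ = (h : ℝ) ^ 2 * c := by
        simp only [Finset.sum_const, Finset.card_range, nsmul_eq_mul]
        ring

/-- the profile `kT h` is spread out -/
theorem sq_muK {h ρ : ℕ} (hh : 0 < h) (hN : h ≤ N) (h1 : 2 * h ≤ ρ) :
    ∑ v, muK N ρ (kT h) v ^ 2 ≤ ((h : ℝ) ^ 2)⁻¹ := by
  have hW := wts_kT (N := N) hh h1
  have h2 : ∀ v, muK N ρ (kT h) v ≤ ((h : ℝ) ^ 2)⁻¹ := by
    intro v
    have e1 : muK N ρ (kT h) v =
        mn (muK N ρ (kT h)) 0 (fun y => if y = v then (1 : ℝ) else 0) := by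
      unfold H191.mn
      simp
    rw [e1, mn_kT h1]
    refine bxT_le hh (fun x => tT_le' hh (fun x => ?_) x) 0
    rw [← km_dot]
    have e2 : ∑ y, km N h x y * (if y = v then (1 : ℝ) else 0) = km N h x v := by
      simp
    rw [e2]
    exact km_le hN x v
  calc ∑ v, muK N ρ (kT h) v ^ 2 ≤ ∑ v, ((h : ℝ) ^ 2)⁻¹ * muK N ρ (kT h) v := by
        refine Finset.sum_le_sum fun v _ => ?_
        rw [pow_two]
        exact mul_le_mul_of_nonneg_right (h2 v) (hW.nn v)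
    _ = ((h : ℝ) ^ 2)⁻¹ := by rw [← Finset.mul_sum, hW.one, mul_one]

/-! ### the pair -/

/-- the class of decorations with flows, level `n`, exponent `k` of the window start, cells
`2^(n - sc)`, number `A` -/
def ED (n k sc : ℕ) (A : ℝ) : Dec :=
  {F | FlD (tn n) (l0C n k + 2 ^ (n + 1) + 2) (2 ^ (n - sc)) A A F}

lemma ED_neg {n k sc : ℕ} {A : ℝ} {F : ℤ → ℤ → ℝ} (h : F ∈ ED n k sc A) :
    (fun u v => -F u v) ∈ ED n k sc A := FlD.neg h

lemma ED_mono {n k sc : ℕ} {A A' : ℝ} (hA : A ≤ A') {F : ℤ → ℤ → ℝ} (h : F ∈ ED n k sc A) :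
    F ∈ ED n k sc A' := FlD.mono h (by unfold H972.tn; positivity) le_rfl le_rfl hA hA

/-- **the flows at one core** -/
theorem core_pair {b : ℝ} (hb : 0 < b) {n k sc K : ℕ} {Z : ℝ} (H : NumF b n sc K (lC n k) Z)
    (hn : 2 ≤ n) (hk : 7 ≤ k) (hN : N = 2 ^ (n - sc) * 2 ^ K) (hNl : 2 ^ (n + k + 1) ≤ N)
    {g : V N → ℝ} (hg : ∀ x, |g x| ≤ 1) (p x₀ : V N) :
    ∃ G : Set (V N → ℝ), MeasurableSet G ∧
      (nuM (wT b N) (tn n • (1 : Matrix (V N) (V N) ℝ)) x₀).real Gᶜ ≤ Real.exp (-Z) / 2 ∧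
      ∀ F ∈ G, ∀ z : ℤ → ℤ → ℝ,
        (∀ i j : ℤ, i.natAbs ≤ DC n k → j.natAbs ≤ DC n k →
          z i j = (F + g) (p + H733.Torg.ip N (i, j)) - (F + g) p) →
        dcZ (lC n k) (2 ^ n) (lC n k) (kT (lC n k / 4)) (tnZ (2 ^ (n - sc)) z) ∈
          ED n k sc (AJ b n (lC n k) K Z) ∧
        rfl2 (dcZ (lC n k) (2 ^ n) (lC n k) (kT (lC n k / 4)) (tnZ (2 ^ (n - sc)) z)) ∈
          ED n k sc (AJ b n (lC n k) K Z) := by
  have hl := H.hl
  have e64 : 64 * lC n k ≤ 2 ^ (n + k) := by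
    unfold H145.Sp.lC
    have e : (64 : ℕ) = 2 ^ 6 := by norm_num
    rw [e, ← pow_add]
    exact Nat.pow_le_pow_right (by norm_num) (by omega)
  have e2 : 2 ^ (n + k + 1) = 2 * 2 ^ (n + k) := by rw [pow_succ]; ring
  have en : 2 ^ (n + 1) = 2 * 2 ^ n := by rw [pow_succ]; ring
  have h4 : 4 * (lC n k / 4) = lC n k := by
    refine Nat.mul_div_cancel' ?_
    unfold H145.Sp.lC
    exact (by norm_num : (4 : ℕ) = 2 ^ 2) ▸ pow_dvd_pow 2 (by omega)
  have hn4 : 4 ≤ 2 ^ n := by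
    calc (4 : ℕ) = 2 ^ 2 := by norm_num
      _ ≤ 2 ^ n := Nat.pow_le_pow_right (by norm_num) hn
  set h := lC n k / 4 with hh
  have hh0 : 0 < h := by omega
  have hq : 0 < 2 ^ (n - sc) := by positivity
  have hqn : 2 ^ (n - sc) ≤ 2 ^ n := Nat.pow_le_pow_right (by norm_num) (Nat.sub_le _ _)
  have hsq : (∑ v, muK N (lC n k) (kT h) v ^ 2) * (lC n k : ℝ) ^ 2 ≤ 16 := by
    have h5 := sq_muK (N := N) (h := h) (ρ := lC n k) hh0 (by omega) (by omega)
    have h6 : ((lC n k : ℕ) : ℝ) = 4 * h := by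
      have := h4.symm
      exact_mod_cast this
    have h7 : (0 : ℝ) < h := by exact_mod_cast hh0
    rw [h6]
    have h8 := mul_le_mul_of_nonneg_right h5 (by positivity : (0 : ℝ) ≤ (4 * h) ^ 2)
    refine h8.trans (le_of_eq ?_)
    field_simp
    ring
  have hW := wts_kT (N := N) (h := h) (ρ := lC n k) hh0 (by omega)
  obtain ⟨G, mG, hG, hF⟩ := flD_ev (N := N) hb (s := 2 ^ n) (l0 := l0C n k) x₀ hN H hl
    (wts_wB (by omega)) hW.nn hW.one hsq hg (by
      unfold H145.Sp.l0C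
      omega) p
  refine ⟨G, mG, hG, fun F hFG z hz => ?_⟩
  have hsupp : SuppD (l0C n k)
      (dcZ (lC n k) (2 ^ n) (lC n k) (kT h) (tnZ (2 ^ (n - sc)) z)) := by
    refine H145.Sp.suppD_dcZ ?_ _
    unfold H145.Sp.l0C
    omega
  have h5 := hF F hFG _ hsupp fun x => by
    rw [← half_eq (N := N) (s := 2 ^ n) (ρ := lC n k) (D := DC n k)
      (sum_kT_one hh0 (by omega)) hq (by
        unfold H145.Sp.DC
        omega) (by omega) hz x]
    rfl
  constructor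
  · exact h5.mono (by unfold H972.tn; positivity) (by omega) (by omega) le_rfl le_rfl
  · have h6 := FlD.rfl2 h5
    exact h6.mono (by unfold H972.tn; positivity) (by omega) le_rfl le_rfl le_rfl

/-- **the flows of both decorations at a pair** = the last hypothesis of `mem_pair` -/
theorem c3_pair {b : ℝ} (hb : 0 < b) {i n k sc K R : ℕ} {Z : ℝ}
    (H : NumF b n sc K (lC n k) Z) (hn : 2 ≤ n) (hk : 7 ≤ k)
    (hN : sd i R = 2 ^ (n - sc) * 2 ^ K) (hNl : 2 ^ (n + k + 1) ≤ sd i R)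
    {g : V (sd i R) → ℝ} (hg : ∀ x, |g x| ≤ 1) :
    ∃ G : Set (V (sd i R) → ℝ), MeasurableSet G ∧
      (nuF b (sd i) (tn n) R).real Gᶜ ≤ Real.exp (-Z) ∧
      ∀ F ∈ G,
        T0 (kT (lC n k / 4)) n k (2 ^ (n - sc)) (DC n k) (wdS (sd i) (DC n k) R g F) ∈
          ED n k sc (AJ b n (lC n k) K Z) ∧
        rfl2 (T0 (kT (lC n k / 4)) n k (2 ^ (n - sc)) (DC n k) (wdS (sd i) (DC n k) R g F)) ∈
          ED n k sc (AJ b n (lC n k) K Z) ∧
        T1 (kT (lC n k / 4)) n k (2 ^ (n - sc)) (DC n k) (wdS (sd i) (DC n k) R g F) ∈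
          ED n k sc (AJ b n (lC n k) K Z) ∧
        rfl2 (T1 (kT (lC n k / 4)) n k (2 ^ (n - sc)) (DC n k) (wdS (sd i) (DC n k) R g F)) ∈
          ED n k sc (AJ b n (lC n k) K Z) := by
  obtain ⟨G0, m0, p0, f0⟩ := core_pair (N := sd i R) hb H hn hk hN hNl hg 0 0
  obtain ⟨G1, m1, p1, f1⟩ := core_pair (N := sd i R) hb H hn hk hN hNl hg (R • e1) 0
  have ex : H773.ax0 (sd i R) R = R • (e1 : V (sd i R)) := by
    rw [H817.nsmul_e1]
    rfl
  refine ⟨G0 ∩ G1, m0.inter m1, ?_, fun F hF => ?_⟩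
  · rw [Set.compl_inter]
    refine (measureReal_union_le _ _).trans ?_
    have q0 : (nuF b (sd i) (tn n) R).real G0ᶜ ≤ Real.exp (-Z) / 2 := p0
    have q1 : (nuF b (sd i) (tn n) R).real G1ᶜ ≤ Real.exp (-Z) / 2 := p1
    linarith
  · have a0 := f0 F hF.1 (zL (wdS (sd i) (DC n k) R g F)) fun a c ha hc => by
      have hm : ((a, c) : ℤ × ℤ) ∈
          (Finset.Icc (-(DC n k : ℤ)) (DC n k)) ×ˢ (Finset.Icc (-(DC n k : ℤ)) (DC n k)) :=
        mem_bZ.2 ⟨ha, hc⟩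
      unfold H145.Sp.zL
      rw [dif_pos hm]
      unfold H686.wdS H773.wdF
      rw [H708.wd_inl]
    have a1 := f1 F hF.2 (zR (wdS (sd i) (DC n k) R g F)) fun a c ha hc => by
      have hm : ((a, c) : ℤ × ℤ) ∈
          (Finset.Icc (-(DC n k : ℤ)) (DC n k)) ×ˢ (Finset.Icc (-(DC n k : ℤ)) (DC n k)) :=
        mem_bZ.2 ⟨ha, hc⟩
      unfold H145.Sp.zR
      rw [dif_pos hm]
      unfold H686.wdS H773.wdF
      rw [H708.wd_inr, ex]
    exact ⟨a0.1, a0.2, a1.1, a1.2⟩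

end

end Vale.Agent.P159.H276.Mf
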