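import Vale.Agent.P159.H276.Mf5
import Vale.Agent.P159.H37.Lq5

/-!
P159 (helper276): **flows of the decorations along the flow**: in the windows of helper37 and the
letters of helper145 the decorations of all pairs belong to one class with flows, off events of
probability `exp (-Z)`.
-/

set_option linter.unusedSectionVars false

namespace Vale.Agent.P159.H276.Mf

open Filter Topology Finset Matrix MeasureTheory
open Vale.Agent.P159.TM.Spec (V)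
open Vale.Agent.P159.H817 (Dec rfl2)
open Vale.Agent.P159.H663.Dr (kT)
open Vale.Agent.P159.H972 (tn Par lg)
open Vale.Agent.P159.H773 (sd nuF)
open Vale.Agent.P159.H686 (wdS)
open Vale.Agent.P159.H801 (SFlow)
open Vale.Agent.P159.H145.Sp (T0 T1 lC DC)
open Vale.Agent.P159.H37.Sf (kf kE1 sf_k3 sf_ub sf_lb0 sf_ny sf_big sf_lb lg_le le_lg)

noncomputable section

variable {P : Par} {b σ c c1 q2 qx : ℝ} {a y ε xs : ℕ → ℝ} {c' r q A : ℝ} {N : ℕ}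

/-- logarithms against powers -/
lemma sf_log (h : SFlow P b σ c c1 q2 qx a y ε xs c' r q A N) {p M : ℝ} (hp : 0 < p)
    (hM : 0 ≤ M) : ∀ᶠ n in atTop, M * (Real.logb 2 (1 / y n) + 1) ≤ y n ^ (-p) := by
  have hl2 : 0 < Real.log 2 := Real.log_pos one_lt_two
  set C : ℝ := M * (2 / (p * Real.log 2) + 1) + 1 with hC
  have hC0 : 0 < C := by positivity
  filter_upwards [H37.Sf.sf_big h (p := p / 2) (M := C) (by positivity) hC0,
    eventually_ge_atTop N] with n h1 hn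
  have hy := h.fl.y0 n
  set W : ℝ := y n ^ (-(p / 2)) with hW
  have hC1 : 1 ≤ C := by
    rw [hC]
    have : 0 ≤ M * (2 / (p * Real.log 2) + 1) := by positivity
    linarith
  have hW1 : 1 ≤ W := hC1.trans h1
  have e1 : (1 / y n) ^ (p / 2) = W := by
    rw [hW, Real.rpow_neg hy.le, one_div, Real.inv_rpow hy.le]
  have h2 : Real.log (1 / y n) ≤ W / (p / 2) := by
    rw [← e1]
    exact Real.log_le_rpow_div (by positivity) (by positivity)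
  have h3 : Real.logb 2 (1 / y n) ≤ 2 / (p * Real.log 2) * W := by
    unfold Real.logb
    rw [div_le_iff₀ hl2]
    refine h2.trans (le_of_eq ?_)
    field_simp
  have e2 : y n ^ (-p) = W * W := by
    rw [hW, ← Real.rpow_add hy]
    congr 1
    ring
  rw [e2]
  calc M * (Real.logb 2 (1 / y n) + 1) ≤ M * (2 / (p * Real.log 2) * W + W) :=
        mul_le_mul_of_nonneg_left (by linarith) hM
    _ = M * (2 / (p * Real.log 2) + 1) * W := by ring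
    _ ≤ C * W := mul_le_mul_of_nonneg_right (by rw [hC]; linarith) (by linarith)
    _ ≤ W * W := mul_le_mul_of_nonneg_right h1 (by linarith)

/-- `1 / y_n` is at most a constant times `n` -/
lemma sf_yn (h : SFlow P b σ c c1 q2 qx a y ε xs c' r q A N) :
    ∃ C : ℝ, 0 < C ∧ ∀ᶠ n : ℕ in atTop, 1 / y n ≤ C * n := by
  have hA := h.t3.A0
  have hκ := h.t3.fl.κ0
  have h0 : 0 < Real.sqrt (H264.kap * A) := Real.sqrt_pos.2 (by positivity)
  have h1 := h.t3.ny.eventually (gt_mem_nhds (lt_two_mul_self h0))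
  refine ⟨2 * Real.sqrt (H264.kap * A), by positivity, ?_⟩
  filter_upwards [h1, eventually_gt_atTop 0] with n hn hn0
  have hn' : (0 : ℝ) < n := by exact_mod_cast hn0
  rw [inv_mul_lt_iff₀ hn'] at hn
  linarith

/-- small powers of `1 / y_n` are small against `n` -/
lemma sf_xn (h : SFlow P b σ c c1 q2 qx a y ε xs c' r q A N) {p M : ℝ} (hp1 : p < 1)
    (hM : 0 < M) : ∀ᶠ n : ℕ in atTop, M * y n ^ (-p) ≤ n := by
  obtain ⟨C, hC, hCn⟩ := sf_yn h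
  filter_upwards [hCn, h.fl.ev_pow (sub_pos.2 hp1) (e := 1 / (C * M)) (by positivity)] with n g1 g2
  have hy := h.fl.y0 n
  have hn0 : (0 : ℝ) ≤ n := Nat.cast_nonneg _
  have e1 : y n ^ (-p) = 1 / y n * y n ^ (1 - p) := by
    rw [one_div, ← Real.rpow_neg_one, ← Real.rpow_add hy]
    congr 1
    ring
  rw [e1]
  have g3 : 0 < y n ^ (1 - p) := Real.rpow_pos_of_pos hy _
  calc M * (1 / y n * y n ^ (1 - p)) ≤ M * (C * n * (1 / (C * M))) := by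
        refine mul_le_mul_of_nonneg_left ?_ hM.le
        exact mul_le_mul g1 g2 g3.le (by positivity)
    _ = n := by field_simp

/-- polynomials against powers of four -/
lemma pow4_big (M : ℝ) (hM : 0 < M) : ∀ᶠ n : ℕ in atTop, M * (n : ℝ) ^ 3 < (4 : ℝ) ^ n := by
  have h1 := tendsto_pow_const_div_const_pow_of_one_lt 3 (by norm_num : (1 : ℝ) < 4)
  have h2 := h1.eventually (gt_mem_nhds (by positivity : (0 : ℝ) < 1 / M))
  filter_upwards [h2] with n hn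
  have h4 : (0 : ℝ) < (4 : ℝ) ^ n := by positivity
  rw [div_lt_div_iff₀ h4 hM] at hn
  linarith

/-- the end of the window -/
lemma sf_len (h : SFlow P b σ c c1 q2 qx a y ε xs c' r q A N) (hA : P.Adm) (hσ0 : 0 ≤ σ)
    (hσ : σ ≤ 1 / 4) {ck : ℝ} (hck : 0 < ck) (hck1 : ck ≤ P.thp) :
    ∀ᶠ n in atTop, (kE1 P ck y ε n : ℝ) ≤ n + 8 * (Real.logb 2 (1 / y n) + 1) := by
  filter_upwards [sf_k3 h hσ hck hck1, eventually_ge_atTop N] with n h3 hn
  have hl0 := sf_lb0 h hn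
  have h0 : 0 ≤ Real.logb 2 (1 / ε n) := le_trans (mul_nonneg (by linarith) hl0) (sf_lb h hn)
  have h1 : (P.w (ε n) : ℝ) ≤ P.thp * Real.logb 2 (1 / ε n) + 1 :=
    lg_le (mul_nonneg P.thp0.le h0)
  have h2 : P.thp * Real.logb 2 (1 / ε n) ≤ 1 * ((2 - σ) * Real.logb 2 (1 / y n)) :=
    mul_le_mul hA.thp1 (sf_ub h hn) h0 zero_le_one
  have h4 : (2 - σ) * Real.logb 2 (1 / y n) ≤ 2 * Real.logb 2 (1 / y n) :=
    mul_le_mul_of_nonneg_right (by linarith) hl0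
  have h5 : ((kf ck y (n + P.w (ε n)) : ℕ) : ℝ) ≤ 3 * P.w (ε n) := by exact_mod_cast h3
  unfold H37.Sf.kE1
  push_cast
  linarith

/-! ### elementary numbers -/

lemma nf_n4 {n s : ℕ} {x : ℝ} (hn : (0 : ℝ) < n) (h1 : Real.log n ≤ x) (h2 : x ≤ s) :
    (n : ℝ) ≤ 4 ^ s := by
  calc (n : ℝ) = Real.exp (Real.log n) := (Real.exp_log hn).symm
    _ ≤ Real.exp s := Real.exp_le_exp.2 (h1.trans h2)
    _ = Real.exp 1 ^ s := by rw [← Real.exp_nat_mul, mul_one]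
    _ ≤ 4 ^ s := by
        refine pow_le_pow_left₀ (Real.exp_pos _).le ?_ s
        have := Real.exp_one_lt_d9
        linarith

lemma nf_q4 {n s : ℕ} {u : ℝ} (hs : 2 * s ≤ n) (h1 : u ≤ n) : u ≤ (4 : ℝ) ^ (n - s) := by
  have a2 : (n : ℝ) ≤ 2 ^ n := by
    have := (Nat.lt_two_pow_self (n := n)).le
    exact_mod_cast this
  have a3 : (2 : ℝ) ^ n ≤ 4 ^ (n - s) := by
    have e : (4 : ℝ) ^ (n - s) = 2 ^ (2 * (n - s)) := by
      rw [pow_mul]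
      norm_num
    rw [e]
    exact pow_le_pow_right₀ (by norm_num) (by omega)
  linarith

lemma nf_e4 {n u w b X : ℝ} (hb : 0 < b) (hn : 2 ≤ n) (hw0 : 0 ≤ w)
    (hu : u ≤ 3 * n) (hw : w ≤ n) (h : (1500000 + 4096 * (2 * b + 1) + 1) * n ^ 3 < X) :
    500000 * u * w ≤ X := by
  have hn0 : 0 < n := by linarith
  have h2 : 0 ≤ (4096 * (2 * b + 1) + 1) * n ^ 3 := by positivity
  calc 500000 * u * w ≤ 500000 * (3 * n) * n :=
        mul_le_mul (by linarith) hw hw0 (by positivity)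
    _ = 1500000 * n ^ 2 * 1 := by ring
    _ ≤ 1500000 * n ^ 2 * n := mul_le_mul_of_nonneg_left (by linarith) (by positivity)
    _ = 1500000 * n ^ 3 := by ring
    _ ≤ X := by linarith

lemma nf_d4 {n K u b X : ℝ} (hb : 0 < b) (hn : 2 ≤ n) (hK0 : 0 ≤ K) (hK : K ≤ n)
    (hu0 : 0 ≤ u) (hu : u ≤ n) (h : (1500000 + 4096 * (2 * b + 1) + 1) * n ^ 3 < X) :
    4096 * ((2 * b * K ^ 2 + 1) * u) < X := by
  have hn0 : 0 < n := by linarith
  have a4 : 2 * b * K ^ 2 + 1 ≤ (2 * b + 1) * n ^ 2 := by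
    have b1 : K ^ 2 ≤ n ^ 2 := pow_le_pow_left₀ hK0 hK 2
    have b2 := mul_le_mul_of_nonneg_left b1 (by positivity : 0 ≤ 2 * b)
    have b3 : (1 : ℝ) ≤ n ^ 2 := by nlinarith
    linarith
  have a5 : (2 * b * K ^ 2 + 1) * u ≤ (2 * b + 1) * n ^ 2 * n :=
    mul_le_mul a4 hu hu0 (by positivity)
  have a6 : 0 ≤ 1500001 * n ^ 3 := by positivity
  have e : 4096 * ((2 * b + 1) * n ^ 2 * n) = 4096 * (2 * b + 1) * n ^ 3 := by ring
  linarith

/-- the conditions of a pair from the size of `x = y ^ (-p)` -/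
lemma numF_of {b : ℝ} (hb : 0 < b) {n s k K : ℕ} {x M0 Z : ℝ} (hx1 : 1 ≤ x) (hs1 : x ≤ s)
    (hs2 : (s : ℝ) ≤ 2 * x) (hM0 : 0 ≤ M0) (hn : 8 * (M0 + 12) * x ≤ n) (hn2 : 2 ≤ n)
    (hlog : Real.log n ≤ x)
    (hpow : (1500000 + 4096 * (2 * b + 1) + 1) * (n : ℝ) ^ 3 < (4 : ℝ) ^ n)
    (hZ1 : 1 ≤ Z) (hZ : Z ≤ M0 * x) (hK : (K : ℝ) ≤ 3 * x) (hsK : s + 1 ≤ K) :
    NumF b n s K (lC n k) Z := by
  have hn2' : (2 : ℝ) ≤ n := by exact_mod_cast hn2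
  have hMx : 0 ≤ M0 * x := mul_nonneg hM0 (by linarith)
  have hn' : 8 * (M0 * x) + 96 * x ≤ n := by linarith
  have hsn : 2 * s ≤ n := by
    have : (2 : ℝ) * s ≤ n := by linarith
    exact_mod_cast this
  have hK0 : (0 : ℝ) ≤ K := Nat.cast_nonneg _
  exact
    { hs := by omega
      hK := hsK
      hl := Nat.pow_le_pow_right (by norm_num) (Nat.le_add_right _ _)
      hZ := hZ1
      n4 := nf_n4 (by linarith) hlog hs1
      q4 := nf_q4 hsn (by linarith)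
      e4 := nf_e4 hb hn2' (by linarith) (by linarith) (by linarith) hpow
      d4 := nf_d4 hb hn2' hK0 (by linarith) (by linarith) (by linarith) hpow }

/-- the number of the class from the size of `x = y ^ (-p)` -/
lemma aj_le {b : ℝ} (hb : 0 < b) {n k : ℕ} {K x M0 Z : ℝ} (hx1 : 1 ≤ x) (hK0 : 0 ≤ K)
    (hM0 : 0 ≤ M0) (hx : 160000000000 * (1 + b) * (M0 + 3) ≤ x) (hZ1 : 1 ≤ Z)
    (hZ : Z ≤ M0 * x) (hK : K ≤ 3 * x) : AJ b n (lC n k) K Z ≤ 4 ^ (k / 16) * x ^ 4 := by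
  have e1 : ((lC n k : ℕ) : ℝ) ^ 2 * ((4 : ℝ) ^ n)⁻¹ = 4 ^ (k / 16) := by
    unfold H145.Sp.lC
    push_cast
    rw [← pow_mul, mul_comm (n + k / 16) 2, pow_mul]
    norm_num
    rw [pow_add]
    field_simp
  unfold AJ
  rw [e1]
  have hx0 : 0 < x := by linarith
  have a1 : (K + 1) ^ 2 ≤ 16 * x ^ 2 := by
    have : K + 1 ≤ 4 * x := by linarith
    calc (K + 1) ^ 2 ≤ (4 * x) ^ 2 := pow_le_pow_left₀ (by linarith) this 2
      _ = _ := by ring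
  have a2 : Z + K ≤ (M0 + 3) * x := by linarith
  have a3 : (K + 1) ^ 2 * (Z + K) ≤ 16 * x ^ 2 * ((M0 + 3) * x) :=
    mul_le_mul a1 a2 (by linarith) (by positivity)
  have hpw : (0 : ℝ) < 4 ^ (k / 16) := by positivity
  have a4 : 4 ^ (k / 16) * ((K + 1) ^ 2 * (Z + K)) ≤
      4 ^ (k / 16) * (16 * x ^ 2 * ((M0 + 3) * x)) := mul_le_mul_of_nonneg_left a3 hpw.le
  have a5 : 160000000000 * (1 + b) * (M0 + 3) * x ^ 3 ≤ x * x ^ 3 :=
    mul_le_mul_of_nonneg_right hx (by positivity)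
  calc 10000000000 * (1 + b) * (4 ^ (k / 16) * ((K + 1) ^ 2 * (Z + K)))
      ≤ 10000000000 * (1 + b) * (4 ^ (k / 16) * (16 * x ^ 2 * ((M0 + 3) * x))) :=
        mul_le_mul_of_nonneg_left a4 (by positivity)
    _ = 4 ^ (k / 16) * (160000000000 * (1 + b) * (M0 + 3) * x ^ 3) := by ring
    _ ≤ 4 ^ (k / 16) * (x * x ^ 3) := mul_le_mul_of_nonneg_left a5 hpw.le
    _ = 4 ^ (k / 16) * x ^ 4 := by ring

/-- `log n` against small powers of `1 / y_n` -/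
lemma sf_logn (h : SFlow P b σ c c1 q2 qx a y ε xs c' r q A N) {p : ℝ} (hp : 0 < p) :
    ∀ᶠ n : ℕ in atTop, Real.log n ≤ y n ^ (-p) := by
  obtain ⟨C, hC, hCn⟩ := sf_ny h
  filter_upwards [hCn, sf_log h (p := p) (M := 1 + |Real.log C|) hp (by positivity),
    eventually_gt_atTop 0, eventually_ge_atTop N] with n g4 g3 hn hnN
  have hy := h.fl.y0 n
  have hl0 := sf_lb0 h hnN
  have hn0 : (0 : ℝ) < n := by exact_mod_cast hn
  have b1 : (n : ℝ) ≤ C * (1 / y n) := by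
    rw [mul_one_div, le_div_iff₀ hy]
    exact g4
  have b2 := Real.log_le_log hn0 b1
  rw [Real.log_mul hC.ne' (by positivity)] at b2
  have b3 : Real.log (1 / y n) ≤ Real.logb 2 (1 / y n) := by
    unfold Real.logb
    rw [le_div_iff₀ (Real.log_pos one_lt_two)]
    have c1 : 0 ≤ Real.log (1 / y n) := by
      refine Real.log_nonneg ?_
      rw [one_le_div hy]
      exact h.y1 n hnN
    have c2 : Real.log 2 ≤ 1 := by
      have := Real.log_two_lt_d9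
      linarith
    nlinarith
  have b4 := le_abs_self (Real.log C)
  have b5 : 0 ≤ |Real.log C| * Real.logb 2 (1 / y n) := mul_nonneg (abs_nonneg _) hl0
  have b6 : (1 + |Real.log C|) * (Real.logb 2 (1 / y n) + 1) =
      Real.logb 2 (1 / y n) + 1 + |Real.log C| * Real.logb 2 (1 / y n) + |Real.log C| := by ring
  linarith

/-- **the numbers of a pair of the window** -/
theorem num_win (h : SFlow P b σ c c1 q2 qx a y ε xs c' r q A N) (hb : 0 < b) (hA : P.Adm)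
    (hσ0 : 0 ≤ σ) (hσ : σ ≤ 1 / 4) {ck : ℝ} (hck : 0 < ck) (hck1 : ck ≤ P.thp) {p : ℝ}
    (hp : 0 < p) (hp1 : p < 1) {M0 : ℝ} (hM0 : 0 ≤ M0) (i : ℕ) :
    ∀ᶠ n in atTop, 2 ≤ n ∧ 7 ≤ kf ck y n ∧ ∀ Z, 1 ≤ Z → Z ≤ M0 * y n ^ (-p) → ∀ R : ℕ,
      2 ^ (n + kf ck y n) ≤ R → R ≤ 2 ^ kE1 P ck y ε n → ∃ K : ℕ,
        sd i R = 2 ^ (n - ⌈y n ^ (-p)⌉₊) * 2 ^ K ∧
        NumF b n ⌈y n ^ (-p)⌉₊ K (lC n (kf ck y n)) Z ∧
        AJ b n (lC n (kf ck y n)) K Z ≤ 4 ^ (kf ck y n / 16) * y n ^ (-(4 * p)) := by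
  have hBig : 0 < 160000000000 * (1 + b) * (M0 + 3) := by positivity
  filter_upwards [sf_len h hA hσ0 hσ hck hck1, sf_log h (p := p) (M := (i : ℝ) + 8) hp
      (by positivity), sf_logn h hp, sf_big h hp (M := 1) one_pos,
    sf_big h hp hBig, sf_xn h (p := p) (M := 8 * (M0 + 12)) hp1 (by positivity),
    pow4_big (1500000 + 4096 * (2 * b + 1) + 1) (by positivity), eventually_ge_atTop N,
    eventually_ge_atTop 2,
    (H37.Sf.lb_tend h.fl.y0 h.fl.yt).eventually_ge_atTop (7 / ck)] with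
    n g1 g2 g3 g5 g6 g7 g8 hnN hn2 g9
  have hy := h.fl.y0 n
  have hl0 := sf_lb0 h hnN
  have e2 : y n ^ (-(4 * p)) = (y n ^ (-p)) ^ 4 := by
    rw [← Real.rpow_natCast, ← Real.rpow_mul hy.le]
    congr 1
    push_cast
    ring
  rw [e2]
  generalize hx : y n ^ (-p) = x at g2 g3 g5 g6 g7 ⊢
  have s1 : x ≤ ⌈x⌉₊ := Nat.le_ceil x
  have s2 : (⌈x⌉₊ : ℝ) ≤ 2 * x := by
    have := (Nat.ceil_lt_add_one (by linarith : 0 ≤ x)).le
    linarith
  generalize ⌈x⌉₊ = s at s1 s2 ⊢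
  have k7 : 7 ≤ kf ck y n := by
    have a1 : ck * Real.logb 2 (1 / y n) ≤ (kf ck y n : ℝ) := le_lg _ _
    have a2 : 7 ≤ ck * Real.logb 2 (1 / y n) := by
      have := mul_le_mul_of_nonneg_left g9 hck.le
      rwa [mul_div_cancel₀ _ hck.ne'] at this
    exact_mod_cast a2.trans a1
  have hMx : 0 ≤ M0 * x := mul_nonneg hM0 (by linarith)
  have hsn' : 2 * s ≤ n := by
    have : (2 : ℝ) * s ≤ n := by linarith
    exact_mod_cast this
  refine ⟨hn2, k7, fun Z hZ1 hZ R hR1 hR2 => ?_⟩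
  have c1' : n + kf ck y n ≤ Nat.clog 2 R := by
    have := Nat.clog_mono_right 2 hR1
    rwa [Nat.clog_pow 2 _ one_lt_two] at this
  have c2' : Nat.clog 2 R ≤ kE1 P ck y ε n := by
    have := Nat.clog_mono_right 2 hR2
    rwa [Nat.clog_pow 2 _ one_lt_two] at this
  have c3' : ((Nat.clog 2 R : ℕ) : ℝ) ≤ n + 8 * (Real.logb 2 (1 / y n) + 1) :=
    le_trans (by exact_mod_cast c2') g1
  obtain ⟨K, hK⟩ : ∃ K : ℕ, n - s + K = i + Nat.clog 2 R := ⟨i + Nat.clog 2 R - (n - s), by omega⟩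
  have hKR : (K : ℝ) ≤ 3 * x := by
    have e1 : (((n - s : ℕ) : ℝ) + K) = i + (Nat.clog 2 R : ℕ) := by exact_mod_cast hK
    have e2 : ((n - s : ℕ) : ℝ) = n - s := by rw [Nat.cast_sub (by omega)]
    rw [e2] at e1
    have e3 : (i : ℝ) + 8 * (Real.logb 2 (1 / y n) + 1) ≤ x := by
      have h1 : 0 ≤ (i : ℝ) * Real.logb 2 (1 / y n) := mul_nonneg (Nat.cast_nonneg _) hl0
      have h2 : ((i : ℝ) + 8) * (Real.logb 2 (1 / y n) + 1) =
        (i : ℝ) * Real.logb 2 (1 / y n) + ((i : ℝ) + 8 * (Real.logb 2 (1 / y n) + 1)) := by ring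
      linarith
    linarith
  exact ⟨K, by unfold H773.sd; rw [← pow_add, ← pow_add, hK],
    numF_of hb g5 s1 s2 hM0 g7 hn2 g3 g8 hZ1 hZ hKR (by omega),
    aj_le hb g5 (Nat.cast_nonneg _) hM0 g6 hZ1 hZ hKR⟩

/-- **THE DECORATIONS OF ALL PAIRS HAVE FLOWS**, along the flow -/
theorem memC3 (h : SFlow P b σ c c1 q2 qx a y ε xs c' r q A N) (hb : 0 < b) (hA : P.Adm)
    (hσ0 : 0 ≤ σ) (hσ : σ ≤ 1 / 4) {ck : ℝ} (hck : 0 < ck) (hck1 : ck ≤ P.thp) {p : ℝ}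
    (hp : 0 < p) (hp1 : p < 1) {M0 : ℝ} (hM0 : 0 ≤ M0) {i : ℕ} (hi : 1 ≤ i) :
    ∀ᶠ n in atTop, ∀ Z, 1 ≤ Z → Z ≤ M0 * y n ^ (-p) → ∀ R : ℕ,
      2 ^ (n + kf ck y n) ≤ R → R ≤ 2 ^ kE1 P ck y ε n → ∀ g : V (sd i R) → ℝ,
      (∀ x, |g x| ≤ 1) → ∃ G : Set (V (sd i R) → ℝ), MeasurableSet G ∧
      (nuF b (sd i) (tn n) R).real Gᶜ ≤ Real.exp (-Z) ∧ ∀ F ∈ G,
        T0 (kT (lC n (kf ck y n) / 4)) n (kf ck y n) (2 ^ (n - ⌈y n ^ (-p)⌉₊))
          (DC n (kf ck y n)) (wdS (sd i) (DC n (kf ck y n)) R g F) ∈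
          ED n (kf ck y n) ⌈y n ^ (-p)⌉₊ (4 ^ (kf ck y n / 16) * y n ^ (-(4 * p))) ∧
        rfl2 (T0 (kT (lC n (kf ck y n) / 4)) n (kf ck y n) (2 ^ (n - ⌈y n ^ (-p)⌉₊))
          (DC n (kf ck y n)) (wdS (sd i) (DC n (kf ck y n)) R g F)) ∈
          ED n (kf ck y n) ⌈y n ^ (-p)⌉₊ (4 ^ (kf ck y n / 16) * y n ^ (-(4 * p))) ∧
        T1 (kT (lC n (kf ck y n) / 4)) n (kf ck y n) (2 ^ (n - ⌈y n ^ (-p)⌉₊))
          (DC n (kf ck y n)) (wdS (sd i) (DC n (kf ck y n)) R g F) ∈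
          ED n (kf ck y n) ⌈y n ^ (-p)⌉₊ (4 ^ (kf ck y n / 16) * y n ^ (-(4 * p))) ∧
        rfl2 (T1 (kT (lC n (kf ck y n) / 4)) n (kf ck y n) (2 ^ (n - ⌈y n ^ (-p)⌉₊))
          (DC n (kf ck y n)) (wdS (sd i) (DC n (kf ck y n)) R g F)) ∈
          ED n (kf ck y n) ⌈y n ^ (-p)⌉₊ (4 ^ (kf ck y n / 16) * y n ^ (-(4 * p))) := by
  filter_upwards [num_win h hb hA hσ0 hσ hck hck1 hp hp1 hM0 i] with n g1
  obtain ⟨hn2, hk7, g2⟩ := g1
  intro Z hZ1 hZ R hR1 hR2 g hg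
  obtain ⟨K, e1, e2, e3⟩ := g2 Z hZ1 hZ R hR1 hR2
  have c1' : n + kf ck y n ≤ Nat.clog 2 R := by
    have := Nat.clog_mono_right 2 hR1
    rwa [Nat.clog_pow 2 _ one_lt_two] at this
  have hNl : 2 ^ (n + kf ck y n + 1) ≤ sd i R := by
    unfold H773.sd
    rw [← pow_add]
    exact Nat.pow_le_pow_right (by norm_num) (by omega)
  obtain ⟨G, mG, pG, fG⟩ := c3_pair hb e2 hn2 hk7 e1 hNl hg
  refine ⟨G, mG, pG, fun F hF => ?_⟩
  obtain ⟨f1, f2, f3, f4⟩ := fG F hF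
  exact ⟨ED_mono e3 f1, ED_mono e3 f2, ED_mono e3 f3, ED_mono e3 f4⟩

end

end Vale.Agent.P159.H276.Mf
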