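import Vale.Agent.P159.H145.Nu1
import Vale.Agent.P159.H276.Eta3

/-!
P159 / numbers of the AP step (helper276), part 0: **the scales**.  `Lgt ε = 1 + log (1 / ε)`,
`M = 2 ^ (m - n)`, `X = 2 ^ xE / 6`:
`A Lgt ^ 16 ≤ √M`, `A M ^ 20 ≤ X`, `A X ^ 50 ≤ ε ^ (- ρ)`.
-/

set_option linter.unusedSectionVars false

namespace Vale.Agent.P159.H276

open Vale.Agent.P159.H972
open Vale.Agent.P159.H145 (absorb exp_absorb log_le_pow rpow_anti one_le_rpow_neg pow_base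
  two_lg_ge two_lg_le)

noncomputable section

/-- the logarithm -/
def Lgt (ε : ℝ) : ℝ := 1 + Real.log (1 / ε)

lemma log_inv_nonneg {ε : ℝ} (h0 : 0 < ε) (h1 : ε ≤ 1) : 0 ≤ Real.log (1 / ε) :=
  Real.log_nonneg ((le_div_iff₀ h0).2 (by linarith))

lemma one_le_Lgt {ε : ℝ} (h0 : 0 < ε) (h1 : ε ≤ 1) : 1 ≤ Lgt ε := by
  have := log_inv_nonneg h0 h1
  unfold Lgt
  linarith

lemma Lgt_le_pow {ε a : ℝ} (h0 : 0 < ε) (h1 : ε ≤ 1) (ha : 0 < a) :
    Lgt ε ≤ (1 + 1 / a) * ε ^ (-a) := by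
  have g1 := log_le_pow ha h0
  have g2 := one_le_rpow_neg h0 h1 ha.le
  unfold Lgt
  have e : (1 + 1 / a) * ε ^ (-a) = ε ^ (-a) + ε ^ (-a) / a := by ring
  rw [e]
  linarith

/-- powers of the logarithm are absorbed -/
lemma log_absorb (A : ℝ) (k : ℕ) {a : ℝ} (ha : 0 < a) :
    ∃ E : ℝ, 0 < E ∧ E ≤ 1 ∧ ∀ ε, 0 < ε → ε ≤ E → A * Lgt ε ^ k ≤ ε ^ (-a) := by
  obtain ⟨c, hc⟩ : ∃ c : ℝ, c = a / (2 * (k + 1)) := ⟨_, rfl⟩
  have hc0 : 0 < c := by rw [hc]; positivity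
  obtain ⟨E, hE, h⟩ := absorb (A := |A| * (1 + 1 / c) ^ k) (a := a / 2) (κ := 1) (by positivity)
    (by positivity) one_pos
  refine ⟨min E 1, lt_min hE one_pos, min_le_right _ _, fun ε h0 hε => ?_⟩
  have h1 : ε ≤ 1 := hε.trans (min_le_right _ _)
  have h2 := h ε h0 (hε.trans (min_le_left _ _))
  have g1 := Lgt_le_pow h0 h1 hc0
  have g0 : 0 ≤ Lgt ε := zero_le_one.trans (one_le_Lgt h0 h1)
  have g2 : Lgt ε ^ k ≤ (1 + 1 / c) ^ k * ε ^ (-(a / 2)) := by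
    calc Lgt ε ^ k ≤ ((1 + 1 / c) * ε ^ (-c)) ^ k := pow_le_pow_left₀ g0 g1 k
      _ = (1 + 1 / c) ^ k * ε ^ (-c * k) := pow_base h0 _ k
      _ ≤ (1 + 1 / c) ^ k * ε ^ (-(a / 2)) := by
          refine mul_le_mul_of_nonneg_left (rpow_anti h0 h1 ?_) (by positivity)
          rw [hc]
          have hk : (0 : ℝ) < k + 1 := by positivity
          have : a / (2 * (k + 1)) * k ≤ a / 2 := by
            have e : a / (2 * (k + 1)) * k = a / 2 * (k / (k + 1)) := by field_simp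
            rw [e]
            refine mul_le_of_le_one_right (by positivity) ?_
            rw [div_le_one hk]
            linarith
          linarith
  have g3 : 0 < ε ^ (-a) := Real.rpow_pos_of_pos h0 _
  calc A * Lgt ε ^ k ≤ |A| * Lgt ε ^ k :=
        mul_le_mul_of_nonneg_right (le_abs_self A) (pow_nonneg g0 k)
    _ ≤ |A| * ((1 + 1 / c) ^ k * ε ^ (-(a / 2))) := mul_le_mul_of_nonneg_left g2 (abs_nonneg A)
    _ = (|A| * (1 + 1 / c) ^ k * ε ^ (a / 2)) * ε ^ (-a) := by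
        have e : ε ^ (-(a / 2)) = ε ^ (a / 2) * ε ^ (-a) := by
          rw [← Real.rpow_add h0]
          congr 1
          ring
        rw [e]
        ring
    _ ≤ 1 * ε ^ (-a) := mul_le_mul_of_nonneg_right h2 g3.le
    _ = _ := one_mul _

/-- **the scales** -/
theorem scales {thp x1 ρ : ℝ} (ht : 0 < thp) (hx : 0 < x1) (h1 : thp ≤ x1 / 400)
    (h2 : x1 ≤ ρ / 100) (A : ℝ) :
    ∃ E : ℝ, 0 < E ∧ E ≤ 1 ∧ ∀ ε, 0 < ε → ε ≤ E → ∀ M X : ℝ, ε ^ (-thp) ≤ M →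
      M ≤ 16 * ε ^ (-(4 * thp)) → ε ^ (-x1) / 6 ≤ X → X ≤ ε ^ (-x1) →
      A * Lgt ε ^ 16 ≤ √M ∧ A * M ^ 20 ≤ X ∧ A * X ^ 50 ≤ ε ^ (-ρ) := by
  obtain ⟨E1, p1, p1', a1⟩ := log_absorb A 16 (a := thp / 2) (by positivity)
  obtain ⟨E2, p2, a2⟩ := absorb (A := |A| * 16 ^ 20 * 6) (a := x1 - 80 * thp) (κ := 1)
    (by positivity) (by linarith) one_pos
  obtain ⟨E3, p3, a3⟩ := absorb (A := |A|) (a := ρ - 50 * x1) (κ := 1) (abs_nonneg A)
    (by linarith) one_pos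
  refine ⟨min E1 (min E2 E3), lt_min p1 (lt_min p2 p3), (min_le_left _ _).trans p1',
    fun ε h0 hε M X m1 m2 x1' x2 => ?_⟩
  have l1 := hε.trans (min_le_left _ _)
  have l2 := hε.trans ((min_le_right _ _).trans (min_le_left _ _))
  have l3 := hε.trans ((min_le_right _ _).trans (min_le_right _ _))
  have hM0 : 0 < M := (Real.rpow_pos_of_pos h0 _).trans_le m1
  have hX0 : 0 < X := lt_of_lt_of_le (div_pos (Real.rpow_pos_of_pos h0 _) (by norm_num)) x1'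
  refine ⟨?_, ?_, ?_⟩
  · refine (a1 ε h0 l1).trans ?_
    refine Real.le_sqrt_of_sq_le ?_
    refine le_trans (le_of_eq ?_) m1
    rw [← Real.rpow_natCast, ← Real.rpow_mul h0.le]
    congr 1
    push_cast
    ring
  · have g1 := a2 ε h0 l2
    have g2 : M ^ 20 ≤ 16 ^ 20 * ε ^ (-(80 * thp)) := by
      calc M ^ 20 ≤ (16 * ε ^ (-(4 * thp))) ^ 20 := pow_le_pow_left₀ hM0.le m2 20
        _ = 16 ^ 20 * ε ^ (-(4 * thp) * (20 : ℕ)) := pow_base h0 _ 20
        _ = _ := by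
            congr 2
            push_cast
            ring
    have g3 : 0 < ε ^ (-x1) := Real.rpow_pos_of_pos h0 _
    have e : ε ^ (-(80 * thp)) = ε ^ (x1 - 80 * thp) * ε ^ (-x1) := by
      rw [← Real.rpow_add h0]
      congr 1
      ring
    calc A * M ^ 20 ≤ |A| * M ^ 20 := mul_le_mul_of_nonneg_right (le_abs_self A) (by positivity)
      _ ≤ |A| * (16 ^ 20 * ε ^ (-(80 * thp))) := mul_le_mul_of_nonneg_left g2 (abs_nonneg A)
      _ = (|A| * 16 ^ 20 * 6 * ε ^ (x1 - 80 * thp)) * (ε ^ (-x1) / 6) := by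
          rw [e]
          ring
      _ ≤ 1 * (ε ^ (-x1) / 6) := mul_le_mul_of_nonneg_right g1 (by positivity)
      _ ≤ X := by rw [one_mul]; exact x1'
  · have g1 := a3 ε h0 l3
    have g2 : X ^ 50 ≤ ε ^ (-(50 * x1)) := by
      calc X ^ 50 ≤ (1 * ε ^ (-x1)) ^ 50 := by
            rw [one_mul]
            exact pow_le_pow_left₀ hX0.le x2 50
        _ = 1 ^ 50 * ε ^ (-x1 * (50 : ℕ)) := pow_base h0 _ 50
        _ = _ := by
            rw [one_pow, one_mul]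
            congr 1
            push_cast
            ring
    have e : ε ^ (-(50 * x1)) = ε ^ (ρ - 50 * x1) * ε ^ (-ρ) := by
      rw [← Real.rpow_add h0]
      congr 1
      ring
    calc A * X ^ 50 ≤ |A| * X ^ 50 := mul_le_mul_of_nonneg_right (le_abs_self A) (by positivity)
      _ ≤ |A| * ε ^ (-(50 * x1)) := mul_le_mul_of_nonneg_left g2 (abs_nonneg A)
      _ = (|A| * ε ^ (ρ - 50 * x1)) * ε ^ (-ρ) := by
          rw [e]
          ring
      _ ≤ 1 * ε ^ (-ρ) :=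
          mul_le_mul_of_nonneg_right g1 (Real.rpow_pos_of_pos h0 _).le
      _ = _ := one_mul _

end

end Vale.Agent.P159.H276
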