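import Vale.Agent.P159.H276.Te2

/-!
P159 / typical source of the AP step (helper276), part 3: numbers in powers of two.
`N = 2 ^ r`, cells `l = 2 ^ s`, blocks `2 ^ n`, `t₀ = tn n`, posterior `t ∈ [tn n, 4 tn n]`, prior
`s' ∈ (0, t)`, `LL = 1 / (s' 4 ^ r) + 1 + (r - s)`.
* `bracket` : the bracket of `bE_Gnc_trace`, `Hs_row` is at most `(b + b²) l⁴ LL`;
* `row_num` : (S2) `tr ≤ 1032 (1 + b)² 4 ^ s tn n LL`;
* `te_num`  : `P(¬ MeanOK) ≤ (3 #ι₁ + #ι₂) exp (- Y)`.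
-/

set_option linter.unusedSectionVars false

namespace Vale.Agent.P159.H276

open Finset Matrix MeasureTheory ProbabilityTheory
open Vale.Agent.P159.TM.H104 (EM Ex Cv K3 Lg li nh Gr)
open Vale.Agent.P159.H37
open Vale.Agent.P159.TM.H764 (EE nrm)
open Vale.Agent.P159.TM.Spec (V)
open Vale.Agent.P159.H864 (TI sym fc ti_fc sym_fc cobV)
open Vale.Agent.P159.H963 (Neu Pn nMC nwt Gnc obsN)
open Vale.Agent.P159.H859 (Rk ti_Rk sym_Rk ravg)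
open Vale.Agent.P159.H447 (K4S SN CN)
open Vale.Agent.P159.H972 (tn)
open Vale.Agent.P159.H663 (TC bE rsC cRs rowM trace_gram sq_vec_nonneg dot_self qf_mul_tr)

noncomputable section

/-- the logarithm of the typical source -/
def LL (r s : ℕ) (s' : ℝ) : ℝ := 1 / (s' * 4 ^ r) + 1 + ((r - s : ℕ) : ℝ)

lemma one_le_LL (r s : ℕ) {s' : ℝ} (hs : 0 < s') : 1 ≤ LL r s s' := by
  unfold LL
  have h1 : 0 ≤ 1 / (s' * 4 ^ r) := by positivity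
  have h2 : (0 : ℝ) ≤ ((r - s : ℕ) : ℝ) := Nat.cast_nonneg _
  linarith

lemma tn_eq (n : ℕ) : tn n = ((4 : ℝ) ^ n)⁻¹ := rfl

/-- the bracket of the smooth field -/
lemma bracket {b : ℝ} (hb : 0 < b) {r s : ℕ} (hsr : s ≤ r) {s' : ℝ} (hs : 0 < s') :
    1 / (s' * (((2 ^ r / 2 ^ s : ℕ) : ℕ) : ℝ) ^ 2 * (1 / b / ((2 ^ s : ℕ) : ℝ) ^ 2)) +
      (1 + Real.log (((2 ^ r / 2 ^ s : ℕ) : ℕ) : ℝ)) / (1 / b / ((2 ^ s : ℕ) : ℝ) ^ 2) ^ 2 ≤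
      (b + b ^ 2) * (16 ^ s * LL r s s') := by
  have h1 : (((2 ^ r / 2 ^ s : ℕ) : ℕ) : ℝ) = 2 ^ (r - s) := by
    rw [Nat.pow_div hsr two_pos]
    push_cast
    rfl
  have h2 : ((2 ^ s : ℕ) : ℝ) = 2 ^ s := by push_cast; rfl
  rw [h1, h2]
  have e1 : ((2 : ℝ) ^ (r - s)) ^ 2 * 4 ^ s = 4 ^ r := by
    rw [← pow_mul, mul_comm (r - s) 2, pow_mul, show (2 : ℝ) ^ 2 = 4 by norm_num, ← pow_add]
    congr 1
    omega
  have e2 : ((2 : ℝ) ^ s) ^ 2 = 4 ^ s := by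
    rw [← pow_mul, mul_comm s 2, pow_mul]
    norm_num
  have e3 : (16 : ℝ) ^ s = 4 ^ s * 4 ^ s := by
    rw [← mul_pow]
    norm_num
  rw [e2, e3]
  obtain ⟨x, hx⟩ : ∃ x : ℝ, x = 4 ^ s := ⟨_, rfl⟩
  obtain ⟨y, hy⟩ : ∃ y : ℝ, y = ((2 : ℝ) ^ (r - s)) ^ 2 := ⟨_, rfl⟩
  have hx0 : 0 < x := by rw [hx]; positivity
  have hy0 : 0 < y := by rw [hy]; positivity
  rw [← hx, ← hy] at e1
  have hlog : Real.log ((2 : ℝ) ^ (r - s)) ≤ ((r - s : ℕ) : ℝ) := by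
    rw [Real.log_pow]
    have h3 : Real.log 2 ≤ 1 := by
      have := Real.log_two_lt_d9
      linarith
    have h4 : (0 : ℝ) ≤ ((r - s : ℕ) : ℝ) := Nat.cast_nonneg _
    nlinarith
  have hlog0 : 0 ≤ Real.log ((2 : ℝ) ^ (r - s)) := Real.log_nonneg (one_le_pow₀ one_le_two)
  obtain ⟨L, hL⟩ : ∃ L : ℝ, L = Real.log ((2 : ℝ) ^ (r - s)) := ⟨_, rfl⟩
  rw [← hx, ← hy, ← hL]
  rw [← hL] at hlog hlog0
  have f1 : 1 / (s' * y * (1 / b / x)) = b * (x * x * (1 / (s' * 4 ^ r))) := by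
    rw [← e1]
    field_simp
  have f2 : (1 + L) / (1 / b / x) ^ 2 = b ^ 2 * (x * x * (1 + L)) := by
    field_simp
  rw [f1, f2]
  unfold LL
  obtain ⟨z, hz⟩ : ∃ z : ℝ, z = 1 / (s' * 4 ^ r) := ⟨_, rfl⟩
  have hz0 : 0 ≤ z := by
    rw [hz]
    positivity
  rw [← hz]
  have g1 : x * x * z ≤ x * x * (z + 1 + ((r - s : ℕ) : ℝ)) :=
    mul_le_mul_of_nonneg_left (by linarith) (by positivity)
  have g2 : x * x * (1 + L) ≤ x * x * (z + 1 + ((r - s : ℕ) : ℝ)) :=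
    mul_le_mul_of_nonneg_left (by linarith) (by positivity)
  have g3 := mul_le_mul_of_nonneg_left g1 hb.le
  have g4 := mul_le_mul_of_nonneg_left g2 (sq_nonneg b)
  linarith

lemma q_pow {n s : ℕ} (h : s ≤ n) : (((2 ^ (n - s) : ℕ) : ℝ)) ^ 2 * 4 ^ s = 4 ^ n := by
  push_cast
  rw [← pow_mul, mul_comm (n - s) 2, pow_mul, show (2 : ℝ) ^ 2 = 4 by norm_num, ← pow_add]
  congr 1
  omega

/-- **(S2), the number** -/
theorem row_num {b : ℝ} (hb : 0 < b) {n r s : ℕ} [NeZero (2 ^ r / 2 ^ s)] (hsn : s ≤ n)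
    (hnr : n ≤ r) {t s' : ℝ} (h1 : t ≤ 4 * tn n) (hs : 0 < s') (h : s' < t)
    {T : Matrix (V (2 ^ r / 2 ^ s)) (V (2 ^ r / 2 ^ s)) ℝ} (hT : TC T) (x : V (2 ^ r / 2 ^ s))
    {a a' : V (2 ^ r / 2 ^ s) → ℝ} (a0 : ∀ y, 0 ≤ a y) (a1 : ∑ y, a y = 1) (a0' : ∀ y, 0 ≤ a' y)
    (a1' : ∑ y, a' y = 1) (hD : ∀ y, a y ≠ 0 → nrm (y - x) ≤ 2 * 2 ^ (n - s))
    (hD' : ∀ y, a' y ≠ 0 → nrm (y - x) ≤ 2 * 2 ^ (n - s))
    (hm : ∑ y, (a - a') y ^ 2 ≤ 4 * (4 ^ s * tn n)) :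
    ((rowM (T *ᵥ (a - a')) * Hs (2 ^ r) (2 ^ s) b t s') *
      (rowM (T *ᵥ (a - a')) * Hs (2 ^ r) (2 ^ s) b t s')ᵀ).trace ≤
      1032 * (1 + b) ^ 2 * (4 ^ s * tn n * LL r s s') := by
  have hl : 2 ^ s ∣ 2 ^ r := pow_dvd_pow 2 (hsn.trans hnr)
  have hDr : ∀ y, a y ≠ 0 → (nrm (y - x) : ℝ) ≤ 2 * 2 ^ (n - s) := fun y hy => by
    exact_mod_cast hD y hy
  have hDr' : ∀ y, a' y ≠ 0 → (nrm (y - x) : ℝ) ≤ 2 * 2 ^ (n - s) := fun y hy => by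
    exact_mod_cast hD' y hy
  have h2 := Hs_row (N := 2 ^ r) (l := 2 ^ s) hb hl hs h.le hT x a0 a1 a0' a1' hDr hDr' hm
  have h3 := bracket hb (hsn.trans hnr) hs
  have hL := one_le_LL r s hs
  have ht : 0 < tn n := tn_pos n
  have h4 : (t - s') ^ 2 ≤ (4 * tn n) ^ 2 := pow_le_pow_left₀ (by linarith) (by linarith) 2
  refine h2.trans ?_
  have e1 : (2 * (2 : ℝ) ^ (n - s)) ^ 2 * 4 ^ s = 4 * 4 ^ n := by
    have := q_pow hsn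
    push_cast at this
    nlinarith
  have e2 : tn n * 4 ^ n = 1 := by
    rw [tn_eq]
    exact inv_mul_cancel₀ (by positivity)
  have e3 : (16 : ℝ) ^ s = 4 ^ s * 4 ^ s := by
    rw [← mul_pow]
    norm_num
  set Q : ℝ := 1 / (s' * (((2 ^ r / 2 ^ s : ℕ) : ℕ) : ℝ) ^ 2 * (1 / b / ((2 ^ s : ℕ) : ℝ) ^ 2)) +
      (1 + Real.log (((2 ^ r / 2 ^ s : ℕ) : ℕ) : ℝ)) / (1 / b / ((2 ^ s : ℕ) : ℝ) ^ 2) ^ 2
  have h5 : 16 * (t - s') ^ 2 * (2 * (2 : ℝ) ^ (n - s)) ^ 2 * Q ≤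
      16 * (4 * tn n) ^ 2 * (2 * (2 : ℝ) ^ (n - s)) ^ 2 * ((b + b ^ 2) * (16 ^ s * LL r s s')) := by
    have g1 : 0 ≤ (b + b ^ 2) * (16 ^ s * LL r s s') := by positivity
    have g2 : 16 * (t - s') ^ 2 * (2 * (2 : ℝ) ^ (n - s)) ^ 2 * Q ≤
        16 * (t - s') ^ 2 * (2 * (2 : ℝ) ^ (n - s)) ^ 2 * ((b + b ^ 2) * (16 ^ s * LL r s s')) :=
      mul_le_mul_of_nonneg_left h3 (by positivity)
    refine g2.trans (mul_le_mul_of_nonneg_right ?_ g1)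
    exact mul_le_mul_of_nonneg_right (mul_le_mul_of_nonneg_left h4 (by norm_num)) (by positivity)
  have h6 : 16 * (4 * tn n) ^ 2 * (2 * (2 : ℝ) ^ (n - s)) ^ 2 *
      ((b + b ^ 2) * (16 ^ s * LL r s s')) =
      1024 * (b + b ^ 2) * (4 ^ s * tn n * LL r s s') * (tn n * 4 ^ n) := by
    rw [e3]
    calc 16 * (4 * tn n) ^ 2 * (2 * (2 : ℝ) ^ (n - s)) ^ 2 *
          ((b + b ^ 2) * (4 ^ s * 4 ^ s * LL r s s'))
        = 256 * tn n ^ 2 * (b + b ^ 2) * 4 ^ s * LL r s s' *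
          ((2 * (2 : ℝ) ^ (n - s)) ^ 2 * 4 ^ s) := by ring
      _ = _ := by
          rw [e1]
          ring
  rw [h6, e2, mul_one] at h5
  have h7 : 0 ≤ 4 ^ s * tn n := by positivity
  have h8 : 4 ^ s * tn n ≤ 4 ^ s * tn n * LL r s s' := le_mul_of_one_le_right h7 hL
  have h9 : 0 ≤ 4 ^ s * tn n * LL r s s' := h7.trans h8
  have h10 : 8 * (4 ^ s * tn n * LL r s s') ≤ 8 * (1 + b) ^ 2 * (4 ^ s * tn n * LL r s s') := by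
    refine mul_le_mul_of_nonneg_right ?_ h9
    nlinarith
  have h11 : 1024 * (b + b ^ 2) * (4 ^ s * tn n * LL r s s') ≤
      1024 * (1 + b) ^ 2 * (4 ^ s * tn n * LL r s s') := by
    refine mul_le_mul_of_nonneg_right ?_ h9
    nlinarith
  calc 2 * (4 * (4 ^ s * tn n)) + 16 * (t - s') ^ 2 * (2 * (2 : ℝ) ^ (n - s)) ^ 2 * Q
      ≤ 8 * (4 ^ s * tn n * LL r s s') + 1024 * (b + b ^ 2) * (4 ^ s * tn n * LL r s s') := by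
        linarith
    _ ≤ 8 * (1 + b) ^ 2 * (4 ^ s * tn n * LL r s s') +
          1024 * (1 + b) ^ 2 * (4 ^ s * tn n * LL r s s') := add_le_add h10 h11
    _ = _ := by ring

/-- **the typical source, numbers** -/
theorem te_num {b : ℝ} (hb : 0 < b) {n r s : ℕ} [NeZero (2 ^ r / 2 ^ s)] (hsn : s ≤ n)
    (hnr : n ≤ r) {t s' : ℝ} (ht1 : t ≤ 4 * tn n) (hs : 0 < s') (h : s' < t)
    {ι₁ ι₂ : Type*} [Fintype ι₁] [Fintype ι₂] (Bl : ι₁ → Finset (V (2 ^ r / 2 ^ s)))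
    (hBl : ∀ i, ((Bl i).card : ℝ) ≤ ((2 ^ (n - s) : ℕ) : ℝ) ^ 2)
    {T : Matrix (V (2 ^ r / 2 ^ s)) (V (2 ^ r / 2 ^ s)) ℝ} (hT : TC T)
    {X Q₁ δ : ℝ} (hX : 0 < X) (hQ : 0 < Q₁)
    (hAP : ∀ i, (gau (V (2 ^ r / 2 ^ s))).real
      {g | δ < rsC (2 ^ r) (2 ^ s) b (tn n) ((X * √(tn n)) • (H859.dB (Bl i) *ᵥ g))} ≤ 1 / 30)
    {I : Type*} [Fintype I] {K : Matrix (V (2 ^ r / 2 ^ s)) I ℝ} {a : ℝ}
    (ha : 0 < a) (hK : ∀ φ : V (2 ^ r / 2 ^ s) → ℝ,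
      ∑ i, (Kᵀ *ᵥ φ) i ^ 2 ≤ a ^ 2 * ∑ i, φ i ^ 2)
    (hKn : ∀ g, Neu (K *ᵥ g)) {Y : ℝ} (hY : 0 ≤ Y)
    (cA : 6144 * (1 + b) ^ 2 * Q₁ ^ 2 * a ^ 2 * LL r s s' * (Y + 1) ≤ X ^ 2 * tn n)
    (F : ι₂ → Matrix (V (2 ^ r / 2 ^ s)) (V (2 ^ r / 2 ^ s)) ℝ) (hF : ∀ j w, Neu (F j w))
    {r₂ : ι₂ → ℝ} (hr2 : ∀ j, 0 < r₂ j)
    (h2 : ∀ j, ((F j * Hs (2 ^ r) (2 ^ s) b t s') * (F j * Hs (2 ^ r) (2 ^ s) b t s')ᵀ).trace ≤
      r₂ j) (u : ι₂ → ℝ) (hu : ∀ j, 36 * a ^ 2 * r₂ j * (Y + 1) ≤ u j) :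
    (gau I).real {g | ¬ MeanOK (2 ^ r) (2 ^ s) b t s' (tn n) Q₁ δ (2 ^ (n - s)) T Bl F u
      (K *ᵥ g)} ≤ (3 * Fintype.card ι₁ + Fintype.card ι₂) * Real.exp (-Y) := by
  have hl : 2 ^ s ∣ 2 ^ r := pow_dvd_pow 2 (hsn.trans hnr)
  have hq : 2 ^ (n - s) ∣ 2 ^ r / 2 ^ s := by
    rw [Nat.pow_div (hsn.trans hnr) two_pos]
    exact pow_dvd_pow 2 (by omega)
  have hL := one_le_LL r s hs
  have ht : 0 < tn n := tn_pos n
  have hbb : (1 : ℝ) ≤ (1 + b) ^ 2 := by nlinarith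
  have hQa : 0 < Q₁ ^ 2 * a ^ 2 := by positivity
  have hLY : 1 ≤ LL r s s' * (Y + 1) := by nlinarith
  have hLY0 : 0 < LL r s s' * (Y + 1) := by linarith
  -- consequences of `cA`
  have c0 : 6144 * (1 + b) ^ 2 * Q₁ ^ 2 * a ^ 2 * LL r s s' * (Y + 1) =
      6144 * ((1 + b) ^ 2 * (LL r s s' * (Y + 1))) * (Q₁ ^ 2 * a ^ 2) := by ring
  have c1 : (Y + 1) ≤ (1 + b) ^ 2 * (LL r s s' * (Y + 1)) := by
    have g1 : Y + 1 ≤ LL r s s' * (Y + 1) := le_mul_of_one_le_left (by linarith) hL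
    have g2 : LL r s s' * (Y + 1) ≤ (1 + b) ^ 2 * (LL r s s' * (Y + 1)) :=
      le_mul_of_one_le_left hLY0.le hbb
    linarith
  have c2 : 6144 * (Y + 1) * (Q₁ ^ 2 * a ^ 2) ≤ X ^ 2 * tn n := by
    rw [c0] at cA
    refine le_trans (mul_le_mul_of_nonneg_right ?_ hQa.le) cA
    exact mul_le_mul_of_nonneg_left c1 (by norm_num)
  have ha1 : 36 * Q₁ ^ 2 * a ^ 2 ≤ X ^ 2 * tn n := by
    refine le_trans ?_ c2
    nlinarith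
  obtain ⟨ρ, hρ⟩ : ∃ ρ : ℝ, ρ = 2 * ((1 + b) ^ 2 * (16 ^ n * LL r s s')) := ⟨_, rfl⟩
  have hρ0 : 0 < ρ := by
    rw [hρ]
    have : 0 < LL r s s' := by linarith
    positivity
  have hblk : ∀ i, ((bE (Bl i) (2 ^ (n - s)) T * Gnc (2 ^ r) (2 ^ s) b t s') *
      (bE (Bl i) (2 ^ (n - s)) T * Gnc (2 ^ r) (2 ^ s) b t s')ᵀ).trace ≤ ρ := by
    intro i
    refine (bE_Gnc_trace (N := 2 ^ r) (l := 2 ^ s) hb hl hs h.le hq (Bl i) hT).trans ?_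
    have g1 := bracket hb (hsn.trans hnr) hs
    set Q : ℝ := 1 / (s' * (((2 ^ r / 2 ^ s : ℕ) : ℕ) : ℝ) ^ 2 *
      (1 / b / ((2 ^ s : ℕ) : ℝ) ^ 2)) + (1 + Real.log (((2 ^ r / 2 ^ s : ℕ) : ℕ) : ℝ)) /
        (1 / b / ((2 ^ s : ℕ) : ℝ) ^ 2) ^ 2
    have g2 : 0 ≤ (b + b ^ 2) * (16 ^ s * LL r s s') := by
      have : 0 < LL r s s' := by linarith
      positivity
    have g3 := q_pow hsn
    set w : ℝ := ((2 ^ (n - s) : ℕ) : ℝ) with hw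
    have hw0 : 0 ≤ w := Nat.cast_nonneg _
    calc ((Bl i).card : ℝ) * (2 * w ^ 2 * Q)
        ≤ ((Bl i).card : ℝ) * (2 * w ^ 2 * ((b + b ^ 2) * (16 ^ s * LL r s s'))) :=
          mul_le_mul_of_nonneg_left (mul_le_mul_of_nonneg_left g1 (by positivity))
            (Nat.cast_nonneg _)
      _ ≤ w ^ 2 * (2 * w ^ 2 * ((b + b ^ 2) * (16 ^ s * LL r s s'))) :=
          mul_le_mul_of_nonneg_right (hBl i) (mul_nonneg (by positivity) g2)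
      _ = 2 * ((b + b ^ 2) * ((w ^ 2 * 4 ^ s) * (w ^ 2 * 4 ^ s) * LL r s s')) := by
          rw [show (16 : ℝ) ^ s = 4 ^ s * 4 ^ s by rw [← mul_pow]; norm_num]
          ring
      _ = 2 * ((b + b ^ 2) * (16 ^ n * LL r s s')) := by
          rw [g3, ← mul_pow]
          norm_num
      _ ≤ ρ := by
          rw [hρ]
          have : 0 < LL r s s' := by linarith
          refine mul_le_mul_of_nonneg_left (mul_le_mul_of_nonneg_right ?_ (by positivity))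
            (by norm_num)
          nlinarith
  refine (te_cls (N := 2 ^ r) (l := 2 ^ s) hb hl h hq Bl hT ht hX hQ hAP ha hK hKn ha1
    (r₁ := fun _ => ρ) (fun _ => hρ0) hblk F hF hr2 h2 u).trans ?_
  have hexp : ∀ x : ℝ, Y + 1 ≤ x → Real.exp (1 / 2 - x) ≤ Real.exp (-Y) := fun x hx =>
    Real.exp_le_exp.2 (by linarith)
  -- blocks
  have b1 : Real.exp (-(X ^ 2 * tn n / (252 * Q₁ ^ 2 * a ^ 2))) ≤ Real.exp (-Y) := by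
    refine Real.exp_le_exp.2 (neg_le_neg ?_)
    rw [le_div_iff₀ (by positivity)]
    refine le_trans ?_ c2
    nlinarith
  have b2 : Real.exp (1 / 2 - X ^ 2 * tn n / (192 * Q₁ ^ 2 * (t - s') ^ 2 * a ^ 2 * ρ)) ≤
      Real.exp (-Y) := by
    refine hexp _ ?_
    have hts : 0 < t - s' := sub_pos.2 h
    rw [le_div_iff₀ (by positivity)]
    have g1 : (t - s') ^ 2 ≤ (4 * tn n) ^ 2 := pow_le_pow_left₀ hts.le (by linarith) 2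
    have g2 : (4 * tn n) ^ 2 * ρ = 32 * ((1 + b) ^ 2 * LL r s s') := by
      have g3 : tn n ^ 2 * 16 ^ n = 1 := by
        rw [tn_eq, show (16 : ℝ) ^ n = (4 ^ n) ^ 2 by rw [← pow_mul, mul_comm, pow_mul]; norm_num,
          ← mul_pow, inv_mul_cancel₀ (by positivity), one_pow]
      rw [hρ]
      calc (4 * tn n) ^ 2 * (2 * ((1 + b) ^ 2 * (16 ^ n * LL r s s')))
          = 32 * ((1 + b) ^ 2 * LL r s s') * (tn n ^ 2 * 16 ^ n) := by ring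
        _ = _ := by rw [g3, mul_one]
    have g4 : (t - s') ^ 2 * ρ ≤ 32 * ((1 + b) ^ 2 * LL r s s') := by
      rw [← g2]
      exact mul_le_mul_of_nonneg_right g1 hρ0.le
    have g5 : (Y + 1) * (192 * Q₁ ^ 2 * (t - s') ^ 2 * a ^ 2 * ρ) =
        192 * (Y + 1) * (Q₁ ^ 2 * a ^ 2) * ((t - s') ^ 2 * ρ) := by ring
    rw [g5]
    have g6 : 192 * (Y + 1) * (Q₁ ^ 2 * a ^ 2) * ((t - s') ^ 2 * ρ) ≤
        192 * (Y + 1) * (Q₁ ^ 2 * a ^ 2) * (32 * ((1 + b) ^ 2 * LL r s s')) :=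
      mul_le_mul_of_nonneg_left g4 (by positivity)
    refine g6.trans (le_trans (le_of_eq ?_) cA)
    ring
  -- balls
  have b3 : ∀ j, Real.exp (1 / 2 - u j / (36 * a ^ 2 * r₂ j)) ≤ Real.exp (-Y) := by
    intro j
    refine hexp _ ?_
    have := hr2 j
    rw [le_div_iff₀ (by positivity)]
    refine le_trans (le_of_eq ?_) (hu j)
    ring
  have s1 : ∑ _i : ι₁, (2 * Real.exp (-(X ^ 2 * tn n / (252 * Q₁ ^ 2 * a ^ 2))) +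
      Real.exp (1 / 2 - X ^ 2 * tn n / (192 * Q₁ ^ 2 * (t - s') ^ 2 * a ^ 2 * ρ))) ≤
      3 * Fintype.card ι₁ * Real.exp (-Y) := by
    rw [Finset.sum_const, nsmul_eq_mul, Finset.card_univ]
    have g : 2 * Real.exp (-(X ^ 2 * tn n / (252 * Q₁ ^ 2 * a ^ 2))) +
      Real.exp (1 / 2 - X ^ 2 * tn n / (192 * Q₁ ^ 2 * (t - s') ^ 2 * a ^ 2 * ρ)) ≤
      3 * Real.exp (-Y) := by linarith
    have := mul_le_mul_of_nonneg_left g (Nat.cast_nonneg (α := ℝ) (Fintype.card ι₁))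
    linarith
  have s2 : ∑ j, Real.exp (1 / 2 - u j / (36 * a ^ 2 * r₂ j)) ≤
      Fintype.card ι₂ * Real.exp (-Y) := by
    refine (Finset.sum_le_sum fun j _ => b3 j).trans (le_of_eq ?_)
    rw [Finset.sum_const, nsmul_eq_mul, Finset.card_univ]
  calc _ ≤ 3 * Fintype.card ι₁ * Real.exp (-Y) + Fintype.card ι₂ * Real.exp (-Y) :=
        add_le_add s1 s2
    _ = _ := by ring

end

end Vale.Agent.P159.H276
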