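import Vale.Agent.P159.H276.Nu0
import Vale.Agent.P159.H276.Te3

/-!
P159 / numbers of the AP step (helper276), part 1: **the letters**.  Level `n` at the size `ε`,
level `m` at the size `e ≥ ε / 2`, torus `2 ^ r`, `r = m + 3 xE e`, cells `2 ^ s`, `s = sE n ε`.
-/

set_option linter.unusedSectionVars false

namespace Vale.Agent.P159.H276

open Vale.Agent.P159.H972
open Vale.Agent.P159.H145 (absorb exp_absorb log_le_pow rpow_anti one_le_rpow_neg pow_base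
  two_lg_ge two_lg_le)

noncomputable section

/-- the letters of one AP step -/
structure BL (P : Par) (n m r s : ℕ) (ε e : ℝ) : Prop where
  ε0 : 0 < ε
  εes : ε ≤ P.es
  he : ε / 2 ≤ e
  x11 : P.x1 ≤ 1
  thp1 : P.thp ≤ 1
  lo : n + P.w ε ≤ m
  up : m ≤ n + 4 * P.w ε
  nE : 4 * lg P.C0 ε ≤ n
  hr : r = m + 3 * P.xE e
  hs : s = P.sE n ε

namespace BL

variable {P : Par} {n m r s : ℕ} {ε e : ℝ} (h : BL P n m r s ε e)
include h

lemma ε1 : ε ≤ 1 := h.εes.trans (P.es1.trans (by norm_num))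

lemma εh : ε ≤ 1 / 2 := h.εes.trans P.es1

lemma nm : n < m := by
  have h1 := w1 h.ε0 h.εes
  have := h.lo
  omega

lemma mr : m ≤ r := by
  have := h.hr
  omega

lemma hsn : s ≤ n := by
  rw [h.hs]
  exact Nat.sub_le _ _

lemma q_eq : n - s = lg P.C0 ε := by
  have h1 := h.hs
  have h2 := h.nE
  unfold Par.sE at h1
  omega

lemma M_ge : ε ^ (-P.thp) ≤ (2 : ℝ) ^ (m - n) := by
  refine (two_lg_ge h.ε0).trans (pow_le_pow_right₀ one_le_two ?_)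
  have h1 := h.lo
  unfold Par.w at h1
  omega

lemma M_le : (2 : ℝ) ^ (m - n) ≤ 16 * ε ^ (-(4 * P.thp)) := by
  have h1 := two_lg_le P.thp0.le h.ε0 h.ε1
  calc (2 : ℝ) ^ (m - n) ≤ 2 ^ (4 * lg P.thp ε) := by
        refine pow_le_pow_right₀ one_le_two ?_
        have h1 := h.up
        unfold Par.w at h1
        omega
    _ = ((2 : ℝ) ^ lg P.thp ε) ^ 4 := by rw [← pow_mul, mul_comm]
    _ ≤ (2 * ε ^ (-P.thp)) ^ 4 := by gcongr
    _ = 16 * ε ^ (-(4 * P.thp)) := by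
        rw [pow_base h.ε0]
        norm_num
        congr 1
        ring

lemma M_two : (2 : ℝ) ≤ 2 ^ (m - n) := by
  have h1 := h.nm
  calc (2 : ℝ) = 2 ^ 1 := (pow_one 2).symm
    _ ≤ _ := pow_le_pow_right₀ one_le_two (by omega)

lemma X_ge : ε ^ (-P.x1) / 6 ≤ (2 : ℝ) ^ P.xE ε / 6 :=
  div_le_div_of_nonneg_right (two_lg_ge h.ε0) (by norm_num)

lemma X_le : (2 : ℝ) ^ P.xE ε / 6 ≤ ε ^ (-P.x1) := by
  have h1 : (2 : ℝ) ^ P.xE ε ≤ 2 * ε ^ (-P.x1) := two_lg_le P.x10.le h.ε0 h.ε1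
  have h2 : 0 < ε ^ (-P.x1) := Real.rpow_pos_of_pos h.ε0 _
  rw [div_le_iff₀ (by norm_num)]
  linarith

lemma xE_le : P.xE e ≤ P.xE ε + 1 := lg_half' P.x10 h.x11 h.ε0 h.he

lemma Xe_le : (2 : ℝ) ^ P.xE e ≤ 12 * ((2 : ℝ) ^ P.xE ε / 6) := by
  calc (2 : ℝ) ^ P.xE e ≤ 2 ^ (P.xE ε + 1) := pow_le_pow_right₀ one_le_two h.xE_le
    _ = _ := by ring

lemma G_eq : (2 : ℝ) ^ (r - n) = 2 ^ (m - n) * (2 ^ P.xE e) ^ 3 := by
  have h1 := h.hr
  have h2 := h.nm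
  rw [← pow_mul, ← pow_add]
  congr 1
  omega

lemma G_le : (2 : ℝ) ^ (r - n) ≤ 1728 * 2 ^ (m - n) * ((2 : ℝ) ^ P.xE ε / 6) ^ 3 := by
  rw [h.G_eq]
  have h1 : ((2 : ℝ) ^ P.xE e) ^ 3 ≤ (12 * ((2 : ℝ) ^ P.xE ε / 6)) ^ 3 :=
    pow_le_pow_left₀ (by positivity) h.Xe_le 3
  calc (2 : ℝ) ^ (m - n) * (2 ^ P.xE e) ^ 3
      ≤ 2 ^ (m - n) * (12 * ((2 : ℝ) ^ P.xE ε / 6)) ^ 3 :=
        mul_le_mul_of_nonneg_left h1 (by positivity)
    _ = _ := by ring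

lemma q_le : (2 : ℝ) ^ (n - s) ≤ 2 * ε ^ (-P.C0) := by
  rw [h.q_eq]
  exact two_lg_le P.C00.le h.ε0 h.ε1

lemma rs_eq : r - s = (r - n) + (n - s) := by
  have h1 := h.hsn
  have h2 := h.nm
  have h3 := h.mr
  omega

lemma rs_pow : (2 : ℝ) ^ (r - s) = 2 ^ (r - n) * 2 ^ (n - s) := by
  rw [h.rs_eq, pow_add]

lemma lg_log {c : ℝ} (hc : 0 ≤ c) : (lg c ε : ℝ) ≤ 2 * c * Real.log (1 / ε) + 1 := by
  have h0 := logb_nonneg' h.ε0 h.ε1
  have h1 : (lg c ε : ℝ) ≤ c * Real.logb 2 (1 / ε) + 1 :=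
    (Nat.ceil_lt_add_one (by positivity)).le
  have h2 : Real.logb 2 (1 / ε) ≤ 2 * Real.log (1 / ε) := by
    have h3 := log_inv_nonneg h.ε0 h.ε1
    unfold Real.logb
    rw [div_le_iff₀ (Real.log_pos one_lt_two)]
    have h4 : (1 : ℝ) / 2 ≤ Real.log 2 := by
      have := Real.log_two_gt_d9
      linarith
    nlinarith
  have h3 := mul_le_mul_of_nonneg_left h2 hc
  linarith

/-- the number of scales between the cells and the torus -/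
lemma rs_log : ((r - s : ℕ) : ℝ) ≤ (14 + 2 * P.C0) * Lgt ε := by
  have e1 : r - s ≤ 4 * P.w ε + 3 * (P.xE ε + 1) + lg P.C0 ε := by
    have h1 := h.hr
    have h2 := h.up
    have h3 := h.xE_le
    have h4 := h.q_eq
    have h5 := h.rs_eq
    have h6 := h.nm
    omega
  have e2 : ((r - s : ℕ) : ℝ) ≤ 4 * (lg P.thp ε : ℝ) + 3 * ((lg P.x1 ε : ℝ) + 1) + lg P.C0 ε := by
    exact_mod_cast e1
  have g1 := h.lg_log P.thp0.le
  have g2 := h.lg_log P.x10.le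
  have g3 := h.lg_log P.C00.le
  have g4 := log_inv_nonneg h.ε0 h.ε1
  have g5 : P.thp * Real.log (1 / ε) ≤ 1 * Real.log (1 / ε) :=
    mul_le_mul_of_nonneg_right h.thp1 g4
  have g6 : P.x1 * Real.log (1 / ε) ≤ 1 * Real.log (1 / ε) :=
    mul_le_mul_of_nonneg_right h.x11 g4
  have g7 := P.C00
  unfold Lgt
  nlinarith [mul_nonneg g7.le g4]

/-- the level is large -/
lemma two_n : ((2 : ℝ) ^ n)⁻¹ ≤ ε ^ (4 * P.C0) := by
  have h1 : ε ^ (-(4 * P.C0)) ≤ (2 : ℝ) ^ n := by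
    calc ε ^ (-(4 * P.C0)) = (1 * ε ^ (-P.C0)) ^ 4 := by
          rw [pow_base h.ε0, one_pow, one_mul]
          congr 1
          push_cast
          ring
      _ ≤ ((2 : ℝ) ^ lg P.C0 ε) ^ 4 := by
          rw [one_mul]
          exact pow_le_pow_left₀ (Real.rpow_nonneg h.ε0.le _) (two_lg_ge h.ε0) 4
      _ = 2 ^ (4 * lg P.C0 ε) := by rw [← pow_mul, mul_comm]
      _ ≤ 2 ^ n := pow_le_pow_right₀ one_le_two h.nE
  have h2 := inv_anti₀ (Real.rpow_pos_of_pos h.ε0 _) h1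
  rwa [← Real.rpow_neg h.ε0.le, neg_neg] at h2

/-- the logarithm of the torus against the mass -/
lemma logN : (3 + Real.log ((2 ^ r : ℕ) : ℝ)) * tn n ≤ 4 * 2 ^ (r - n) * ε ^ (4 * P.C0) := by
  have h1 := h.two_n
  have h2 := h.nm
  have h3 := h.mr
  have e1 : Real.log ((2 ^ r : ℕ) : ℝ) ≤ r := by
    push_cast
    rw [Real.log_pow]
    have : Real.log 2 ≤ 1 := by
      have := Real.log_two_lt_d9
      linarith
    exact mul_le_of_le_one_right (Nat.cast_nonneg _) this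
  have e2 : (r : ℝ) = n + ((r - n : ℕ) : ℝ) := by
    rw [Nat.cast_sub (by omega)]
    ring
  have e3 : ((r - n : ℕ) : ℝ) ≤ 2 ^ (r - n) := by
    exact_mod_cast Nat.lt_two_pow_self.le
  have e4 : (n : ℝ) ≤ 2 ^ n := by
    exact_mod_cast Nat.lt_two_pow_self.le
  have e5 : (1 : ℝ) ≤ 2 ^ n := one_le_pow₀ one_le_two
  have e6 : (1 : ℝ) ≤ 2 ^ (r - n) := one_le_pow₀ one_le_two
  obtain ⟨u, hu⟩ : ∃ u : ℝ, u = (2 : ℝ) ^ n := ⟨_, rfl⟩
  obtain ⟨G, hG⟩ : ∃ G : ℝ, G = (2 : ℝ) ^ (r - n) := ⟨_, rfl⟩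
  have hn3 : (3 : ℝ) + n ≤ 3 * u := by
    rw [hu]
    have : ∀ k : ℕ, 3 + k ≤ 3 * 2 ^ k := by
      intro k
      induction k with
      | zero => norm_num
      | succ k ih =>
        rw [pow_succ]
        have : 1 ≤ 2 ^ k := Nat.one_le_two_pow
        omega
    exact_mod_cast this n
  rw [← hu] at e4 e5 h1
  rw [← hG] at e3 e6 ⊢
  have hu0 : 0 < u := by linarith
  have e7 : tn n = u⁻¹ * u⁻¹ := by
    rw [tn_eq, four_pow, ← hu, pow_two, mul_inv]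
  have e8 : u⁻¹ ≤ 1 := inv_le_one_of_one_le₀ e5
  have e9 : 0 < u⁻¹ := inv_pos.2 hu0
  rw [e7]
  have f1 : 3 + Real.log ((2 ^ r : ℕ) : ℝ) ≤ 3 * u + G := by linarith
  calc (3 + Real.log ((2 ^ r : ℕ) : ℝ)) * (u⁻¹ * u⁻¹) ≤ (3 * u + G) * (u⁻¹ * u⁻¹) :=
        mul_le_mul_of_nonneg_right f1 (by positivity)
    _ = 3 * u⁻¹ + G * (u⁻¹ * u⁻¹) := by
        field_simp
    _ ≤ 3 * (G * u⁻¹) + G * (1 * u⁻¹) := by
        have g1 : u⁻¹ ≤ G * u⁻¹ := le_mul_of_one_le_left e9.le e6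
        have g2 : G * (u⁻¹ * u⁻¹) ≤ G * (1 * u⁻¹) :=
          mul_le_mul_of_nonneg_left (mul_le_mul_of_nonneg_right e8 e9.le) (by linarith)
        linarith
    _ = 4 * G * u⁻¹ := by ring
    _ ≤ 4 * G * ε ^ (4 * P.C0) := mul_le_mul_of_nonneg_left h1 (by linarith)

/-- masses -/
lemma tn_m : tn m * (2 ^ (m - n)) ^ 2 = tn n := by
  have h2 := h.nm
  rw [tn_eq, tn_eq, four_pow, four_pow]
  have e : (2 : ℝ) ^ m = 2 ^ n * 2 ^ (m - n) := by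
    rw [← pow_add]
    congr 1
    omega
  rw [e]
  field_simp

lemma four_s : 4 ^ s * tn n * (2 ^ (n - s)) ^ 2 = 1 := by
  have h2 := h.hsn
  rw [tn_eq, four_pow, four_pow]
  have e : (2 : ℝ) ^ n = 2 ^ s * 2 ^ (n - s) := by
    rw [← pow_add]
    congr 1
    omega
  rw [e]
  field_simp

end BL

/-! ### use of the scales -/

lemma use1 {c A g R : ℝ} {k : ℕ} (hk : k ≤ 16) (hg : 1 ≤ g) (hc0 : 0 ≤ c) (hc : c ≤ A)
    (h : A * g ^ 16 ≤ R) : c * g ^ k ≤ R :=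
  (mul_le_mul hc (pow_le_pow_right₀ hg hk) (by positivity) (hc0.trans hc)).trans h

lemma use2 {c A M X : ℝ} {k : ℕ} (hk : k ≤ 20) (hM : 1 ≤ M) (hc0 : 0 ≤ c) (hc : c ≤ A)
    (h : A * M ^ 20 ≤ X) : c * M ^ k ≤ X :=
  (mul_le_mul hc (pow_le_pow_right₀ hM hk) (by positivity) (hc0.trans hc)).trans h

lemma use3 {c A X ε ρ : ℝ} {k : ℕ} (hk : k ≤ 50) (hX : 1 ≤ X) (hc0 : 0 ≤ c) (hc : c ≤ A)
    (h : A * X ^ 50 ≤ ε ^ (-ρ)) : c * X ^ k ≤ ε ^ (-ρ) :=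
  (mul_le_mul hc (pow_le_pow_right₀ hX hk) (by positivity) (hc0.trans hc)).trans h

end

end Vale.Agent.P159.H276
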