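import Vale.Agent.P159.H276.Nu1

/-!
P159 / numbers of the AP step (helper276), part 2: **inequalities between real letters** on the
scales `g ≪ R = √M ≪ M ≪ X ≪ ε ^ (- ρ)`.
-/

set_option linter.unusedSectionVars false

namespace Vale.Agent.P159.H276

open Vale.Agent.P159.H145 (rpow_anti one_le_rpow_neg)

noncomputable section

/-- the real letters of one AP step -/
structure Sc (A CQ CX C0 ρ ε g M R X Xm Q₁ G q : ℝ) : Prop where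
  A1 : 1728 ≤ A
  CX0 : 0 ≤ CX
  CQ0 : 0 ≤ CQ
  ε0 : 0 < ε
  ε1 : ε ≤ 1
  g1 : 1 ≤ g
  R0 : 0 < R
  R2 : R ^ 2 = M
  S1 : A * g ^ 16 ≤ R
  S2 : A * M ^ 20 ≤ X
  S3 : A * X ^ 50 ≤ ε ^ (-ρ)
  Q1 : 1 ≤ Q₁
  Q2 : Q₁ ≤ CQ * g ^ 2
  Xm0 : 0 < Xm
  Xm1 : Xm ≤ CX * X
  G1 : 1 ≤ G
  G2 : G ≤ 1728 * M * X ^ 3
  q1 : 1 ≤ q
  q2 : q ≤ 2 * ε ^ (-C0)

namespace Sc

variable {A CQ CX C0 ρ ε g M R X Xm Q₁ G q : ℝ} (h : Sc A CQ CX C0 ρ ε g M R X Xm Q₁ G q)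
include h

lemma R1 : 1 ≤ R := by
  have h1 := use1 (c := 1) (k := 0) (by norm_num) h.g1 zero_le_one (by linarith [h.A1]) h.S1
  linarith

lemma RM : R ≤ M := by
  rw [← h.R2]
  nlinarith [h.R1]

lemma M1 : 1 ≤ M := h.R1.trans h.RM

lemma MX : M ≤ X := by
  have h1 := use2 (c := 1) (k := 1) (by norm_num) h.M1 zero_le_one (by linarith [h.A1]) h.S2
  linarith

lemma X1 : 1 ≤ X := h.M1.trans h.MX

lemma RX : R ≤ X := h.RM.trans h.MX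

lemma gR {c : ℝ} {k : ℕ} (hk : k ≤ 16) (h0 : 0 ≤ c) (h1 : c ≤ A) : c * g ^ k ≤ R :=
  use1 hk h.g1 h0 h1 h.S1

lemma MXp {c : ℝ} {k : ℕ} (hk : k ≤ 20) (h0 : 0 ≤ c) (h1 : c ≤ A) : c * M ^ k ≤ X :=
  use2 hk h.M1 h0 h1 h.S2

lemma Xε {c : ℝ} {k : ℕ} (hk : k ≤ 50) (h0 : 0 ≤ c) (h1 : c ≤ A) : c * X ^ k ≤ ε ^ (-ρ) :=
  use3 hk h.X1 h0 h1 h.S3

lemma GX : G ≤ X ^ 4 := by
  have h1 := h.MXp (c := 1728) (k := 1) (by norm_num) (by norm_num) h.A1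
  rw [pow_one] at h1
  have h2 : 0 ≤ X ^ 3 := pow_nonneg (zero_le_one.trans h.X1) 3
  calc G ≤ 1728 * M * X ^ 3 := h.G2
    _ ≤ X * X ^ 3 := mul_le_mul_of_nonneg_right h1 h2
    _ = X ^ 4 := by ring

lemma X0 : 0 < X := zero_lt_one.trans_le h.X1

lemma M0 : 0 < M := zero_lt_one.trans_le h.M1

lemma Qsq : Q₁ ^ 2 ≤ CQ ^ 2 * g ^ 4 := by
  have h1 := pow_le_pow_left₀ (zero_le_one.trans h.Q1) h.Q2 2
  calc Q₁ ^ 2 ≤ (CQ * g ^ 2) ^ 2 := h1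
    _ = _ := by ring

lemma Xmsq : Xm ^ 2 ≤ CX ^ 2 * X ^ 2 := by
  have h1 := pow_le_pow_left₀ h.Xm0.le h.Xm1 2
  calc Xm ^ 2 ≤ (CX * X) ^ 2 := h1
    _ = _ := by ring

/-- (n1) -/
lemma n1 (h1 : 196608 * CQ ^ 2 ≤ A) : 196608 * (M ^ 2 * M ^ 2) * Q₁ ^ 2 ≤ X ^ 2 := by
  have e1 := h.gR (c := 196608 * CQ ^ 2) (k := 4) (by norm_num) (by positivity) h1
  have e2 : 196608 * Q₁ ^ 2 ≤ R := by
    have := h.Qsq
    nlinarith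
  have e3 := h.MXp (c := 1) (k := 5) (by norm_num) zero_le_one (by linarith [h.A1])
  have e4 : X ≤ X ^ 2 := by nlinarith [h.X1]
  have hM := h.M0
  calc 196608 * (M ^ 2 * M ^ 2) * Q₁ ^ 2 = M ^ 4 * (196608 * Q₁ ^ 2) := by ring
    _ ≤ M ^ 4 * M := mul_le_mul_of_nonneg_left (e2.trans h.RM) (by positivity)
    _ = 1 * M ^ 5 := by ring
    _ ≤ X := e3
    _ ≤ X ^ 2 := e4

/-- (n2), (n2b) -/
lemma n2 {κ CL lN d : ℝ} (hκ : 0 < κ) (hκ1 : κ ≤ 1) (hCL : 0 ≤ CL) (hl0 : 0 ≤ lN)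
    (hl : lN ≤ CL * g) (hd : d = 8 * Xm ^ 2 * (R + 1 / 2 + 2 * (1 + lN) / κ))
    (h1 : 2 * (1 + CL) / κ ≤ A) (h2 : 9437184 * CX ^ 2 * CQ ^ 2 / κ ≤ A)
    (h3 : 98304 * (3 + CL) * CQ ^ 2 / κ ≤ A) :
    393216 * d * Q₁ ^ 2 ≤ κ * M ^ 2 * X ^ 2 ∧ 98304 * (3 + lN) * Q₁ ^ 2 ≤ κ * X ^ 2 ∧ 0 ≤ d := by
  have hg := h.g1
  have hR := h.R1
  have hX := h.X0
  have e0 : 2 * (1 + lN) / κ ≤ R := by
    have g1 := h.gR (c := 2 * (1 + CL) / κ) (k := 1) (by norm_num) (by positivity) h1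
    rw [pow_one] at g1
    refine le_trans ?_ g1
    rw [div_mul_eq_mul_div]
    apply div_le_div_of_nonneg_right _ hκ.le
    nlinarith
  have e1 : d ≤ 24 * (CX ^ 2 * X ^ 2) * R := by
    rw [hd]
    have g1 : R + 1 / 2 + 2 * (1 + lN) / κ ≤ 3 * R := by linarith
    have g2 := h.Xmsq
    calc 8 * Xm ^ 2 * (R + 1 / 2 + 2 * (1 + lN) / κ) ≤ 8 * Xm ^ 2 * (3 * R) :=
          mul_le_mul_of_nonneg_left g1 (by positivity)
      _ ≤ 8 * (CX ^ 2 * X ^ 2) * (3 * R) := by gcongr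
      _ = _ := by ring
  have hd0 : 0 ≤ d := by
    rw [hd]
    positivity
  refine ⟨?_, ?_, hd0⟩
  · have g1 := h.gR (c := 9437184 * CX ^ 2 * CQ ^ 2 / κ) (k := 4) (by norm_num) (by positivity) h2
    have g2 : 9437184 * CX ^ 2 * (CQ ^ 2 * g ^ 4) ≤ κ * R := by
      have e : 9437184 * CX ^ 2 * (CQ ^ 2 * g ^ 4) =
          κ * (9437184 * CX ^ 2 * CQ ^ 2 / κ * g ^ 4) := by
        field_simp
      rw [e]
      exact mul_le_mul_of_nonneg_left g1 hκ.le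
    have g3 := h.Qsq
    calc 393216 * d * Q₁ ^ 2 ≤ 393216 * (24 * (CX ^ 2 * X ^ 2) * R) * (CQ ^ 2 * g ^ 4) := by
          gcongr
      _ = (9437184 * CX ^ 2 * (CQ ^ 2 * g ^ 4)) * (X ^ 2 * R) := by ring
      _ ≤ (κ * R) * (X ^ 2 * R) := mul_le_mul_of_nonneg_right g2 (by positivity)
      _ = κ * M * X ^ 2 := by
          rw [← h.R2]
          ring
      _ ≤ κ * M ^ 2 * X ^ 2 := by
          have : M ≤ M ^ 2 := by nlinarith [h.M1]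
          gcongr
  · have g1 := h.gR (c := 98304 * (3 + CL) * CQ ^ 2 / κ) (k := 5) (by norm_num) (by positivity) h3
    have g2 : 98304 * (3 + CL) * CQ ^ 2 * g ^ 5 ≤ κ * R := by
      have e : 98304 * (3 + CL) * CQ ^ 2 * g ^ 5 =
          κ * (98304 * (3 + CL) * CQ ^ 2 / κ * g ^ 5) := by
        field_simp
      rw [e]
      exact mul_le_mul_of_nonneg_left g1 hκ.le
    have g3 := h.Qsq
    have g4 : 3 + lN ≤ (3 + CL) * g := by nlinarith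
    calc 98304 * (3 + lN) * Q₁ ^ 2 ≤ 98304 * ((3 + CL) * g) * (CQ ^ 2 * g ^ 4) := by gcongr
      _ = 98304 * (3 + CL) * CQ ^ 2 * g ^ 5 := by ring
      _ ≤ κ * R := g2
      _ ≤ κ * X ^ 2 := by
          have : R ≤ X ^ 2 := by nlinarith [h.RX, h.X1]
          gcongr

lemma q20 : 0 ≤ q := zero_le_one.trans h.q1

lemma qsq : q ^ 2 ≤ 4 * ε ^ (-(2 * C0)) := by
  have h1 := pow_le_pow_left₀ h.q20 h.q2 2
  calc q ^ 2 ≤ (2 * ε ^ (-C0)) ^ 2 := h1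
    _ = 4 * (ε ^ (-C0) * ε ^ (-C0)) := by ring
    _ = _ := by
        rw [← Real.rpow_add h.ε0]
        congr 2
        ring

/-- everything which carries `ε ^ (4 C0)` -/
lemma big {c Z : ℝ} {k : ℕ} (hk : k ≤ 50) (hc0 : 0 ≤ c) (hc : 4 * c ≤ A) (hC : ρ ≤ 2 * C0)
    (hZ : Z ≤ c * X ^ k * q ^ 2 * ε ^ (4 * C0)) : Z ≤ 1 := by
  have hX := h.X0
  have h1 := h.Xε (c := 4 * c) (k := k) hk (by positivity) hc
  have h2 := h.qsq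
  have h3 : 0 < ε ^ (4 * C0) := Real.rpow_pos_of_pos h.ε0 _
  calc Z ≤ c * X ^ k * q ^ 2 * ε ^ (4 * C0) := hZ
    _ ≤ c * X ^ k * (4 * ε ^ (-(2 * C0))) * ε ^ (4 * C0) := by gcongr
    _ = (4 * c * X ^ k) * (ε ^ (-(2 * C0)) * ε ^ (4 * C0)) := by ring
    _ ≤ ε ^ (-ρ) * (ε ^ (-(2 * C0)) * ε ^ (4 * C0)) := by
        have := Real.rpow_pos_of_pos h.ε0 (-(2 * C0))
        exact mul_le_mul_of_nonneg_right h1 (by positivity)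
    _ = ε ^ (2 * C0 - ρ) := by
        rw [← Real.rpow_add h.ε0, ← Real.rpow_add h.ε0]
        congr 1
        ring
    _ ≤ ε ^ (0 : ℝ) := rpow_anti h.ε0 h.ε1 (by linarith)
    _ = 1 := Real.rpow_zero ε

/-- (n3) -/
lemma n3 {LN t₀ : ℝ} (hLN : 0 ≤ LN) (ht : 0 ≤ t₀) (hL : LN * t₀ ≤ 4 * G * ε ^ (4 * C0))
    (hC : ρ ≤ 2 * C0) (hA : 3072 ≤ A) :
    64 * M ^ 4 * LN * M ^ 2 * t₀ * (X ^ 2 / Q₁ ^ 2 * M ^ 2 + 2 * (G * q) ^ 2) ≤ 1 := by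
  have hX := h.X0
  have hX1 := h.X1
  have hM := h.M0
  have hG : 0 < G := zero_lt_one.trans_le h.G1
  have hq := h.q1
  have hq0 : 0 < q := zero_lt_one.trans_le hq
  have hε4 : 0 < ε ^ (4 * C0) := Real.rpow_pos_of_pos h.ε0 _
  refine h.big (c := 768) (k := 18) (by norm_num) (by norm_num) (by linarith) hC ?_
  have g1 : X ^ 2 / Q₁ ^ 2 ≤ X ^ 2 := by
    apply div_le_self (by positivity)
    exact one_le_pow₀ h.Q1
  have g2 : M ^ 2 ≤ X ^ 2 := pow_le_pow_left₀ hM.le h.MX 2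
  have g3 : G ^ 2 ≤ X ^ 8 := by
    have := pow_le_pow_left₀ hG.le h.GX 2
    calc G ^ 2 ≤ (X ^ 4) ^ 2 := this
      _ = X ^ 8 := by ring
  have g4 : X ^ 2 / Q₁ ^ 2 * M ^ 2 + 2 * (G * q) ^ 2 ≤ 3 * (X ^ 8 * q ^ 2) := by
    have f1 : X ^ 2 / Q₁ ^ 2 * M ^ 2 ≤ X ^ 2 * X ^ 2 :=
      mul_le_mul g1 g2 (by positivity) (by positivity)
    have f2 : X ^ 2 * X ^ 2 ≤ X ^ 8 * q ^ 2 := by
      calc X ^ 2 * X ^ 2 = X ^ 4 * 1 := by ring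
        _ ≤ X ^ 8 * q ^ 2 :=
          mul_le_mul (pow_le_pow_right₀ hX1 (by norm_num)) (one_le_pow₀ hq) zero_le_one
            (by positivity)
    have f3 : (G * q) ^ 2 ≤ X ^ 8 * q ^ 2 := by
      rw [mul_pow]
      exact mul_le_mul_of_nonneg_right g3 (by positivity)
    linarith
  have g5 : M ^ 6 ≤ X ^ 6 := pow_le_pow_left₀ hM.le h.MX 6
  calc 64 * M ^ 4 * LN * M ^ 2 * t₀ * (X ^ 2 / Q₁ ^ 2 * M ^ 2 + 2 * (G * q) ^ 2)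
      = 64 * M ^ 6 * (LN * t₀) * (X ^ 2 / Q₁ ^ 2 * M ^ 2 + 2 * (G * q) ^ 2) := by ring
    _ ≤ 64 * X ^ 6 * (4 * G * ε ^ (4 * C0)) * (3 * (X ^ 8 * q ^ 2)) := by
        refine mul_le_mul (mul_le_mul (mul_le_mul_of_nonneg_left g5 (by norm_num)) hL
          (mul_nonneg hLN ht) (by positivity)) g4 (by positivity) (by positivity)
    _ ≤ 64 * X ^ 6 * (4 * X ^ 4 * ε ^ (4 * C0)) * (3 * (X ^ 8 * q ^ 2)) := by
        have := h.GX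
        gcongr
    _ = 768 * X ^ 18 * q ^ 2 * ε ^ (4 * C0) := by ring

/-- (hn) -/
lemma hn {LN t₀ tm B l2 : ℝ} (hLN : 3 ≤ LN) (ht : 0 < t₀) (hL : LN * t₀ ≤ 4 * G * ε ^ (4 * C0))
    (hC : ρ ≤ 2 * C0) (hB0 : 0 ≤ B) (htm : 0 < tm) (htm1 : tm ≤ t₀) (hl : 0 < l2)
    (hB : B * (tm * l2) ≤ 1) (hl2 : l2 * t₀ * q ^ 2 = 1) (hA : 131072 * CX ^ 2 ≤ A) :
    1024 * M ^ 4 * LN * (4 * Xm ^ 2 * tm * (B / 2 + R)) ≤ 1 := by
  have hX := h.X0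
  have hX1 := h.X1
  have hM := h.M0
  have hR := h.R1
  have hG : 0 < G := zero_lt_one.trans_le h.G1
  have hq := h.q1
  have hq0 : 0 < q := zero_lt_one.trans_le hq
  have hε4 : 0 < ε ^ (4 * C0) := Real.rpow_pos_of_pos h.ε0 _
  refine h.big (c := 32768 * CX ^ 2) (k := 11) (by norm_num) (by positivity) (by linarith) hC ?_
  have g1 : tm * B ≤ t₀ * q ^ 2 := by
    have f1 : l2⁻¹ = t₀ * q ^ 2 := by
      rw [inv_eq_iff_eq_inv, ← one_div, eq_div_iff (by positivity)]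
      linarith
    rw [← f1, ← one_div, le_div_iff₀ hl]
    linarith
  have g2 : tm * (B / 2 + R) ≤ 2 * (t₀ * q ^ 2 * R) := by
    have f1 : tm * R ≤ t₀ * q ^ 2 * R := by
      refine mul_le_mul_of_nonneg_right ?_ h.R0.le
      exact htm1.trans (le_mul_of_one_le_right ht.le (one_le_pow₀ hq))
    have f2 : t₀ * q ^ 2 ≤ t₀ * q ^ 2 * R := le_mul_of_one_le_right (by positivity) hR
    have f3 : 0 ≤ t₀ * q ^ 2 := by positivity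
    have e : tm * (B / 2 + R) = tm * B / 2 + tm * R := by ring
    rw [e]
    linarith
  have g3 := h.Xmsq
  have g5 : M ^ 4 ≤ X ^ 4 := pow_le_pow_left₀ hM.le h.MX 4
  have hLN0 : 0 ≤ LN := by linarith
  calc 1024 * M ^ 4 * LN * (4 * Xm ^ 2 * tm * (B / 2 + R))
      = 4096 * M ^ 4 * LN * Xm ^ 2 * (tm * (B / 2 + R)) := by ring
    _ ≤ 4096 * M ^ 4 * LN * (CX ^ 2 * X ^ 2) * (2 * (t₀ * q ^ 2 * R)) := by
        have : 0 ≤ tm * (B / 2 + R) := mul_nonneg htm.le (by positivity)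
        gcongr
    _ = 8192 * CX ^ 2 * (M ^ 4 * X ^ 2 * q ^ 2 * R) * (LN * t₀) := by ring
    _ ≤ 8192 * CX ^ 2 * (X ^ 4 * X ^ 2 * q ^ 2 * X) * (4 * G * ε ^ (4 * C0)) := by
        have := h.RX
        have := mul_nonneg hLN0 ht.le
        gcongr
    _ ≤ 8192 * CX ^ 2 * (X ^ 4 * X ^ 2 * q ^ 2 * X) * (4 * X ^ 4 * ε ^ (4 * C0)) := by
        have := h.GX
        gcongr
    _ = _ := by ring

/-- (hu1) -/
lemma hu1 {t₀ s4 sp L : ℝ} (hA : 147456 ≤ A) (hs : sp ^ 2 = s4) (hL : L = X / R) :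
    36864 * t₀ * M ^ 2 * (2 * (s4 * t₀) / 2 + 2 * (s4 * t₀) * R) ≤ (sp * t₀ * L) ^ 2 := by
  have hX := h.X0
  have hX1 := h.X1
  have hM := h.M0
  have hM1 := h.M1
  have hR := h.R1
  have g1 := h.MXp (c := 147456) (k := 4) (by norm_num) (by norm_num) hA
  have g2 : X ≤ X ^ 2 := by nlinarith
  have g3 : L ^ 2 * M = X ^ 2 := by
    rw [hL, ← h.R2]
    have := h.R0
    field_simp
  have g4 : 73728 * M ^ 2 * (1 / 2 + R) ≤ L ^ 2 := by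
    have f1 : 73728 * M ^ 2 * (1 / 2 + R) * M ≤ L ^ 2 * M := by
      rw [g3]
      calc 73728 * M ^ 2 * (1 / 2 + R) * M ≤ 73728 * M ^ 2 * (2 * M) * M := by
            have f : 1 / 2 + R ≤ 2 * M := by linarith [h.RM]
            gcongr
        _ = 147456 * M ^ 4 := by ring
        _ ≤ X ^ 2 := g1.trans g2
    exact le_of_mul_le_mul_right f1 hM
  have h4 : 0 ≤ s4 * t₀ ^ 2 := by
    rw [← hs]
    positivity
  calc 36864 * t₀ * M ^ 2 * (2 * (s4 * t₀) / 2 + 2 * (s4 * t₀) * R)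
      = (73728 * M ^ 2 * (1 / 2 + R)) * (s4 * t₀ ^ 2) := by ring
    _ ≤ L ^ 2 * (s4 * t₀ ^ 2) := mul_le_mul_of_nonneg_right g4 h4
    _ = _ := by
        rw [← hs]
        ring

/-- everything which carries `ε ^ (2 ρ)` -/
lemma small {c Z : ℝ} {k : ℕ} (hk : k ≤ 50) (hc0 : 0 ≤ c) (hc : 2 ^ 24 * c ≤ A) (hρ : 0 ≤ ρ)
    (hZ : Z ≤ c * X ^ k * ε ^ (2 * ρ)) : Z ≤ 1 / (4 * (2 ^ 11) ^ 2) := by
  have h1 := h.Xε (c := 2 ^ 24 * c) (k := k) hk (by positivity) hc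
  have h3 : 0 < ε ^ (2 * ρ) := Real.rpow_pos_of_pos h.ε0 _
  have h4 : (2 : ℝ) ^ 24 * Z ≤ 1 := by
    calc (2 : ℝ) ^ 24 * Z ≤ 2 ^ 24 * (c * X ^ k * ε ^ (2 * ρ)) :=
          mul_le_mul_of_nonneg_left hZ (by norm_num)
      _ = (2 ^ 24 * c * X ^ k) * ε ^ (2 * ρ) := by ring
      _ ≤ ε ^ (-ρ) * ε ^ (2 * ρ) := mul_le_mul_of_nonneg_right h1 h3.le
      _ = ε ^ ρ := by
          rw [← Real.rpow_add h.ε0]
          congr 1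
          ring
      _ ≤ ε ^ (0 : ℝ) := rpow_anti h.ε0 h.ε1 hρ
      _ = 1 := Real.rpow_zero ε
  have e : (4 * (2 ^ 11) ^ 2 : ℝ) = 2 ^ 24 := by norm_num
  rw [e, le_div_iff₀ (by norm_num)]
  linarith

/-- the trace of the fine form -/
lemma trw {t₀ v Cw : ℝ} (hCw : 0 ≤ Cw) (hv : t₀ * v ≤ Cw * G * G ^ 2 * ε ^ (2 * ρ)) :
    t₀ * v ≤ Cw * X ^ 12 * ε ^ (2 * ρ) := by
  have hG : 0 ≤ G := zero_le_one.trans h.G1
  have h1 : G ^ 3 ≤ X ^ 12 := by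
    have := pow_le_pow_left₀ hG h.GX 3
    calc G ^ 3 ≤ (X ^ 4) ^ 3 := this
      _ = X ^ 12 := by ring
  have h3 : 0 < ε ^ (2 * ρ) := Real.rpow_pos_of_pos h.ε0 _
  calc t₀ * v ≤ Cw * G * G ^ 2 * ε ^ (2 * ρ) := hv
    _ = Cw * G ^ 3 * ε ^ (2 * ρ) := by ring
    _ ≤ _ := by gcongr

/-- (hu2) -/
lemma hu2 {t₀ v Cw : ℝ} (hCw : 0 ≤ Cw) (ht : 0 < t₀) (hv0 : 0 ≤ v)
    (hv : t₀ * v ≤ Cw * G * G ^ 2 * ε ^ (2 * ρ)) (hρ : 0 ≤ ρ)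
    (hA : 2 ^ 24 * (73728 * Cw) ≤ A) :
    36864 * t₀ * M ^ 2 * (v / 2 + v * R) ≤ 1 / (4 * (2 ^ 11) ^ 2) := by
  have hX := h.X0
  have hM := h.M0
  have hR := h.R1
  have hε : 0 < ε ^ (2 * ρ) := Real.rpow_pos_of_pos h.ε0 _
  refine h.small (c := 73728 * Cw) (k := 15) (by norm_num) (by positivity) hA hρ ?_
  have g1 := h.trw hCw hv
  have g2 : M ^ 2 ≤ X ^ 2 := pow_le_pow_left₀ hM.le h.MX 2
  calc 36864 * t₀ * M ^ 2 * (v / 2 + v * R) = 36864 * M ^ 2 * (1 / 2 + R) * (t₀ * v) := by ring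
    _ ≤ 36864 * X ^ 2 * (2 * X) * (Cw * X ^ 12 * ε ^ (2 * ρ)) := by
        have f : 1 / 2 + R ≤ 2 * X := by linarith [h.RX]
        have f2 : 0 ≤ t₀ * v := mul_nonneg ht.le hv0
        gcongr
    _ = _ := by ring

/-- everything against `ε ^ (-(2 (C0 + 1)))` -/
lemma lamB {c Z : ℝ} {k : ℕ} (hk : k ≤ 50) (hc0 : 0 ≤ c) (hc : 4 * c ≤ A) (hρ : ρ ≤ 2)
    (hZ : Z ≤ c * X ^ k * q ^ 2) : Z ≤ ε ^ (-(2 * (C0 + 1))) := by
  have hX := h.X0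
  have h1 := h.Xε (c := 4 * c) (k := k) hk (by positivity) hc
  have h2 := h.qsq
  have h3 : 0 < ε ^ (-(2 * C0)) := Real.rpow_pos_of_pos h.ε0 _
  calc Z ≤ c * X ^ k * q ^ 2 := hZ
    _ ≤ c * X ^ k * (4 * ε ^ (-(2 * C0))) := by gcongr
    _ = (4 * c * X ^ k) * ε ^ (-(2 * C0)) := by ring
    _ ≤ ε ^ (-ρ) * ε ^ (-(2 * C0)) := mul_le_mul_of_nonneg_right h1 h3.le
    _ = ε ^ (-ρ + -(2 * C0)) := by rw [← Real.rpow_add h.ε0]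
    _ ≤ ε ^ (-(2 * (C0 + 1))) := rpow_anti h.ε0 h.ε1 (by linarith)

lemma lam2 {t₀ : ℝ} (ht : 0 < t₀) :
    (√t₀ * ε ^ (-(C0 + 1))) ^ 2 = t₀ * ε ^ (-(2 * (C0 + 1))) := by
  rw [mul_pow, Real.sq_sqrt ht.le]
  congr 1
  rw [← Real.rpow_natCast, ← Real.rpow_mul h.ε0.le]
  congr 1
  push_cast
  ring

/-- (hu3) -/
lemma hu3 {t₀ : ℝ} (ht : 0 < t₀) (hρ : ρ ≤ 2) (hA : 294912 ≤ A) :
    36864 * t₀ * M ^ 2 * ((G * q) ^ 2 / 2 + 1 * R) ≤ (√t₀ * ε ^ (-(C0 + 1))) ^ 2 := by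
  have hX := h.X0
  have hX1 := h.X1
  have hM := h.M0
  have hR := h.R1
  have hq := h.q1
  have hq0 : 0 < q := zero_lt_one.trans_le hq
  have hG : 0 < G := zero_lt_one.trans_le h.G1
  rw [h.lam2 ht]
  have g0 : 36864 * M ^ 2 * ((G * q) ^ 2 / 2 + 1 * R) ≤ ε ^ (-(2 * (C0 + 1))) := by
    refine h.lamB (c := 73728) (k := 10) (by norm_num) (by norm_num) (by linarith) hρ ?_
    have g2 : M ^ 2 ≤ X ^ 2 := pow_le_pow_left₀ hM.le h.MX 2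
    have g3 : G ^ 2 ≤ X ^ 8 := by
      have := pow_le_pow_left₀ hG.le h.GX 2
      calc G ^ 2 ≤ (X ^ 4) ^ 2 := this
        _ = X ^ 8 := by ring
    have g4 : (G * q) ^ 2 / 2 + 1 * R ≤ 2 * (X ^ 8 * q ^ 2) := by
      have f1 : (G * q) ^ 2 ≤ X ^ 8 * q ^ 2 := by
        rw [mul_pow]
        exact mul_le_mul_of_nonneg_right g3 (by positivity)
      have f2 : R ≤ X ^ 8 * q ^ 2 := by
        calc R ≤ X := h.RX
          _ = X ^ 1 * 1 := by ring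
          _ ≤ X ^ 8 * q ^ 2 :=
            mul_le_mul (pow_le_pow_right₀ hX1 (by norm_num)) (one_le_pow₀ hq) zero_le_one
              (by positivity)
      have f3 : 0 ≤ X ^ 8 * q ^ 2 := by positivity
      linarith
    calc 36864 * M ^ 2 * ((G * q) ^ 2 / 2 + 1 * R)
        ≤ 36864 * X ^ 2 * (2 * (X ^ 8 * q ^ 2)) :=
          mul_le_mul (mul_le_mul_of_nonneg_left g2 (by norm_num)) g4 (by positivity)
            (by positivity)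
      _ = _ := by ring
  calc 36864 * t₀ * M ^ 2 * ((G * q) ^ 2 / 2 + 1 * R)
      = t₀ * (36864 * M ^ 2 * ((G * q) ^ 2 / 2 + 1 * R)) := by ring
    _ ≤ _ := mul_le_mul_of_nonneg_left g0 ht.le

end Sc

end

end Vale.Agent.P159.H276
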