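import Vale.Agent.P159.H276.Nu2
import Vale.Agent.P159.H447.Cg1
import Vale.Agent.P159.H730.Apt2

/-!
P159 / numbers of the AP step (helper276), part 3: the typical source (`cA`, `cL`, `cU`, `cΛ`),
the probabilities (`hq`, `hP`), the closure (`hcl`) and `AptN`.
-/

set_option linter.unusedSectionVars false

namespace Vale.Agent.P159.H276

open Vale.Agent.P159.H145 (rpow_anti one_le_rpow_neg)
open Vale.Agent.P159.H447 (cl)

noncomputable section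

namespace Sc

variable {A CQ CX C0 ρ ε g M R X Xm Q₁ G q : ℝ} (h : Sc A CQ CX C0 ρ ε g M R X Xm Q₁ G q)
include h

/-- (cA) -/
lemma cA {b κ1 t₀ tm CL : ℝ} (hb : 0 ≤ b) (hCL : 0 ≤ CL) (ht : 0 < t₀) (htm : tm * M ^ 2 = t₀)
    (hL0 : 0 ≤ κ1) (hL : κ1 ≤ CL * g) (hA : 12288 * (1 + b) ^ 2 * CQ ^ 2 * CX ^ 2 * CL ≤ A) :
    6144 * (1 + b) ^ 2 * Q₁ ^ 2 * (Xm ^ 2 * tm) * κ1 * (R + 1) ≤ X ^ 2 * t₀ := by
  have hX := h.X0
  have hM := h.M0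
  have hR := h.R1
  have hg := h.g1
  have g1 := h.gR (c := 12288 * (1 + b) ^ 2 * CQ ^ 2 * CX ^ 2 * CL) (k := 5) (by norm_num)
    (by positivity) hA
  have htm0 : 0 < tm := by
    by_contra hc
    have : tm * M ^ 2 ≤ 0 := mul_nonpos_of_nonpos_of_nonneg (not_lt.1 hc) (by positivity)
    linarith
  have g2 := h.Qsq
  have g3 := h.Xmsq
  calc 6144 * (1 + b) ^ 2 * Q₁ ^ 2 * (Xm ^ 2 * tm) * κ1 * (R + 1)
      ≤ 6144 * (1 + b) ^ 2 * (CQ ^ 2 * g ^ 4) * (CX ^ 2 * X ^ 2 * tm) * (CL * g) * (2 * R) := by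
        have f : R + 1 ≤ 2 * R := by linarith
        gcongr
    _ = (12288 * (1 + b) ^ 2 * CQ ^ 2 * CX ^ 2 * CL * g ^ 5) * (X ^ 2 * tm * R) := by ring
    _ ≤ R * (X ^ 2 * tm * R) := mul_le_mul_of_nonneg_right g1 (by positivity)
    _ = X ^ 2 * (tm * M) := by
        rw [← h.R2]
        ring
    _ ≤ X ^ 2 * t₀ := by
        refine mul_le_mul_of_nonneg_left ?_ (by positivity)
        rw [← htm]
        have : M ≤ M ^ 2 := by nlinarith [h.M1]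
        exact mul_le_mul_of_nonneg_left this htm0.le

/-- (cL) -/
lemma cL {b κ1 t₀ tm CL s4 sp L : ℝ} (hb : 0 ≤ b) (hCL : 0 ≤ CL) (ht : 0 < t₀)
    (htm : tm * M ^ 2 = t₀) (hL0 : 0 ≤ κ1) (hL : κ1 ≤ CL * g)
    (hA : 74304 * (1 + b) ^ 2 * CX ^ 2 * CL ≤ A) (hs : sp ^ 2 = s4) (hLd : L = X / R) :
    37152 * (1 + b) ^ 2 * (Xm ^ 2 * tm) * (s4 * t₀) * κ1 * (R + 1) ≤ (sp * t₀ * L) ^ 2 := by
  have hX := h.X0
  have hM := h.M0
  have hR := h.R1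
  have hR0 := h.R0
  have hg := h.g1
  have g1 := h.gR (c := 74304 * (1 + b) ^ 2 * CX ^ 2 * CL) (k := 1) (by norm_num)
    (by positivity) hA
  rw [pow_one] at g1
  have htm0 : 0 < tm := by
    by_contra hc
    have : tm * M ^ 2 ≤ 0 := mul_nonpos_of_nonpos_of_nonneg (not_lt.1 hc) (by positivity)
    linarith
  have g3 := h.Xmsq
  have h4 : 0 ≤ s4 * t₀ := by
    rw [← hs]
    positivity
  have g4 : (sp * t₀ * L) ^ 2 = s4 * t₀ * (t₀ * L ^ 2) := by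
    rw [← hs]
    ring
  have g5 : t₀ * L ^ 2 = X ^ 2 * (tm * M) := by
    rw [hLd, ← htm, ← h.R2]
    field_simp
  rw [g4, g5]
  calc 37152 * (1 + b) ^ 2 * (Xm ^ 2 * tm) * (s4 * t₀) * κ1 * (R + 1)
      ≤ 37152 * (1 + b) ^ 2 * (CX ^ 2 * X ^ 2 * tm) * (s4 * t₀) * (CL * g) * (2 * R) := by
        have f : R + 1 ≤ 2 * R := by linarith
        gcongr
    _ = (74304 * (1 + b) ^ 2 * CX ^ 2 * CL * g) * (X ^ 2 * tm * R * (s4 * t₀)) := by ring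
    _ ≤ R * (X ^ 2 * tm * R * (s4 * t₀)) := mul_le_mul_of_nonneg_right g1 (by positivity)
    _ = _ := by
        rw [← h.R2]
        ring

/-- (cU) -/
lemma cU {t₀ tm τ v Cw : ℝ} (hCw : 0 ≤ Cw) (ht : 0 < t₀) (htm : tm * M ^ 2 = t₀) (hτ0 : 0 < τ)
    (hτ : τ ≤ 4 * t₀) (hv0 : 0 ≤ v) (hv : t₀ * v ≤ Cw * G * G ^ 2 * ε ^ (2 * ρ)) (hρ : 0 ≤ ρ)
    (hA : 2 ^ 24 * (1152 * CX ^ 2 * Cw) ≤ A) :
    36 * (Xm ^ 2 * tm) * ((τ / tm) ^ 2 * v) * (R + 1) ≤ 1 / (4 * (2 ^ 11) ^ 2) := by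
  have hX := h.X0
  have hM := h.M0
  have hR := h.R1
  have hε : 0 < ε ^ (2 * ρ) := Real.rpow_pos_of_pos h.ε0 _
  have htm0 : 0 < tm := by
    by_contra hc
    have : tm * M ^ 2 ≤ 0 := mul_nonpos_of_nonpos_of_nonneg (not_lt.1 hc) (by positivity)
    linarith
  refine h.small (c := 1152 * CX ^ 2 * Cw) (k := 17) (by norm_num) (by positivity) hA hρ ?_
  have g1 := h.trw hCw hv
  have g2 : M ^ 2 ≤ X ^ 2 := pow_le_pow_left₀ hM.le h.MX 2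
  have g3 := h.Xmsq
  have g4 : tm * (τ / tm) ^ 2 ≤ 16 * M ^ 2 * t₀ := by
    have e : tm * (τ / tm) ^ 2 = τ ^ 2 / tm := by
      field_simp
    rw [e, div_le_iff₀ htm0]
    have f1 : τ ^ 2 ≤ (4 * t₀) ^ 2 := pow_le_pow_left₀ hτ0.le hτ 2
    have e2 : 16 * M ^ 2 * t₀ * tm = 16 * t₀ * (tm * M ^ 2) := by ring
    rw [e2, htm]
    linarith
  have hv' : 0 ≤ t₀ * v := mul_nonneg ht.le hv0
  calc 36 * (Xm ^ 2 * tm) * ((τ / tm) ^ 2 * v) * (R + 1)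
      = 36 * Xm ^ 2 * (R + 1) * v * (tm * (τ / tm) ^ 2) := by ring
    _ ≤ 36 * Xm ^ 2 * (R + 1) * v * (16 * M ^ 2 * t₀) :=
        mul_le_mul_of_nonneg_left g4 (by positivity)
    _ = 576 * Xm ^ 2 * M ^ 2 * (R + 1) * (t₀ * v) := by ring
    _ ≤ 576 * (CX ^ 2 * X ^ 2) * X ^ 2 * (2 * X) * (Cw * X ^ 12 * ε ^ (2 * ρ)) := by
        have f : R + 1 ≤ 2 * X := by linarith [h.RX, h.X1]
        gcongr
    _ = _ := by ring

/-- (cΛ) -/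
lemma cLam {t₀ tm τ : ℝ} (ht : 0 < t₀) (htm : tm * M ^ 2 = t₀) (hτ0 : 0 < τ)
    (hτ : τ ≤ 4 * t₀) (hρ : ρ ≤ 2) (hA : 4608 * CX ^ 2 ≤ A) :
    36 * (Xm ^ 2 * tm) * ((τ / tm) ^ 2 * (G * q) ^ 2) * (R + 1) ≤
      (√t₀ * ε ^ (-(C0 + 1))) ^ 2 := by
  have hX := h.X0
  have hM := h.M0
  have hR := h.R1
  have hG : 0 < G := zero_lt_one.trans_le h.G1
  have hq0 : 0 < q := zero_lt_one.trans_le h.q1
  rw [h.lam2 ht]
  have htm0 : 0 < tm := by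
    by_contra hc
    have : tm * M ^ 2 ≤ 0 := mul_nonpos_of_nonpos_of_nonneg (not_lt.1 hc) (by positivity)
    linarith
  have g2 : M ^ 2 ≤ X ^ 2 := pow_le_pow_left₀ hM.le h.MX 2
  have g3 := h.Xmsq
  have g4 : tm * (τ / tm) ^ 2 ≤ 16 * M ^ 2 * t₀ := by
    have e : tm * (τ / tm) ^ 2 = τ ^ 2 / tm := by
      field_simp
    rw [e, div_le_iff₀ htm0]
    have f1 : τ ^ 2 ≤ (4 * t₀) ^ 2 := pow_le_pow_left₀ hτ0.le hτ 2
    have e2 : 16 * M ^ 2 * t₀ * tm = 16 * t₀ * (tm * M ^ 2) := by ring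
    rw [e2, htm]
    linarith
  have g5 : G ^ 2 ≤ X ^ 8 := by
    have := pow_le_pow_left₀ hG.le h.GX 2
    calc G ^ 2 ≤ (X ^ 4) ^ 2 := this
      _ = X ^ 8 := by ring
  have g0 : 1152 * CX ^ 2 * X ^ 13 * q ^ 2 ≤ ε ^ (-(2 * (C0 + 1))) :=
    h.lamB (c := 1152 * CX ^ 2) (k := 13) (by norm_num) (by positivity) (by linarith) hρ le_rfl
  calc 36 * (Xm ^ 2 * tm) * ((τ / tm) ^ 2 * (G * q) ^ 2) * (R + 1)
      = 36 * Xm ^ 2 * (R + 1) * (G * q) ^ 2 * (tm * (τ / tm) ^ 2) := by ring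
    _ ≤ 36 * Xm ^ 2 * (R + 1) * (G * q) ^ 2 * (16 * M ^ 2 * t₀) :=
        mul_le_mul_of_nonneg_left g4 (by positivity)
    _ = t₀ * (576 * Xm ^ 2 * M ^ 2 * (R + 1) * (G ^ 2 * q ^ 2)) := by ring
    _ ≤ t₀ * (576 * (CX ^ 2 * X ^ 2) * X ^ 2 * (2 * X) * (X ^ 8 * q ^ 2)) := by
        have f : R + 1 ≤ 2 * X := by linarith [h.RX, h.X1]
        gcongr
    _ = t₀ * (1152 * CX ^ 2 * X ^ 13 * q ^ 2) := by ring
    _ ≤ t₀ * ε ^ (-(2 * (C0 + 1))) := mul_le_mul_of_nonneg_left g0 ht.le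

/-- the total probability -/
lemma ptot {κ : ℝ} (hκ : 0 < κ) (hQ0 : 393216 * CQ ^ 2 / κ ≤ A) (hρ : ρ ≤ 1)
    (hE : Real.exp (-R) ≤ ε ^ (2 : ℝ)) (hXm : R ≤ 8 * Xm ^ 2) :
    G ^ 2 * (5 * Real.exp (-(κ * (X ^ 2 / Q₁ ^ 2) / (393216 * M ^ 2)))) +
      (G ^ 4 + 2) * (2 * Real.exp (-R)) + Real.exp 1 * (6 * Real.exp (-(8 * Xm ^ 2))) ≤ ε ∧
    6 * G ^ 4 * Real.exp (-R) + 2 * Real.exp (-R) ≤ ε := by
  have hX := h.X0
  have hM := h.M0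
  have hR := h.R1
  have hR0 := h.R0
  have hQ : 0 < Q₁ := zero_lt_one.trans_le h.Q1
  have hG1 := h.G1
  have hG4 : 1 ≤ G ^ 4 := one_le_pow₀ hG1
  have hG24 : G ^ 2 ≤ G ^ 4 := pow_le_pow_right₀ hG1 (by norm_num)
  have e1 : R ≤ κ * (X ^ 2 / Q₁ ^ 2) / (393216 * M ^ 2) := by
    rw [le_div_iff₀ (by positivity), ← mul_div_assoc, le_div_iff₀ (by positivity)]
    have g1 := h.gR (c := 393216 * CQ ^ 2 / κ) (k := 4) (by norm_num) (by positivity) hQ0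
    have g2 : 393216 * (CQ ^ 2 * g ^ 4) ≤ κ * R := by
      have e : 393216 * (CQ ^ 2 * g ^ 4) = κ * (393216 * CQ ^ 2 / κ * g ^ 4) := by
        field_simp
      rw [e]
      exact mul_le_mul_of_nonneg_left g1 hκ.le
    have g3 := h.MXp (c := 1) (k := 3) (by norm_num) zero_le_one (by linarith [h.A1])
    have g4 := h.Qsq
    calc R * (393216 * M ^ 2) * Q₁ ^ 2 ≤ R * (393216 * M ^ 2) * (CQ ^ 2 * g ^ 4) := by gcongr
      _ = (393216 * (CQ ^ 2 * g ^ 4)) * (R * M ^ 2) := by ring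
      _ ≤ (κ * R) * (R * M ^ 2) := mul_le_mul_of_nonneg_right g2 (by positivity)
      _ = κ * (1 * M ^ 3) := by
          rw [← h.R2]
          ring
      _ ≤ κ * X := mul_le_mul_of_nonneg_left g3 hκ.le
      _ ≤ κ * X ^ 2 := mul_le_mul_of_nonneg_left (by nlinarith [h.X1]) hκ.le
  obtain ⟨z, hz⟩ : ∃ z : ℝ, z = Real.exp (-R) := ⟨_, rfl⟩
  have hz0 : 0 < z := by
    rw [hz]
    exact Real.exp_pos _
  have a1 : Real.exp (-(κ * (X ^ 2 / Q₁ ^ 2) / (393216 * M ^ 2))) ≤ z := by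
    rw [hz]
    exact Real.exp_le_exp.2 (neg_le_neg e1)
  have a2 : Real.exp (-(8 * Xm ^ 2)) ≤ z := by
    rw [hz]
    exact Real.exp_le_exp.2 (neg_le_neg hXm)
  have a3 : Real.exp 1 ≤ 3 := by
    have := Real.exp_one_lt_d9
    linarith
  have a4 : 30 * G ^ 4 * z ≤ ε := by
    have g1 : G ^ 4 ≤ X ^ 16 := by
      have := pow_le_pow_left₀ (zero_le_one.trans hG1) h.GX 4
      calc G ^ 4 ≤ (X ^ 4) ^ 4 := this
        _ = X ^ 16 := by ring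
    have g2 := h.Xε (c := 30) (k := 16) (by norm_num) (by norm_num) (by linarith [h.A1])
    rw [hz]
    have h3 : 0 < ε ^ (-ρ) := Real.rpow_pos_of_pos h.ε0 _
    calc 30 * G ^ 4 * Real.exp (-R) ≤ (30 * X ^ 16) * ε ^ (2 : ℝ) :=
          mul_le_mul (mul_le_mul_of_nonneg_left g1 (by norm_num)) hE (Real.exp_pos _).le
            (by positivity)
      _ ≤ ε ^ (-ρ) * ε ^ (2 : ℝ) :=
          mul_le_mul_of_nonneg_right g2 (Real.rpow_pos_of_pos h.ε0 _).le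
      _ = ε ^ (-ρ + 2) := by rw [← Real.rpow_add h.ε0]
      _ ≤ ε ^ (1 : ℝ) := rpow_anti h.ε0 h.ε1 (by linarith)
      _ = ε := Real.rpow_one ε
  rw [← hz]
  have b1 : G ^ 2 * (5 * Real.exp (-(κ * (X ^ 2 / Q₁ ^ 2) / (393216 * M ^ 2)))) ≤
      G ^ 4 * (5 * z) :=
    mul_le_mul hG24 (by linarith) (by positivity) (by positivity)
  have b2 : Real.exp 1 * (6 * Real.exp (-(8 * Xm ^ 2))) ≤ 3 * (6 * z) :=
    mul_le_mul a3 (by linarith) (by positivity) (by norm_num)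
  have b3 : z ≤ G ^ 4 * z := le_mul_of_one_le_left hz0.le hG4
  constructor
  · nlinarith
  · nlinarith

/-- the closure -/
lemma clos {t₀ tm τ r2 D₄ : ℝ} (ht : 0 < t₀) (htm : tm * M ^ 2 = t₀) (hτ0 : 0 < τ)
    (hτ : τ ≤ 4 * t₀) (hr2 : r2 = G) (hD : D₄ = 2 * ε * r2 ^ 2 / τ ^ 2) (hρ : ρ ≤ 1 / 4)
    (hA : 26214400 * CX ^ 4 ≤ A) :
    cl 10 (819200 * Xm ^ 4 * ((τ ^ 2 / tm) ^ 2 * D₄)) ≤ 8 * ε ^ (1 / 2 : ℝ) := by
  have hX := h.X0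
  have hM := h.M0
  have hG : 0 < G := zero_lt_one.trans_le h.G1
  have hε := h.ε0
  have htm0 : 0 < tm := by
    by_contra hc
    have : tm * M ^ 2 ≤ 0 := mul_nonpos_of_nonpos_of_nonneg (not_lt.1 hc) (by positivity)
    linarith
  have g4 : (τ / tm) ^ 2 ≤ 16 * M ^ 4 := by
    have f1 : τ / tm ≤ 4 * M ^ 2 := by
      rw [div_le_iff₀ htm0]
      calc τ ≤ 4 * t₀ := hτ
        _ = 4 * M ^ 2 * tm := by
            rw [← htm]
            ring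
    have := pow_le_pow_left₀ (by positivity) f1 2
    calc (τ / tm) ^ 2 ≤ (4 * M ^ 2) ^ 2 := this
      _ = _ := by ring
  have g5 : Xm ^ 4 ≤ CX ^ 4 * X ^ 4 := by
    have := pow_le_pow_left₀ h.Xm0.le h.Xm1 4
    calc Xm ^ 4 ≤ (CX * X) ^ 4 := this
      _ = _ := by ring
  have g6 : G ^ 2 ≤ X ^ 8 := by
    have := pow_le_pow_left₀ hG.le h.GX 2
    calc G ^ 2 ≤ (X ^ 4) ^ 2 := this
      _ = X ^ 8 := by ring
  have g7 : M ^ 4 ≤ X ^ 4 := pow_le_pow_left₀ hM.le h.MX 4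
  have hZ : 819200 * Xm ^ 4 * ((τ ^ 2 / tm) ^ 2 * D₄) ≤ ε ^ (3 / 4 : ℝ) := by
    have g1 := h.Xε (c := 26214400 * CX ^ 4) (k := 16) (by norm_num) (by positivity) hA
    rw [hD, hr2]
    calc 819200 * Xm ^ 4 * ((τ ^ 2 / tm) ^ 2 * (2 * ε * G ^ 2 / τ ^ 2))
        = 1638400 * Xm ^ 4 * G ^ 2 * ε * (τ / tm) ^ 2 := by
          field_simp
          ring
      _ ≤ 1638400 * (CX ^ 4 * X ^ 4) * X ^ 8 * ε * (16 * X ^ 4) := by
          have : (τ / tm) ^ 2 ≤ 16 * X ^ 4 := g4.trans (by linarith)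
          gcongr
      _ = (26214400 * CX ^ 4 * X ^ 16) * ε := by ring
      _ ≤ ε ^ (-ρ) * ε := mul_le_mul_of_nonneg_right g1 hε.le
      _ = ε ^ (-ρ + 1) := by
          rw [Real.rpow_add hε, Real.rpow_one]
      _ ≤ ε ^ (3 / 4 : ℝ) := rpow_anti hε h.ε1 (by linarith)
  unfold H447.cl
  refine mul_le_mul_of_nonneg_left ?_ (by norm_num)
  have f1 : √(819200 * Xm ^ 4 * ((τ ^ 2 / tm) ^ 2 * D₄)) ≤ ε ^ (3 / 8 : ℝ) := by
    rw [Real.sqrt_le_left (Real.rpow_nonneg hε.le _)]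
    refine hZ.trans (le_of_eq ?_)
    rw [← Real.rpow_natCast, ← Real.rpow_mul hε.le]
    norm_num
  have f2 : (4 / 3 : ℝ) ≤ 2 - 2 * (1 / 2 : ℝ) ^ 10 := by norm_num
  calc √(819200 * Xm ^ 4 * ((τ ^ 2 / tm) ^ 2 * D₄)) ^ (2 - 2 * (1 / 2 : ℝ) ^ 10)
      ≤ (ε ^ (3 / 8 : ℝ)) ^ (2 - 2 * (1 / 2 : ℝ) ^ 10) :=
        Real.rpow_le_rpow (Real.sqrt_nonneg _) f1 (by linarith)
    _ ≤ (ε ^ (3 / 8 : ℝ)) ^ (4 / 3 : ℝ) :=
        Real.rpow_le_rpow_of_exponent_ge (Real.rpow_pos_of_pos hε _)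
          (Real.rpow_le_one hε.le h.ε1 (by norm_num)) f2
    _ = ε ^ (1 / 2 : ℝ) := by
        rw [← Real.rpow_mul hε.le]
        norm_num

/-- the torus against the activity -/
lemma osc {Y : ℝ} (hY0 : 0 ≤ Y) (hY : Y ^ 2 ≤ ε) (hρ : ρ ≤ 1 / 4) :
    32 * (G ^ 2 * max Y ε) ≤ 1 := by
  have hX := h.X0
  have hG : 0 < G := zero_lt_one.trans_le h.G1
  have hε := h.ε0
  have g6 : G ^ 2 ≤ X ^ 8 := by
    have := pow_le_pow_left₀ hG.le h.GX 2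
    calc G ^ 2 ≤ (X ^ 4) ^ 2 := this
      _ = X ^ 8 := by ring
  have g1 := h.Xε (c := 32) (k := 8) (by norm_num) (by norm_num) (by linarith [h.A1])
  have g2 : max Y ε ≤ ε ^ (1 / 2 : ℝ) := by
    refine max_le ?_ ?_
    · have : Y ≤ √ε := Real.le_sqrt_of_sq_le hY
      rwa [Real.sqrt_eq_rpow] at this
    · calc ε = ε ^ (1 : ℝ) := (Real.rpow_one ε).symm
        _ ≤ ε ^ (1 / 2 : ℝ) := rpow_anti hε h.ε1 (by norm_num)
  have g3 : 0 ≤ max Y ε := hY0.trans (le_max_left _ _)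
  calc 32 * (G ^ 2 * max Y ε) ≤ 32 * (X ^ 8 * ε ^ (1 / 2 : ℝ)) := by gcongr
    _ = (32 * X ^ 8) * ε ^ (1 / 2 : ℝ) := by ring
    _ ≤ ε ^ (-ρ) * ε ^ (1 / 2 : ℝ) :=
        mul_le_mul_of_nonneg_right g1 (Real.rpow_pos_of_pos hε _).le
    _ = ε ^ (-ρ + 1 / 2) := by rw [← Real.rpow_add hε]
    _ ≤ ε ^ (0 : ℝ) := rpow_anti hε h.ε1 (by linarith)
    _ = 1 := Real.rpow_zero ε

/-- the fields of `AptN` -/
lemma apt {K2 : ℝ} {D : ℕ} {L : ℝ} (hK2 : 0 ≤ K2) (hD : (D : ℝ) ≤ (K2 + 1) * g)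
    (hL : L = X / R) (hA : 2 ^ 16 * (4 * K2 + 5) ^ 3 ≤ A) (hρ : ρ ≤ 1 / 40) :
    2 * H730.QD D * max 1 (2 * 2 ^ 11 * L * D) ≤ X ∧
    G ^ 2 * (2 * 2 ^ 11 * L * G + 3) ≤ ε ^ (-(1 / 40) : ℝ) ∧ 0 ≤ L := by
  have hX := h.X0
  have hX1 := h.X1
  have hM := h.M0
  have hR := h.R1
  have hR0 := h.R0
  have hG : 0 < G := zero_lt_one.trans_le h.G1
  have hε := h.ε0
  have hg := h.g1
  have hL0 : 0 ≤ L := by
    rw [hL]
    positivity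
  have hLX : L ≤ X := by
    rw [hL]
    exact div_le_self hX.le hR
  obtain ⟨c, hc⟩ : ∃ c : ℝ, c = 4 * K2 + 5 := ⟨_, rfl⟩
  have hc5 : 5 ≤ c := by linarith
  rw [← hc] at hA
  have hD1 : 4 * (D : ℝ) + 1 ≤ c * g := by
    rw [hc]
    nlinarith
  have hDg : (D : ℝ) ≤ c * g := by
    have : (0 : ℝ) ≤ D := Nat.cast_nonneg D
    linarith
  have hQD : H730.QD D ≤ 8 * (c ^ 2 * g ^ 2) := by
    unfold H730.QD
    have := pow_le_pow_left₀ (by positivity) hD1 2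
    calc 8 * (4 * (D : ℝ) + 1) ^ 2 ≤ 8 * (c * g) ^ 2 := by linarith
      _ = _ := by ring
  have hQ0 : 0 < H730.QD D := H730.QD_pos D
  refine ⟨?_, ?_, hL0⟩
  · have hmax : max 1 (2 * 2 ^ 11 * L * D) ≤ 2 * 2 ^ 11 * (X / R) * (c * g) := by
      refine max_le ?_ ?_
      · have h1 : 1 ≤ X / R := by
          rw [le_div_iff₀ hR0, one_mul]
          exact h.RX
        have h2 : 1 ≤ c * g := by nlinarith
        have h3 : 1 ≤ (X / R) * (c * g) := one_le_mul_of_one_le_of_one_le h1 h2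
        have e : 2 * 2 ^ 11 * (X / R) * (c * g) = 4096 * ((X / R) * (c * g)) := by ring
        rw [e]
        linarith
      · rw [hL]
        exact mul_le_mul_of_nonneg_left hDg (by positivity)
    have g1 := h.gR (c := 2 ^ 16 * c ^ 3) (k := 3) (by norm_num) (by positivity) hA
    have hc0 : 0 < c := by linarith
    calc 2 * H730.QD D * max 1 (2 * 2 ^ 11 * L * D)
        ≤ 2 * (8 * (c ^ 2 * g ^ 2)) * (2 * 2 ^ 11 * (X / R) * (c * g)) := by gcongr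
      _ = (2 ^ 16 * c ^ 3 * g ^ 3) * (X / R) := by ring
      _ ≤ R * (X / R) := mul_le_mul_of_nonneg_right g1 (by positivity)
      _ = X := by field_simp
  · have g6 : G ^ 3 ≤ X ^ 12 := by
      have := pow_le_pow_left₀ hG.le h.GX 3
      calc G ^ 3 ≤ (X ^ 4) ^ 3 := this
        _ = X ^ 12 := by ring
    have g1 : 1728 * M ^ 1 ≤ X := h.MXp (c := 1728) (k := 1) (by norm_num) (by norm_num) h.A1
    have gX : 1728 ≤ X := by
      rw [pow_one] at g1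
      have := h.M1
      linarith
    have g2 := h.Xε (c := 1) (k := 14) (by norm_num) zero_le_one (by linarith [h.A1])
    rw [one_mul] at g2
    have g3 : G ^ 2 ≤ G ^ 3 := pow_le_pow_right₀ h.G1 (by norm_num)
    calc G ^ 2 * (2 * 2 ^ 11 * L * G + 3) = 4096 * G ^ 3 * L + 3 * G ^ 2 := by ring
      _ ≤ 4096 * X ^ 12 * X + 3 * (X ^ 12 * X) := by
          have f1 : 4096 * G ^ 3 * L ≤ 4096 * X ^ 12 * X := by gcongr
          have f2 : G ^ 2 ≤ X ^ 12 * X := (g3.trans g6).trans (le_mul_of_one_le_right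
            (by positivity) hX1)
          linarith
      _ = 4099 * X ^ 13 := by ring
      _ ≤ ε ^ (-ρ) :=
          h.Xε (c := 4099) (k := 13) (by norm_num) (by norm_num) (by nlinarith)
      _ ≤ ε ^ (-(1 / 40) : ℝ) := rpow_anti hε h.ε1 (by linarith)

end Sc

end

end Vale.Agent.P159.H276
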