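import Vale.Agent.P159.H276.Te3
import Vale.Agent.P159.H276.Eta3
import Vale.Agent.P159.H816.Zs2

/-!
P159 / typical source of the AP step (helper276), part 4: the class `H816.clsG`.

Blocks of side `2 ^ n` (`nb = 2 ^ (r - n)`, `q = 2 ^ (n - s)` cells), ball conditions: differences of
the block means of neighbour blocks (S2), the quadratic form `W₃` (S3) and the norm.
* `neu_FG`, `neu_sqW` : neutrality of the rows;
* `te_clsG`           : `P(¬ MeanOK) ≤ 6 nb ^ 4 exp (- Y)`.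
-/

set_option linter.unusedSectionVars false

namespace Vale.Agent.P159.H276

open Finset Matrix MeasureTheory ProbabilityTheory
open Vale.Agent.P159.H37
open Vale.Agent.P159.TM.H764 (EE nrm)
open Vale.Agent.P159.TM.Spec (V)
open Vale.Agent.P159.TM.H459 (sd bk)
open Vale.Agent.P159.H864 (TI sym fc ti_fc sym_fc cobV)
open Vale.Agent.P159.H963 (Neu Pn nMC nwt Gnc obsN)
open Vale.Agent.P159.H972 (tn)
open Vale.Agent.P159.H663 (TC bE rsC rowM)
open Vale.Agent.P159.H816 (bS av Jx FG uG clsG)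

noncomputable section

section rows

variable {n : ℕ} [NeZero n]

/-- rows of a translation invariant matrix without zero mode -/
lemma neu_row {S : Matrix (V n) (V n) ℝ} (hS : TI S) (h0 : sym S 0 = 0) (w : V n) :
    Neu (S w) := by
  have h1 : ∀ x, S w x = (S *ᵥ Pi.single w 1) x := by
    intro x
    rw [mulVec_single_one]
    show S w x = S x w
    conv_lhs => rw [← hS.transpose]
    rfl
  show ∑ x, S w x = 0
  rw [Finset.sum_congr rfl fun x _ => h1 x, H663.ti_sum hS, h0, zero_mul]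

/-- rows of a product with the neutral projection -/
lemma neu_row_Pn {W : Type*} [Fintype W] (S : Matrix W (V n) ℝ) (w : W) :
    Neu ((S * (Pn : Matrix (V n) (V n) ℝ)) w) := by
  have h1 : (S * (Pn : Matrix (V n) (V n) ℝ)) w = (Pn : Matrix (V n) (V n) ℝ) *ᵥ (S w) := by
    funext z
    rw [Matrix.mul_apply]
    unfold mulVec dotProduct
    refine Finset.sum_congr rfl fun y _ => ?_
    have : (Pn : Matrix (V n) (V n) ℝ) y z = (Pn : Matrix (V n) (V n) ℝ) z y := by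
      conv_lhs => rw [← H963.Pn_transpose]
      rfl
    rw [this, mul_comm]
  rw [h1]
  exact H963.neu_Pn _

lemma neu_FG {nb q : ℕ} [NeZero nb] (hq : 0 < q) (hn : n = nb * q)
    {T W₃ : Matrix (V n) (V n) ℝ} (hT : TC T) (hW : ∀ w, Neu (W₃ w)) (j : Jx nb) (w : V n) :
    Neu (FG n nb q T W₃ j w) := by
  rcases j with p | c
  · exact H663.rowM_neu (H816.neu_av hq hn hT _ _) w
  · cases c
    · exact neu_row_Pn T w
    · exact hW w

end rows

lemma neu_sqW {N l : ℕ} [NeZero N] [NeZero (N / l)] {b t τ : ℝ} (hb : 0 < b) (hl : l ∣ N)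
    (ht : 0 < t) (h : t ≤ τ) (w : V (N / l)) : Neu (sqW N l b t τ w) := by
  refine neu_row (ti_sqW t τ) ?_ w
  unfold sqW
  rw [sym_fc, sym_Wt_zero hb hl ht h, Real.sqrt_zero]

/-! ### geometry -/

/-- cells of neighbour blocks -/
lemma nrm_av {n nb q : ℕ} [NeZero n] [NeZero nb] (hq : 0 < q) (hn : n = nb * q)
    {β β' : V nb} (hβ : sd β β' ≤ 1) {x y : V n} (hx : x ∈ bS n nb q β)
    (hy : av n nb q β' y ≠ 0) : nrm (y - x) ≤ 2 * q := by
  have h1 : y ∈ bS n nb q β' := by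
    by_contra hc
    refine hy ?_
    unfold H816.av
    rw [H816.ib_eq, if_neg hc, mul_zero]
  have e1 : bk nb q x = β := by
    unfold H816.bS at hx
    simpa using hx
  have e2 : bk nb q y = β' := by
    unfold H816.bS at h1
    simpa using h1
  have h2 := TM.H459.le_bk (n := nb) hq hn x y
  rw [e1, e2] at h2
  have h3 : nrm (y - x) = sd x y := rfl
  rw [h3]
  have h4 : q * sd β β' ≤ q * 1 := Nat.mul_le_mul_left q hβ
  omega

lemma exists_bS {n nb q : ℕ} [NeZero n] [NeZero nb] (hq : 0 < q) (hn : n = nb * q) (β : V nb) :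
    ∃ x, x ∈ bS n nb q β := by
  have h1 := H816.card_bS (n := n) hq hn β
  have h2 : 0 < (bS n nb q β).card := by
    have h3 : (0 : ℝ) < (q : ℝ) ^ 2 := by positivity
    rw [← h1] at h3
    exact_mod_cast h3
  exact Finset.card_pos.1 h2

lemma card_V' (n : ℕ) [NeZero n] : Fintype.card (V n) = n ^ 2 := by
  have : Fintype.card (V n) = Fintype.card (ZMod n) * Fintype.card (ZMod n) :=
    Fintype.card_prod _ _
  rw [this, ZMod.card]
  ring

lemma card_Jx (nb : ℕ) [NeZero nb] : Fintype.card (Jx nb) ≤ nb ^ 4 + 2 := by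
  have h1 : Fintype.card (Jx nb) =
      Fintype.card {p : V nb × V nb // sd p.1 p.2 ≤ 1} + Fintype.card Bool :=
    Fintype.card_sum
  have h2 : Fintype.card {p : V nb × V nb // sd p.1 p.2 ≤ 1} ≤ Fintype.card (V nb × V nb) :=
    Fintype.card_subtype_le _
  have h3 : Fintype.card (V nb × V nb) = nb ^ 4 := by
    rw [Fintype.card_prod, card_V']
    ring
  rw [h1, Fintype.card_bool]
  omega

/-- trace of a contraction of the neutral projection -/
lemma tr_TPn {N l : ℕ} [NeZero N] [NeZero (N / l)] {T : Matrix (V (N / l)) (V (N / l)) ℝ}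
    (hT : TC T) :
    ((T * (Pn : Matrix (V (N / l)) (V (N / l)) ℝ)) *
      (T * (Pn : Matrix (V (N / l)) (V (N / l)) ℝ))ᵀ).trace ≤ ((N / l : ℕ) : ℝ) ^ 2 := by
  have hP : TI (Pn : Matrix (V (N / l)) (V (N / l)) ℝ) := H963.ti_Pn
  have hTP := hT.ti.mul hP
  have h1 := sum_tr_le (K := T * (Pn : Matrix (V (N / l)) (V (N / l)) ℝ)) (A := 1)
    (fun φ => by
      rw [hTP.transpose]
      refine sq_ti hTP (fun k => ?_) φ
      rw [H864.sym_mul hT.ti hP, H963.sym_Pn]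
      split_ifs
      · norm_num
      · rw [mul_one]
        exact hT.sq_le k) (1 : Matrix (V (N / l)) (V (N / l)) ℝ)
  rw [one_mul, transpose_one, mul_one, one_mul, Matrix.trace_one, card_V'] at h1
  refine h1.trans (le_of_eq ?_)
  push_cast
  rfl

/-- **the typical source in the class of `H816`** -/
theorem te_clsG {b : ℝ} (hb : 0 < b) {n r s : ℕ} [NeZero (2 ^ r / 2 ^ s)] [NeZero (2 ^ (r - n))]
    (hsn : s ≤ n) (hnr : n ≤ r) {t s' : ℝ} (ht1 : t ≤ 4 * tn n) (hs : 0 < s') (h : s' < t)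
    {T W₃ : Matrix (V (2 ^ r / 2 ^ s)) (V (2 ^ r / 2 ^ s)) ℝ} (hT : TC T)
    (hW : ∀ w, Neu (W₃ w)) {v : ℝ} (hv : 0 < v) (hWv : (W₃ * W₃ᵀ).trace ≤ v)
    {X Q₁ δ Lip u Λ : ℝ} (hX : 0 < X) (hQ : 0 < Q₁)
    (hAP : ∀ β, (gau (V (2 ^ r / 2 ^ s))).real
      {g | δ < rsC (2 ^ r) (2 ^ s) b (tn n) ((X * √(tn n)) •
        (H859.dB (bS (2 ^ r / 2 ^ s) (2 ^ (r - n)) (2 ^ (n - s)) β) *ᵥ g))} ≤ 1 / 30)
    {I : Type*} [Fintype I] {K : Matrix (V (2 ^ r / 2 ^ s)) I ℝ} {a : ℝ}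
    (ha : 0 < a) (hK : ∀ φ : V (2 ^ r / 2 ^ s) → ℝ,
      ∑ i, (Kᵀ *ᵥ φ) i ^ 2 ≤ a ^ 2 * ∑ i, φ i ^ 2)
    (hKn : ∀ g, Neu (K *ᵥ g)) {Y : ℝ} (hY : 0 ≤ Y)
    (cA : 6144 * (1 + b) ^ 2 * Q₁ ^ 2 * a ^ 2 * LL r s s' * (Y + 1) ≤ X ^ 2 * tn n)
    (cL : 37152 * (1 + b) ^ 2 * a ^ 2 * (4 ^ s * tn n) * LL r s s' * (Y + 1) ≤ Lip ^ 2)
    (cU : 36 * a ^ 2 * ((t / s') ^ 2 * v) * (Y + 1) ≤ u)
    (cΛ : 36 * a ^ 2 * ((t / s') ^ 2 * 4 ^ (r - s)) * (Y + 1) ≤ Λ ^ 2) :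
    (gau I).real {g | ¬ MeanOK (2 ^ r) (2 ^ s) b t s' (tn n) Q₁ δ (2 ^ (n - s)) T
      (bS (2 ^ r / 2 ^ s) (2 ^ (r - n)) (2 ^ (n - s)))
      (FG (2 ^ r / 2 ^ s) (2 ^ (r - n)) (2 ^ (n - s)) T W₃) (uG Lip u Λ) (K *ᵥ g)} ≤
      6 * ((2 : ℝ) ^ (r - n)) ^ 4 * Real.exp (-Y) := by
  have hl : 2 ^ s ∣ 2 ^ r := pow_dvd_pow 2 (hsn.trans hnr)
  have hq : 0 < 2 ^ (n - s) := by positivity
  have hn : 2 ^ r / 2 ^ s = 2 ^ (r - n) * 2 ^ (n - s) := by
    rw [Nat.pow_div (hsn.trans hnr) two_pos, ← pow_add]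
    congr 1
    omega
  have hL := one_le_LL r s hs
  have ht0 : 0 < t := hs.trans h
  have ht : 0 < tn n := tn_pos n
  have hts : 0 < t / s' := div_pos ht0 hs
  have h4 : 0 < 4 ^ s * tn n := by positivity
  -- the numbers of the balls
  obtain ⟨R, hR⟩ : ∃ R : Jx (2 ^ (r - n)) → ℝ, R = fun j => Sum.elim
      (fun _ => 1032 * (1 + b) ^ 2 * (4 ^ s * tn n * LL r s s'))
      (fun c : Bool => if c then (t / s') ^ 2 * v else (t / s') ^ 2 * 4 ^ (r - s)) j := ⟨_, rfl⟩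
  have hR0 : ∀ j, 0 < R j := by
    intro j
    rw [hR]
    rcases j with p | c
    · have : 0 < LL r s s' := by linarith
      simp only [Sum.elim_inl]
      positivity
    · cases c
      · simp only [Sum.elim_inr, Bool.false_eq_true, if_false]
        positivity
      · simp only [Sum.elim_inr, if_true]
        positivity
  have hF := neu_FG (n := 2 ^ r / 2 ^ s) hq hn hT hW
  have h2 : ∀ j, ((FG (2 ^ r / 2 ^ s) (2 ^ (r - n)) (2 ^ (n - s)) T W₃ j *
      Hs (2 ^ r) (2 ^ s) b t s') * (FG (2 ^ r / 2 ^ s) (2 ^ (r - n)) (2 ^ (n - s)) T W₃ j *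
      Hs (2 ^ r) (2 ^ s) b t s')ᵀ).trace ≤ R j := by
    intro j
    rw [hR]
    rcases j with p | c
    · obtain ⟨⟨β, β'⟩, hβ⟩ := p
      obtain ⟨x, hx⟩ := exists_bS (n := 2 ^ r / 2 ^ s) hq hn β
      have hβ0 : sd β β ≤ 1 := by
        rw [TM.H459.sd_self]
        exact Nat.zero_le 1
      refine row_num hb hsn hnr ht1 hs h hT x (H816.av_nonneg β) (H816.sum_av hq hn β)
        (H816.av_nonneg β') (H816.sum_av hq hn β')
        (fun y hy => nrm_av hq hn hβ0 hx hy) (fun y hy => nrm_av hq hn hβ hx hy) ?_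
      refine (H816.av_sub_sq hq hn β β').trans ?_
      have g1 := q_pow hsn
      have g2 : (0 : ℝ) < ((2 ^ (n - s) : ℕ) : ℝ) ^ 2 := by positivity
      have g3 : tn n * 4 ^ n = 1 := by
        rw [tn_eq]
        exact inv_mul_cancel₀ (by positivity)
      rw [div_le_iff₀ g2]
      have g4 : 4 * (4 ^ s * tn n) * ((2 ^ (n - s) : ℕ) : ℝ) ^ 2 = 4 := by
        calc 4 * (4 ^ s * tn n) * ((2 ^ (n - s) : ℕ) : ℝ) ^ 2
            = 4 * (tn n * (((2 ^ (n - s) : ℕ) : ℝ) ^ 2 * 4 ^ s)) := by ring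
          _ = 4 := by rw [g1, g3, mul_one]
      rw [g4]
      norm_num
    · cases c
      · simp only [Sum.elim_inr, Bool.false_eq_true, if_false]
        refine (Hs_trace (N := 2 ^ r) (l := 2 ^ s) hb.le hl hs h.le _).trans ?_
        refine mul_le_mul_of_nonneg_left ?_ (sq_nonneg _)
        refine (tr_TPn (N := 2 ^ r) (l := 2 ^ s) hT).trans (le_of_eq ?_)
        rw [Nat.pow_div (hsn.trans hnr) two_pos]
        push_cast
        rw [← pow_mul, mul_comm (r - s) 2, pow_mul]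
        norm_num
      · simp only [Sum.elim_inr, if_true]
        refine (Hs_trace (N := 2 ^ r) (l := 2 ^ s) hb.le hl hs h.le _).trans ?_
        exact mul_le_mul_of_nonneg_left hWv (sq_nonneg _)
  have hu : ∀ j, 36 * a ^ 2 * R j * (Y + 1) ≤ (uG Lip u Λ : Jx (2 ^ (r - n)) → ℝ) j := by
    intro j
    rw [hR]
    rcases j with p | c
    · show 36 * a ^ 2 * (1032 * (1 + b) ^ 2 * (4 ^ s * tn n * LL r s s')) * (Y + 1) ≤ Lip ^ 2
      refine le_trans (le_of_eq ?_) cL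
      ring
    · cases c
      · exact cΛ
      · exact cU
  have h5 := te_num hb hsn hnr ht1 hs h (bS (2 ^ r / 2 ^ s) (2 ^ (r - n)) (2 ^ (n - s)))
    (fun β => (H816.card_bS (n := 2 ^ r / 2 ^ s) hq hn β).le) hT (δ := δ) hX hQ hAP ha hK hKn hY cA
    (FG (2 ^ r / 2 ^ s) (2 ^ (r - n)) (2 ^ (n - s)) T W₃) hF hR0 h2 (uG Lip u Λ) hu
  refine h5.trans (mul_le_mul_of_nonneg_right ?_ (Real.exp_pos _).le)
  have c1 : (Fintype.card (V (2 ^ (r - n))) : ℝ) = ((2 : ℝ) ^ (r - n)) ^ 2 := by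
    rw [card_V']
    push_cast
    rfl
  have c2 : (Fintype.card (Jx (2 ^ (r - n))) : ℝ) ≤ ((2 : ℝ) ^ (r - n)) ^ 4 + 2 := by
    have := card_Jx (2 ^ (r - n))
    exact_mod_cast this
  have c3 : (1 : ℝ) ≤ (2 : ℝ) ^ (r - n) := one_le_pow₀ one_le_two
  have c4 : ((2 : ℝ) ^ (r - n)) ^ 2 ≤ ((2 : ℝ) ^ (r - n)) ^ 4 := pow_le_pow_right₀ c3 (by norm_num)
  have c5 : (1 : ℝ) ≤ ((2 : ℝ) ^ (r - n)) ^ 4 := one_le_pow₀ c3
  rw [c1]
  linarith

end

end Vale.Agent.P159.H276
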