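import Vale.Agent.P159.H276.Nu3
import Vale.Agent.P159.H663.ApA
import Vale.Agent.P159.H730.Apt3

/-!
P159 / numbers of the AP step (helper276), part 4: **`BNum`**, the numeric hypotheses of
`H663.apA`, `H663.om_post`, `H730.cls_tau`, `H789.fam_apTT`, in the letters of the state.
Level `n` at the size `ε`, level `m` at the size `e`, `ε / 2 ≤ e ≤ ε ^ (1 - sg)`, `sg ≤ 1 / 4`.
-/

set_option linter.unusedSectionVars false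

namespace Vale.Agent.P159.H276

open Vale.Agent.P159.H972
open Vale.Agent.P159.H145 (absorb exp_absorb log_le_pow rpow_anti one_le_rpow_neg pow_base
  two_lg_ge two_lg_le)
open Vale.Agent.P159.H447 (cl)
open Vale.Agent.P159.H663 (GN kap kap_pos kap_le pG)
open Vale.Agent.P159.H730 (AptN QD QD_pos)

noncomputable section

/-- ratio of the levels -/
def bM (n m : ℕ) : ℝ := 2 ^ (m - n)

/-- number of the exponential tails -/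
def bR (n m : ℕ) : ℝ := √(2 ^ (m - n))

/-- amplitude at the level `n` -/
def bX (P : Par) (ε : ℝ) : ℝ := 2 ^ P.xE ε / 6

/-- amplitude at the level `m` -/
def bXm (P : Par) (K0 e : ℝ) : ℝ := 100 * (K0 * 2 ^ P.xE e)

/-- distance in blocks -/
def bD (K2 ε : ℝ) : ℕ := ⌈K2 * Real.log (1 / ε)⌉₊

/-- amplitude of the block conditions -/
def bQ (K2 ε : ℝ) : ℝ := 2 * 2 ^ 11 * QD (bD K2 ε)

/-- Lipschitz number -/
def bL (P : Par) (n m : ℕ) (ε : ℝ) : ℝ := bX P ε / bR n m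

/-- bound of the fine form -/
def bu : ℝ := 1 / (4 * (2 ^ 11) ^ 2)

/-- norm of the source -/
def bLam (P : Par) (n : ℕ) (ε : ℝ) : ℝ := √(tn n) * ε ^ (-(P.C0 + 1))

/-- offset -/
def bd (P : Par) (b K0 : ℝ) (n m r s : ℕ) (e : ℝ) : ℝ :=
  8 * bXm P K0 e ^ 2 * (bR n m + 1 / 2 +
    2 * (1 + Real.log (((2 : ℕ) ^ r / 2 ^ s : ℕ) : ℝ)) / kap b)

/-- the fourth cumulant -/
def bD4 (n r : ℕ) (ε τ : ℝ) : ℝ := 2 * ε * (2 ^ r / 2 ^ n) ^ 2 / τ ^ 2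

/-- **the numbers of one AP step** -/
structure BNum (P : Par) (b K0 K2 : ℝ) (n m r s : ℕ) (ε e τ w : ℝ) : Prop where
  G : GN (2 ^ r) (2 ^ s) (2 ^ (n - s - (m - n))) (2 ^ (n - s)) b (tn m) τ (tn n) (bM n m) (bM n m)
    (bX P ε) (bQ K2 ε) (bd P b K0 n m r s e)
  Xm0 : 0 < bXm P K0 e
  R0 : 0 < bR n m
  hn : ∀ c : ℝ, 0 ≤ c → c * (tn m * (((2 ^ s : ℕ)) : ℝ) ^ 2) ≤ 1 →
    1024 * bM n m ^ 4 * (3 + Real.log ((2 ^ r : ℕ) : ℝ)) *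
      (4 * bXm P K0 e ^ 2 * tn m * (c / 2 + bR n m)) ≤ 1
  hu1 : 36864 * tn n * bM n m ^ 2 * (2 / (((2 ^ (n - s) : ℕ)) : ℝ) ^ 2 * (1 / 2 + bR n m)) ≤
    (2 ^ s * tn n * bL P n m ε) ^ 2
  hu2 : 36864 * tn n * bM n m ^ 2 * (w * (1 / 2 + bR n m)) ≤ bu
  hu3 : 36864 * tn n * bM n m ^ 2 * ((((2 : ℕ) ^ r / 2 ^ s : ℕ) : ℝ) ^ 2 / 2 + bR n m) ≤
    bLam P n ε ^ 2
  cA : 6144 * (1 + b) ^ 2 * bQ K2 ε ^ 2 * (bXm P K0 e ^ 2 * tn m) * LL r s (tn m) *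
    (bR n m + 1) ≤ bX P ε ^ 2 * tn n
  cL : 37152 * (1 + b) ^ 2 * (bXm P K0 e ^ 2 * tn m) * (4 ^ s * tn n) * LL r s (tn m) *
    (bR n m + 1) ≤ (2 ^ s * tn n * bL P n m ε) ^ 2
  cU : 36 * (bXm P K0 e ^ 2 * tn m) * ((τ / tn m) ^ 2 * w) * (bR n m + 1) ≤ bu
  cΛ : 36 * (bXm P K0 e ^ 2 * tn m) * ((τ / tn m) ^ 2 * 4 ^ (r - s)) * (bR n m + 1) ≤
    bLam P n ε ^ 2
  hq : pG b n r (bM n m) (bX P ε) (bQ K2 ε) (bR n m) +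
    Real.exp 1 * (6 * Real.exp (-(8 * bXm P K0 e ^ 2))) ≤ ε
  hq1 : ε ≤ 1 / 4
  hcl : cl 10 (819200 * bXm P K0 e ^ 4 * ((τ ^ 2 / tn m) ^ 2 * bD4 n r ε τ)) ≤ 1 / 4
  hP : 6 * ((2 : ℝ) ^ (r - n)) ^ 4 * Real.exp (-(bR n m)) + 2 * Real.exp (-(bR n m)) ≤ 1 / 40
  out : cl 10 (819200 * bXm P K0 e ^ 4 * ((τ ^ 2 / tn m) ^ 2 * bD4 n r ε τ)) + 2 * ε ≤
    e ^ (1 / 6 : ℝ)
  om : ∀ Y : ℝ, 0 ≤ Y → Y ^ 2 ≤ ε → 32 * ((2 ^ (r - n)) ^ 2 * max Y ε) ≤ 1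
  aptN : AptN K2 (2 * P.C0 + 3) ε n r s (bD K2 ε) (2 * 2 ^ 11) (bL P n m ε) (bLam P n ε)
    (2 * ε ^ (1 / 8 : ℝ)) (bX P ε)
  eta : ε ^ (1 / 16 : ℝ) / 2 + (2 ^ 11) ^ 2 * bu ≤ 1
  tor : ((2 : ℝ) ^ P.xE ε) ^ 2 * ε ^ (-(P.th / 400)) ≤ 2 ^ (r - n)

lemma kap_pos' {b : ℝ} (hb : 0 < b) : 0 < kap b := kap_pos hb

lemma LL_le {m r s : ℕ} {ε c : ℝ} (hmr : m ≤ r) (hg : 1 ≤ Lgt ε)
    (h : ((r - s : ℕ) : ℝ) ≤ (14 + 2 * c) * Lgt ε) :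
    0 ≤ LL r s (tn m) ∧ LL r s (tn m) ≤ (16 + 2 * c) * Lgt ε := by
  have h1 : 1 ≤ tn m * 4 ^ r := by
    rw [tn_eq, ← div_eq_inv_mul, le_div_iff₀ (by positivity), one_mul]
    exact pow_le_pow_right₀ (by norm_num) hmr
  have h2 : 1 / (tn m * 4 ^ r) ≤ 1 := by
    rw [div_le_one (by linarith)]
    exact h1
  have h3 : 0 ≤ 1 / (tn m * 4 ^ r) := by positivity
  have h4 : (0 : ℝ) ≤ ((r - s : ℕ) : ℝ) := Nat.cast_nonneg _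
  unfold LL
  constructor
  · linarith
  · nlinarith

lemma sq_tn (n : ℕ) : √(tn n) = ((2 : ℝ) ^ n)⁻¹ := by
  rw [tn_eq, four_pow, Real.sqrt_inv, Real.sqrt_sq (by positivity)]

/-- the standing facts behind `BNum` -/
structure BA (P : Par) (b K0 K2 Cw A CQ CX CL ρ : ℝ) (n m r s : ℕ) (ε e τ w : ℝ) : Prop where
  B : BL P n m r s ε e
  S : Sc A CQ CX P.C0 ρ ε (Lgt ε) (bM n m) (bR n m) (bX P ε) (bXm P K0 e) (bQ K2 ε)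
    (2 ^ (r - n)) (2 ^ (n - s))
  hb : 0 < b
  Cw0 : 0 ≤ Cw
  K20 : 0 ≤ K2
  C01 : 1 ≤ P.C0
  CLd : CL = 16 + 2 * P.C0
  ρ0 : 0 < ρ
  ρ1 : ρ ≤ 1 / 40
  c1 : 196608 * CQ ^ 2 ≤ A
  c2 : 2 * (1 + CL) / kap b ≤ A
  c3 : 9437184 * CX ^ 2 * CQ ^ 2 / kap b ≤ A
  c4 : 98304 * (3 + CL) * CQ ^ 2 / kap b ≤ A
  c5 : 131072 * CX ^ 2 ≤ A
  c6 : 2 ^ 24 * (73728 * Cw) ≤ A
  c7 : 12288 * (1 + b) ^ 2 * CQ ^ 2 * CX ^ 2 * CL ≤ A
  c8 : 74304 * (1 + b) ^ 2 * CX ^ 2 * CL ≤ A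
  c9 : 2 ^ 24 * (1152 * CX ^ 2 * Cw) ≤ A
  c10 : 4608 * CX ^ 2 ≤ A
  c11 : 393216 * CQ ^ 2 / kap b ≤ A
  c12 : 26214400 * CX ^ 4 ≤ A
  c13 : 2 ^ 16 * (4 * K2 + 5) ^ 3 ≤ A
  c14 : 300000 ≤ A
  τ1 : tn n ≤ τ
  τ2 : τ ≤ 4 * tn n
  w0 : 0 < w
  wG : tn n * w ≤ Cw * 2 ^ (r - n) * (2 ^ (r - n)) ^ 2 * ε ^ (2 * ρ)
  ex : Real.exp (-(bR n m)) ≤ ε ^ (2 : ℝ)
  Xm8 : bR n m ≤ 8 * bXm P K0 e ^ 2
  a3 : 32 * ε ^ (1 / 2 : ℝ) ≤ 1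
  a4 : 8192 * ε ^ (2 : ℝ) ≤ 1
  a6 : 20 * ε ^ (1 / 3 : ℝ) ≤ 1
  a7 : ε ≤ 1 / 40
  tor : ((2 : ℝ) ^ P.xE ε) ^ 2 * ε ^ (-(P.th / 400)) ≤ 2 ^ (r - n)

namespace BA

variable {P : Par} {b K0 K2 Cw A CQ CX CL ρ : ℝ} {n m r s : ℕ} {ε e τ w : ℝ}
  (h : BA P b K0 K2 Cw A CQ CX CL ρ n m r s ε e τ w)
include h

lemma t0 : 0 < τ := (tn_pos n).trans_le h.τ1

lemma CL0 : 0 ≤ CL := by
  rw [h.CLd]
  linarith [h.C01]

lemma htm : tn m * bM n m ^ 2 = tn n := h.B.tn_m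

lemma M2 : 2 ≤ bM n m := h.B.M_two

lemma Nl : (((2 : ℕ) ^ r / 2 ^ s : ℕ) : ℝ) = 2 ^ (r - n) * 2 ^ (n - s) := by
  have h1 := h.B.nm
  have h2 := h.B.mr
  have h3 := h.B.hsn
  rw [Nat.pow_div (by omega) two_pos]
  push_cast
  exact h.B.rs_pow

lemma g1 : 1 ≤ Lgt ε := one_le_Lgt h.B.ε0 h.B.ε1

lemma log1 : Real.log (((2 : ℕ) ^ r / 2 ^ s : ℕ) : ℝ) ≤ CL * Lgt ε := by
  have h1 := h.B.nm
  have h2 := h.B.mr
  have h3 := h.B.hsn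
  have hg := h.g1
  have hrs := h.B.rs_log
  rw [Nat.pow_div (by omega) two_pos]
  push_cast
  rw [Real.log_pow]
  have h3 : Real.log 2 ≤ 1 := by
    have := Real.log_two_lt_d9
    linarith
  have h4 : (0 : ℝ) ≤ ((r - s : ℕ) : ℝ) := Nat.cast_nonneg _
  have h5 : ((r - s : ℕ) : ℝ) * Real.log 2 ≤ ((r - s : ℕ) : ℝ) :=
    mul_le_of_le_one_right h4 h3
  rw [h.CLd]
  linarith

lemma LL0 : 0 ≤ LL r s (tn m) ∧ LL r s (tn m) ≤ CL * Lgt ε := by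
  have h1 := LL_le (m := m) (r := r) (s := s) (c := P.C0) h.B.mr h.g1 h.B.rs_log
  rw [h.CLd]
  exact h1

lemma n2 : 393216 * bd P b K0 n m r s e * bQ K2 ε ^ 2 ≤ kap b * bM n m ^ 2 * bX P ε ^ 2 ∧
    98304 * (3 + Real.log (((2 : ℕ) ^ r / 2 ^ s : ℕ) : ℝ)) * bQ K2 ε ^ 2 ≤
      kap b * bX P ε ^ 2 ∧ 0 ≤ bd P b K0 n m r s e :=
  h.S.n2 (kap_pos h.hb) (kap_le h.hb) h.CL0 (Real.log_natCast_nonneg _) h.log1 rfl h.c2 h.c3 h.c4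

lemma four_s : 4 ^ s * tn n * ((2 : ℝ) ^ (n - s)) ^ 2 = 1 := h.B.four_s

lemma mn : m - n ≤ n - s := by
  have hε := h.B.ε0
  have hε1 := h.B.ε1
  have h2 := P.thp0
  have h3 := h.B.thp1
  have h4 := h.C01
  have g1 : (2 : ℝ) ^ (m - n) ≤ 2 ^ (n - s) := by
    have f0 : bM n m ≤ bX P ε := h.S.MX
    have f1 : (2 : ℝ) ^ (m - n) ≤ bX P ε := f0
    have f2 : bX P ε * 1 ≤ ε ^ (-ρ) := by
      have := h.S.Xε (c := 1) (k := 1) (by norm_num) zero_le_one (by linarith [h.c14])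
      linarith
    have f3 : ε ^ (-ρ) ≤ ε ^ (-P.C0) := rpow_anti hε hε1 (by linarith [h.ρ1])
    have f4 : ε ^ (-P.C0) ≤ (2 : ℝ) ^ (n - s) := by
      rw [h.B.q_eq]
      exact two_lg_ge hε
    linarith
  exact (pow_le_pow_iff_right₀ (one_lt_two (α := ℝ))).1 g1

lemma gn : GN (2 ^ r) (2 ^ s) (2 ^ (n - s - (m - n))) (2 ^ (n - s)) b (tn m) τ (tn n) (bM n m)
    (bM n m) (bX P ε) (bQ K2 ε) (bd P b K0 n m r s e) := by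
  have hnm := h.B.nm
  have hmr := h.B.mr
  have hsn := h.B.hsn
  have hmn := h.mn
  have ht : 0 < tn n := tn_pos n
  have htm0 : 0 < tn m := tn_pos m
  have htm := h.htm
  have hM2 := h.M2
  obtain ⟨n2, n2b, hd0⟩ := h.n2
  have hql : ((2 ^ (n - s) : ℕ) : ℝ) * ((2 ^ s : ℕ) : ℝ) = 2 ^ n := by
    push_cast
    rw [← pow_add]
    congr 1
    omega
  have hM4 : 4 ≤ bM n m ^ 2 := by nlinarith
  refine
    { dl := pow_dvd_pow 2 (by omega)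
      dl0 := pow_dvd_pow 2 (Nat.sub_le _ _)
      dq := ?_
      t0 := ht
      tξ := ?_
      A0 := ?_
      A1 := by linarith
      M1 := by linarith
      lo := h.τ1
      hi := h.τ2
      slo := ?_
      shi := ?_
      MN := ?_
      X0 := h.S.X0
      Q0 := by linarith [h.S.Q1]
      n1 := h.S.n1 h.c1
      dd := hd0
      n2 := n2
      n2b := n2b
      n3 := ?_ }
  · rw [Nat.pow_div (by omega) two_pos]
    exact pow_dvd_pow 2 (by omega)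
  · rw [hql, tn_eq, four_pow]
    exact inv_mul_cancel₀ (by positivity)
  · push_cast
    unfold bM
    rw [← pow_add]
    congr 1
    omega
  · rw [← htm]
    have : 0 ≤ tn m * bM n m ^ 2 := by positivity
    linarith
  · rw [← htm]
    have := mul_le_mul_of_nonneg_left hM4 htm0.le
    linarith
  · rw [hql]
    unfold bM
    rw [← pow_add]
    push_cast
    exact pow_le_pow_right₀ one_le_two (by omega)
  · rw [h.Nl]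
    have hlogN0 : 0 ≤ Real.log ((2 ^ r : ℕ) : ℝ) := Real.log_natCast_nonneg _
    exact h.S.n3 (by linarith) ht.le h.B.logN (by linarith [h.C01, h.ρ1]) (by linarith [h.c14])

lemma hn' (c : ℝ) (hc0 : 0 ≤ c) (hc : c * (tn m * (((2 ^ s : ℕ)) : ℝ) ^ 2) ≤ 1) :
    1024 * bM n m ^ 4 * (3 + Real.log ((2 ^ r : ℕ) : ℝ)) *
      (4 * bXm P K0 e ^ 2 * tn m * (c / 2 + bR n m)) ≤ 1 := by
  have ht : 0 < tn n := tn_pos n
  have htm0 : 0 < tn m := tn_pos m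
  have htm := h.htm
  have hM2 := h.M2
  have hlogN0 : 0 ≤ Real.log ((2 ^ r : ℕ) : ℝ) := Real.log_natCast_nonneg _
  have e2s : ((2 ^ s : ℕ) : ℝ) ^ 2 = 4 ^ s := by
    push_cast
    exact (four_pow s).symm
  have hM4 : 1 ≤ bM n m ^ 2 := by nlinarith
  refine h.S.hn (l2 := ((2 ^ s : ℕ) : ℝ) ^ 2) (by linarith) ht h.B.logN
    (by linarith [h.C01, h.ρ1]) hc0 htm0 ?_
    (by positivity) hc (by rw [e2s]; exact h.four_s) h.c5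
  rw [← htm]
  exact le_mul_of_one_le_right htm0.le hM4

lemma hu1' : 36864 * tn n * bM n m ^ 2 * (2 / (((2 ^ (n - s) : ℕ)) : ℝ) ^ 2 * (1 / 2 + bR n m)) ≤
    (2 ^ s * tn n * bL P n m ε) ^ 2 := by
  have e1 : 2 / (((2 ^ (n - s) : ℕ)) : ℝ) ^ 2 = 2 * (4 ^ s * tn n) := by
    push_cast
    rw [div_eq_iff (by positivity)]
    have h1 := h.four_s
    have : 2 * (4 ^ s * tn n) * ((2 : ℝ) ^ (n - s)) ^ 2 =
        2 * (4 ^ s * tn n * ((2 : ℝ) ^ (n - s)) ^ 2) := by ring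
    rw [this, h1, mul_one]
  rw [e1]
  have h1 := h.S.hu1 (t₀ := tn n) (s4 := 4 ^ s) (sp := 2 ^ s) (L := bL P n m ε)
    (by linarith [h.c14]) (four_pow s).symm rfl
  refine le_trans (le_of_eq ?_) h1
  ring

lemma hu2' : 36864 * tn n * bM n m ^ 2 * (w * (1 / 2 + bR n m)) ≤ bu := by
  have h1 := h.S.hu2 (t₀ := tn n) (v := w) h.Cw0 (tn_pos n) h.w0.le h.wG h.ρ0.le h.c6
  unfold bu
  refine le_trans (le_of_eq ?_) h1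
  ring

lemma hu3' : 36864 * tn n * bM n m ^ 2 * ((((2 : ℕ) ^ r / 2 ^ s : ℕ) : ℝ) ^ 2 / 2 + bR n m) ≤
    bLam P n ε ^ 2 := by
  rw [h.Nl]
  have h1 := h.S.hu3 (t₀ := tn n) (tn_pos n) (by linarith [h.ρ1]) (by linarith [h.c14])
  refine le_trans (le_of_eq ?_) h1
  ring

lemma cLam' : 36 * (bXm P K0 e ^ 2 * tn m) * ((τ / tn m) ^ 2 * 4 ^ (r - s)) * (bR n m + 1) ≤
    bLam P n ε ^ 2 := by
  have e4 : (4 : ℝ) ^ (r - s) = (2 ^ (r - n) * 2 ^ (n - s)) ^ 2 := by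
    rw [four_pow, h.B.rs_pow]
  rw [e4]
  exact h.S.cLam (tn_pos n) h.htm h.t0 h.τ2 (by linarith [h.ρ1]) h.c10

lemma clos' : cl 10 (819200 * bXm P K0 e ^ 4 * ((τ ^ 2 / tn m) ^ 2 * bD4 n r ε τ)) ≤
    8 * ε ^ (1 / 2 : ℝ) := by
  have hnm := h.B.nm
  have hmr := h.B.mr
  have hr2 : (2 : ℝ) ^ r / 2 ^ n = 2 ^ (r - n) := by
    rw [div_eq_iff (by positivity), ← pow_add]
    congr 1
    omega
  exact h.S.clos (r2 := 2 ^ r / 2 ^ n) (D₄ := bD4 n r ε τ) (tn_pos n) h.htm h.t0 h.τ2 hr2 rfl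
    (by linarith [h.ρ1]) h.c12

lemma out' : cl 10 (819200 * bXm P K0 e ^ 4 * ((τ ^ 2 / tn m) ^ 2 * bD4 n r ε τ)) + 2 * ε ≤
    e ^ (1 / 6 : ℝ) := by
  have hε := h.B.ε0
  have hε1 := h.B.ε1
  have he0 : 0 < e := lt_of_lt_of_le (by positivity) h.B.he
  have g1 := h.a6
  have g2 : ε ^ (1 / 2 : ℝ) = ε ^ (1 / 3 : ℝ) * ε ^ (1 / 6 : ℝ) := by
    rw [← Real.rpow_add hε]
    norm_num
  have g3 : ε ^ (1 / 6 : ℝ) ≤ 2 * e ^ (1 / 6 : ℝ) := by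
    have f1 : ε ≤ 2 * e := by linarith [h.B.he]
    calc ε ^ (1 / 6 : ℝ) ≤ (2 * e) ^ (1 / 6 : ℝ) := Real.rpow_le_rpow hε.le f1 (by norm_num)
      _ = 2 ^ (1 / 6 : ℝ) * e ^ (1 / 6 : ℝ) := Real.mul_rpow (by norm_num) he0.le
      _ ≤ 2 * e ^ (1 / 6 : ℝ) := by
          refine mul_le_mul_of_nonneg_right ?_ (Real.rpow_nonneg he0.le _)
          calc (2 : ℝ) ^ (1 / 6 : ℝ) ≤ 2 ^ (1 : ℝ) :=
                Real.rpow_le_rpow_of_exponent_le one_le_two (by norm_num)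
            _ = 2 := Real.rpow_one 2
  have g4 : 0 ≤ ε ^ (1 / 6 : ℝ) := Real.rpow_nonneg hε.le _
  have hεh : ε ≤ ε ^ (1 / 2 : ℝ) := by
    calc ε = ε ^ (1 : ℝ) := (Real.rpow_one ε).symm
      _ ≤ _ := rpow_anti hε hε1 (by norm_num)
  have hclos := h.clos'
  have g5 : 20 * (ε ^ (1 / 3 : ℝ) * ε ^ (1 / 6 : ℝ)) ≤ 1 * ε ^ (1 / 6 : ℝ) := by
    rw [← mul_assoc]
    exact mul_le_mul_of_nonneg_right g1 g4
  rw [← g2] at g5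
  linarith

lemma sca : bLam P n ε = ((2 : ℝ) ^ n)⁻¹ * ε ^ (-(P.C0 + 1)) := by
  unfold bLam
  rw [sq_tn]

lemma aptN' : AptN K2 (2 * P.C0 + 3) ε n r s (bD K2 ε) (2 * 2 ^ 11) (bL P n m ε) (bLam P n ε)
    (2 * ε ^ (1 / 8 : ℝ)) (bX P ε) := by
  have hε := h.B.ε0
  have hε1 := h.B.ε1
  have hsn := h.B.hsn
  have hDle : ((bD K2 ε : ℕ) : ℝ) ≤ (K2 + 1) * Lgt ε := by
    have h0 := log_inv_nonneg hε hε1
    have hK := h.K20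
    have h1 : ((bD K2 ε : ℕ) : ℝ) ≤ K2 * Real.log (1 / ε) + 1 :=
      (Nat.ceil_lt_add_one (by positivity)).le
    unfold Lgt
    nlinarith
  obtain ⟨w1', w2', w3'⟩ := h.S.apt (K2 := K2) (D := bD K2 ε) (L := bL P n m ε) h.K20 hDle rfl
    h.c13 h.ρ1
  have hp : 0 < ε ^ (-(P.C0 + 1)) := Real.rpow_pos_of_pos hε _
  have hLam0 : 0 ≤ bLam P n ε := by
    rw [h.sca]
    positivity
  refine ⟨by norm_num, Nat.le_ceil _, w3', hLam0, ?_, w2', ?_, le_rfl, w1'⟩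
  · rw [h.sca]
    have g1 := h.a4
    have e1 : (4 : ℝ) ^ n / 2 ^ s * ((2 : ℝ) ^ n)⁻¹ = 2 ^ (n - s) := by
      rw [four_pow, div_mul_eq_mul_div, div_eq_iff (by positivity), pow_two,
        mul_assoc, mul_inv_cancel₀ (by positivity), mul_one, ← pow_add]
      congr 1
      omega
    have e3 : ε ^ (-(2 * P.C0 + 3)) = ε ^ (-(P.C0 + 1)) * ε ^ (-P.C0) * ε ^ (-2 : ℝ) := by
      rw [← Real.rpow_add hε, ← Real.rpow_add hε]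
      congr 1
      ring
    have e4 : ε ^ (2 : ℝ) * ε ^ (-2 : ℝ) = 1 := by
      rw [← Real.rpow_add hε]
      norm_num
    have hp2 : 0 < ε ^ (-2 : ℝ) := Real.rpow_pos_of_pos hε _
    have hp3 : 0 < ε ^ (-P.C0) := Real.rpow_pos_of_pos hε _
    have g2 : 8192 ≤ ε ^ (-2 : ℝ) := by
      have := mul_le_mul_of_nonneg_right g1 hp2.le
      rw [mul_assoc, e4, mul_one, one_mul] at this
      exact this
    have hq2 := h.B.q_le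
    calc 2 * 2 ^ 11 * (((2 : ℝ) ^ n)⁻¹ * ε ^ (-(P.C0 + 1))) * 4 ^ n / 2 ^ s
        = 4096 * ε ^ (-(P.C0 + 1)) * ((4 : ℝ) ^ n / 2 ^ s * ((2 : ℝ) ^ n)⁻¹) := by ring
      _ = 4096 * ε ^ (-(P.C0 + 1)) * 2 ^ (n - s) := by rw [e1]
      _ ≤ 4096 * ε ^ (-(P.C0 + 1)) * (2 * ε ^ (-P.C0)) :=
          mul_le_mul_of_nonneg_left hq2 (by positivity)
      _ = (ε ^ (-(P.C0 + 1)) * ε ^ (-P.C0)) * 8192 := by ring
      _ ≤ (ε ^ (-(P.C0 + 1)) * ε ^ (-P.C0)) * ε ^ (-2 : ℝ) :=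
          mul_le_mul_of_nonneg_left g2 (by positivity)
      _ = _ := e3.symm
  · have := Real.rpow_nonneg hε.le (1 / 8 : ℝ)
    linarith

lemma eta' : ε ^ (1 / 16 : ℝ) / 2 + (2 ^ 11) ^ 2 * bu ≤ 1 := by
  have g1 : ε ^ (1 / 16 : ℝ) ≤ 1 := Real.rpow_le_one h.B.ε0.le h.B.ε1 (by norm_num)
  unfold bu
  have g2 : ((2 : ℝ) ^ 11) ^ 2 * (1 / (4 * (2 ^ 11) ^ 2)) = 1 / 4 := by norm_num
  rw [g2]
  linarith

/-- **all numbers** -/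
theorem bnum : BNum P b K0 K2 n m r s ε e τ w := by
  have hε := h.B.ε0
  have hE := h.ex
  obtain ⟨q1', q2'⟩ := h.S.ptot (kap_pos h.hb) h.c11 (by linarith [h.ρ1]) hE h.Xm8
  have hcl := h.clos'
  have ha3 := h.a3
  have hLL := h.LL0
  exact
    { G := h.gn
      Xm0 := h.S.Xm0
      R0 := h.S.R0
      hn := h.hn'
      hu1 := h.hu1'
      hu2 := h.hu2'
      hu3 := h.hu3'
      cA := h.S.cA h.hb.le h.CL0 (tn_pos n) h.htm hLL.1 hLL.2 h.c7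
      cL := h.S.cL h.hb.le h.CL0 (tn_pos n) h.htm hLL.1 hLL.2 h.c8 (four_pow s).symm rfl
      cU := h.S.cU h.Cw0 (tn_pos n) h.htm h.t0 h.τ2 h.w0.le h.wG h.ρ0.le h.c9
      cΛ := h.cLam'
      hq := q1'
      hq1 := by linarith [h.a7]
      hcl := by linarith
      hP := by linarith [h.a7]
      out := h.out'
      om := fun Y hY0 hY => h.S.osc hY0 hY (by linarith [h.ρ1])
      aptN := h.aptN'
      eta := h.eta'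
      tor := h.tor }

end BA

end

end Vale.Agent.P159.H276
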