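import Vale.Agent.P159.H663.GsA
import Vale.Agent.P159.H276.Eta3

/-!
P159 / typical source of the AP step (helper276), part 1.

The source is `e = K g`, `g` standard Gaussian, `K : Matrix (V (N/l)) I`, neutral values,
`K Kᵀ ≤ a²` (block noise of the level `m`: `a² = X² t_m`). Prior mass `s`, posterior mass `t`.
* `gtail`   : `P(a < |F g|²) ≤ exp (1/2 - a / (4 tr F Fᵀ))`;
* `te_rs`   : the mean part of a block condition (hypothesis `hm` of `H663.gs_class`);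
* `te_ball` : the mean part of a ball condition (hypothesis `hm2`);
* traces    : `bE_Gnc_trace` (blocks), `Hs_trace` (crude), `Hs_row` (differences of block means).
-/

set_option linter.unusedSectionVars false

namespace Vale.Agent.P159.H276

open Finset Matrix MeasureTheory ProbabilityTheory
open Vale.Agent.P159.TM.H104 (EM Ex Cv K3 Lg li nh Gr)
open Vale.Agent.P159.H37
open Vale.Agent.P159.TM.H764 (EE nrm)
open Vale.Agent.P159.TM.Spec (V)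
open Vale.Agent.P159.H864 (TI sym fc ti_fc sym_fc cobV)
open Vale.Agent.P159.H963 (Neu Pn nMC Gnc obsN)
open Vale.Agent.P159.H859 (Rk ti_Rk sym_Rk ravg)
open Vale.Agent.P159.H663 (TC bE rsC cRs rowM trace_gram sq_vec_nonneg dot_self qf_mul_tr gau_tail
  dB_mul_apply cRs_ball rsC_meas rsC_convex rsC_even bE_supp bE_neu mul_Pn_of_neu)

noncomputable section

section gtail

variable {W I : Type*} [Fintype W] [Fintype I]

lemma sqF_le (F : Matrix W I ℝ) {T0 : ℝ} (h : (F * Fᵀ).trace ≤ T0) (x : I → ℝ) :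
    ∑ w, (F *ᵥ x) w ^ 2 ≤ T0 * ∑ i, x i ^ 2 := by
  have h1 : ∀ w, (F *ᵥ x) w ^ 2 ≤ (∑ i, F w i ^ 2) * ∑ i, x i ^ 2 := fun w =>
    Finset.sum_mul_sq_le_sq_mul_sq Finset.univ (F w) x
  rw [trace_gram] at h
  calc ∑ w, (F *ᵥ x) w ^ 2 ≤ ∑ w, (∑ i, F w i ^ 2) * ∑ i, x i ^ 2 :=
        Finset.sum_le_sum fun w _ => h1 w
    _ = (∑ w, ∑ i, F w i ^ 2) * ∑ i, x i ^ 2 := by rw [Finset.sum_mul]
    _ ≤ _ := mul_le_mul_of_nonneg_right h (sq_vec_nonneg x)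

lemma sq_smul_tr (c : ℝ) (F : Matrix W I ℝ) (φ : W → ℝ) :
    ∑ i, ((c • F)ᵀ *ᵥ φ) i ^ 2 = c ^ 2 * ∑ i, (Fᵀ *ᵥ φ) i ^ 2 := by
  rw [transpose_smul, smul_mulVec, Finset.mul_sum]
  exact Finset.sum_congr rfl fun i _ => by rw [Pi.smul_apply, smul_eq_mul, mul_pow]

/-- **tail of a Gaussian quadratic form from its trace** -/
theorem gtail (F : Matrix W I ℝ) {T0 : ℝ} (hT : 0 < T0)
    (h : (F * Fᵀ).trace ≤ T0) (a : ℝ) :
    (gau I).real {g | a < ∑ w, (F *ᵥ g) w ^ 2} ≤ Real.exp (1 / 2 - a / (4 * T0)) := by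
  classical
  have hK : (Fᵀ * F)ᵀ = Fᵀ * F := by rw [transpose_mul, transpose_transpose]
  have hq : ∀ g : I → ℝ, qf (Fᵀ * F) g = ∑ w, (F *ᵥ g) w ^ 2 := by
    intro g
    have := qf_mul_tr Fᵀ g
    rwa [transpose_transpose] at this
  have h1 := gau_tail hK (fun g => by rw [hq]; exact sq_vec_nonneg _)
    (lam := 1 / (2 * T0)) (by positivity) (fun g => by
      rw [hq]
      have := mul_le_mul_of_nonneg_left (sqF_le F h g) (show (0 : ℝ) ≤ 1 / (2 * T0) by positivity)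
      refine this.trans (le_of_eq ?_)
      field_simp) a
  have hm : Measurable fun g : I → ℝ => qf (Fᵀ * F) g := by
    simp only [hq]
    fun_prop
  have hB : MeasurableSet {g : I → ℝ | a ≤ qf (Fᵀ * F) g} := measurableSet_le measurable_const hm
  rw [integral_indicator hB] at h1
  simp only [integral_const, smul_eq_mul, mul_one, measureReal_restrict_apply_univ] at h1
  have h2 : (gau I).real {g | a < ∑ w, (F *ᵥ g) w ^ 2} ≤ (gau I).real {g | a ≤ qf (Fᵀ * F) g} := by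
    refine measureReal_mono (fun g hg => ?_) (measure_ne_top _ _)
    have hg' : a < ∑ w, (F *ᵥ g) w ^ 2 := hg
    show a ≤ qf (Fᵀ * F) g
    rw [hq]
    exact hg'.le
  refine h2.trans (h1.trans (Real.exp_le_exp.2 ?_))
  have e1 : (Fᵀ * F).trace = (F * Fᵀ).trace := trace_mul_comm _ _
  rw [e1]
  have e2 : 1 / (2 * T0) * (F * Fᵀ).trace ≤ 1 / 2 := by
    rw [div_mul_eq_mul_div, one_mul, div_le_iff₀ (by positivity)]
    linarith
  have e3 : 1 / (2 * T0) * a / 2 = a / (4 * T0) := by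
    field_simp
    ring
  linarith

lemma sum_tr_le {J : Type*} [Fintype J] {K : Matrix I J ℝ} {A : ℝ}
    (hK : ∀ φ : I → ℝ, ∑ i, (Kᵀ *ᵥ φ) i ^ 2 ≤ A * ∑ i, φ i ^ 2) (F : Matrix W I ℝ) :
    ((F * K) * (F * K)ᵀ).trace ≤ A * (F * Fᵀ).trace := by
  rw [trace_gram, trace_gram, Finset.mul_sum]
  refine Finset.sum_le_sum fun w _ => ?_
  refine le_trans (le_of_eq ?_) (hK (F w))
  refine Finset.sum_congr rfl fun i _ => ?_
  congr 1
  rw [Matrix.mul_apply]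
  unfold mulVec dotProduct
  refine Finset.sum_congr rfl fun j _ => ?_
  show F w j * K j i = K j i * F w j
  rw [mul_comm]

end gtail

section field

variable {N l : ℕ} [NeZero N] [NeZero (N / l)] {b t s : ℝ} {W : Type*} [Fintype W]

/-- the smeared mean of the field at a neutral source -/
lemma mean_field (hl : l ∣ N) (A : Matrix W (V (N / l)) ℝ) (hA : ∀ w, Neu (A w))
    {e : V (N / l) → ℝ} (he : Neu e) :
    A *ᵥ (cobV N l *ᵥ ((cobV N l)ᵀ *ᵥ e +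
      (t - s) • (Gm (nMC N l b t s 0) *ᵥ ((cobV N l)ᵀ *ᵥ e)))) =
      A *ᵥ e + (t - s) • (A *ᵥ (Gnc N l b t s *ᵥ e)) := by
  have h1 : cobV N l *ᵥ ((cobV N l)ᵀ *ᵥ e) = e := by
    rw [mulVec_mulVec, H864.cobV_mul_tr hl, one_mulVec]
  have h2 : A *ᵥ (cobV N l *ᵥ (Gm (nMC N l b t s 0) *ᵥ ((cobV N l)ᵀ *ᵥ e))) =
      A *ᵥ (Gnc N l b t s *ᵥ e) := by
    have e1 : (Pn : Matrix (V N) (V N) ℝ) *ᵥ ((cobV N l)ᵀ *ᵥ e) = (cobV N l)ᵀ *ᵥ e :=
      H963.Pn_of_neu (H963.neu_cobV_tr hl he)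
    have e2 : A * cobV N l = A * cobV N l * (Pn : Matrix (V N) (V N) ℝ) := by
      rw [Matrix.mul_assoc, H963.cobV_mul_Pn hl, ← Matrix.mul_assoc, mul_Pn_of_neu hA]
    have e3 : Gnc N l b t s = cobV N l * ((Pn : Matrix (V N) (V N) ℝ) *
        Gm (nMC N l b t s 0) * Pn) * (cobV N l)ᵀ := rfl
    calc A *ᵥ (cobV N l *ᵥ (Gm (nMC N l b t s 0) *ᵥ ((cobV N l)ᵀ *ᵥ e)))
        = (A * cobV N l) *ᵥ (Gm (nMC N l b t s 0) *ᵥ ((cobV N l)ᵀ *ᵥ e)) := by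
          rw [mulVec_mulVec]
      _ = (A * cobV N l * (Pn : Matrix (V N) (V N) ℝ)) *ᵥ (Gm (nMC N l b t s 0) *ᵥ
          ((Pn : Matrix (V N) (V N) ℝ) *ᵥ ((cobV N l)ᵀ *ᵥ e))) := by rw [e1, ← e2]
      _ = _ := by
          rw [e3]
          simp only [mulVec_mulVec, Matrix.mul_assoc]
  rw [mulVec_add, h1, mulVec_add, mulVec_smul, mulVec_smul, h2]

/-- the linear response of the cells -/
def Hs (N l : ℕ) [NeZero N] [NeZero (N / l)] (b t s : ℝ) : Matrix (V (N / l)) (V (N / l)) ℝ :=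
  1 + (t - s) • Gnc N l b t s

lemma ti_Hs (hb : 0 ≤ b) (hl : l ∣ N) (hs : 0 < s) (h : s ≤ t) : TI (Hs N l b t s) :=
  TI.one.add ((H963.ti_Gnc hb hl hs h).smul _)

lemma sym_Hs (t s : ℝ) (k : V (N / l)) :
    sym (Hs N l b t s) k = 1 + (t - s) * sym (Gnc N l b t s) k := by
  unfold Hs
  rw [H864.sym_add, H864.sym_one, H864.sym_smul]

lemma sym_Hs_le (hb : 0 ≤ b) (hl : l ∣ N) (hs : 0 < s) (h : s ≤ t) (k : V (N / l)) :
    sym (Hs N l b t s) k ≤ t / s := by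
  rw [sym_Hs]
  have h1 := H963.sym_Gnc_le hb hl hs h k
  have h2 : (t - s) * sym (Gnc N l b t s) k ≤ (t - s) * s⁻¹ :=
    mul_le_mul_of_nonneg_left h1 (by linarith)
  have h3 : 1 + (t - s) * s⁻¹ = t / s := by
    field_simp
    ring
  linarith

lemma one_le_Hs (hb : 0 ≤ b) (hl : l ∣ N) (hs : 0 < s) (h : s ≤ t) (k : V (N / l)) :
    1 ≤ sym (Hs N l b t s) k := by
  rw [sym_Hs]
  have h1 := H963.sym_Gnc_nonneg hb hl hs h k
  have := mul_nonneg (sub_nonneg.2 h) h1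
  linarith

/-- squares of translation invariant matrices -/
lemma sq_ti {S : Matrix (V (N / l)) (V (N / l)) ℝ} (hS : TI S) {c : ℝ}
    (h : ∀ k, sym S k * sym S k ≤ c) (u : V (N / l) → ℝ) :
    ∑ x, (S *ᵥ u) x ^ 2 ≤ c * ∑ x, u x ^ 2 := by
  have h1 := (H864.qf_le_iff (hS.mul hS) (TI.one.smul c)).2 (fun k => by
    rw [H864.sym_mul hS hS, H864.sym_smul, H864.sym_one, mul_one]
    exact h k) u
  have h2 : qf (S * S) u = ∑ x, (S *ᵥ u) x ^ 2 := by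
    have := qf_mul_tr S u
    rwa [hS.transpose] at this
  rwa [h2, H37.qf_smul_one] at h1

lemma Hs_sq (hb : 0 ≤ b) (hl : l ∣ N) (hs : 0 < s) (h : s ≤ t) (u : V (N / l) → ℝ) :
    ∑ x, (Hs N l b t s *ᵥ u) x ^ 2 ≤ (t / s) ^ 2 * ∑ x, u x ^ 2 := by
  refine sq_ti (ti_Hs hb hl hs h) (fun k => ?_) u
  have h1 := sym_Hs_le hb hl hs h k
  have h2 := one_le_Hs hb hl hs h k
  nlinarith

/-- **crude trace** -/
theorem Hs_trace (hb : 0 ≤ b) (hl : l ∣ N) (hs : 0 < s) (h : s ≤ t)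
    (F : Matrix W (V (N / l)) ℝ) :
    ((F * Hs N l b t s) * (F * Hs N l b t s)ᵀ).trace ≤ (t / s) ^ 2 * (F * Fᵀ).trace :=
  sum_tr_le (fun φ => by
    rw [(ti_Hs hb hl hs h).transpose]
    exact Hs_sq hb hl hs h φ) F

/-- **the mean part of a ball condition** -/
theorem te_ball (hl : l ∣ N) {I : Type*} [Fintype I] {K : Matrix (V (N / l)) I ℝ} {a : ℝ}
    (ha : 0 < a) (hK : ∀ φ : V (N / l) → ℝ, ∑ i, (Kᵀ *ᵥ φ) i ^ 2 ≤ a ^ 2 * ∑ i, φ i ^ 2)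
    (hKn : ∀ g, Neu (K *ᵥ g)) {F : Matrix W (V (N / l)) ℝ} (hF : ∀ w, Neu (F w)) {r : ℝ}
    (hr : 0 < r) (h3 : ((F * Hs N l b t s) * (F * Hs N l b t s)ᵀ).trace ≤ r) (u : ℝ) :
    (gau I).real {g | u < 9 * ∑ w, (F *ᵥ (cobV N l *ᵥ ((cobV N l)ᵀ *ᵥ (K *ᵥ g) +
      (t - s) • (Gm (nMC N l b t s 0) *ᵥ ((cobV N l)ᵀ *ᵥ (K *ᵥ g)))))) w ^ 2} ≤
      Real.exp (1 / 2 - u / (36 * a ^ 2 * r)) := by
  have e1 : {g : I → ℝ | u < 9 * ∑ w, (F *ᵥ (cobV N l *ᵥ ((cobV N l)ᵀ *ᵥ (K *ᵥ g) +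
      (t - s) • (Gm (nMC N l b t s 0) *ᵥ ((cobV N l)ᵀ *ᵥ (K *ᵥ g)))))) w ^ 2} =
      {g | u / 9 < ∑ w, ((F * Hs N l b t s * K) *ᵥ g) w ^ 2} := by
    ext g
    have e2 : F *ᵥ (cobV N l *ᵥ ((cobV N l)ᵀ *ᵥ (K *ᵥ g) +
        (t - s) • (Gm (nMC N l b t s 0) *ᵥ ((cobV N l)ᵀ *ᵥ (K *ᵥ g))))) =
        (F * Hs N l b t s * K) *ᵥ g := by
      rw [mean_field hl F hF (hKn g)]
      unfold Hs
      rw [Matrix.mul_add, Matrix.mul_one, Matrix.add_mul, Matrix.add_mulVec, Matrix.mul_smul,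
        Matrix.smul_mul, Matrix.smul_mulVec]
      simp only [mulVec_mulVec, Matrix.mul_assoc]
    rw [Set.mem_ofPred_eq, Set.mem_ofPred_eq, e2]
    constructor
    · intro h
      linarith
    · intro h
      linarith
  rw [e1]
  have h4 := sum_tr_le hK (F * Hs N l b t s)
  have h5 : ((F * Hs N l b t s * K) * (F * Hs N l b t s * K)ᵀ).trace ≤ a ^ 2 * r :=
    h4.trans (mul_le_mul_of_nonneg_left h3 (sq_nonneg a))
  refine (gtail _ (by positivity) h5 (u / 9)).trans (le_of_eq ?_)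
  congr 2
  field_simp
  ring

/-- rows of a product with a translation invariant matrix -/
lemma row_ti {S : Matrix (V (N / l)) (V (N / l)) ℝ} (hS : TI S) (F : Matrix W (V (N / l)) ℝ)
    (i : W) : (F * S) i = S *ᵥ (F i) := by
  funext z
  rw [Matrix.mul_apply]
  unfold mulVec dotProduct
  refine Finset.sum_congr rfl fun y _ => ?_
  have : S y z = S z y := by
    conv_lhs => rw [← hS.transpose]
    rfl
  rw [this, mul_comm]

lemma sq_eq_sum (u : V (N / l) → ℝ) : H859.sq u = ∑ x, u x ^ 2 := by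
  unfold H859.sq dotProduct
  exact Finset.sum_congr rfl fun x _ => by ring

/-- the blocks: response of the smooth field -/
theorem bE_Gnc_trace (hb : 0 < b) (hl : l ∣ N) (hs : 0 < s) (h : s ≤ t) {q : ℕ}
    (hq : q ∣ N / l) (B : Finset (V (N / l))) {T : Matrix (V (N / l)) (V (N / l)) ℝ} (hT : TC T) :
    ((bE B q T * Gnc N l b t s) * (bE B q T * Gnc N l b t s)ᵀ).trace ≤
      B.card * (2 * (q : ℝ) ^ 2 * (1 / (s * ((N / l : ℕ) : ℝ) ^ 2 * (1 / b / (l : ℝ) ^ 2)) +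
        (1 + Real.log ((N / l : ℕ) : ℝ)) / (1 / b / (l : ℝ) ^ 2) ^ 2)) := by
  classical
  have hlR : (0 : ℝ) < l := by exact_mod_cast H864.l_pos hl
  have hκ : (0 : ℝ) < 1 / b / (l : ℝ) ^ 2 := by positivity
  have hG := H963.ti_Gnc (N := N) hb.le hl hs h
  have := H864.ne_div hq
  have hA := H859.avg_cellP (n := N / l) hq B
  rw [trace_gram]
  have key : ∀ x, ∑ y, (bE B q T * Gnc N l b t s) x y ^ 2 ≤
      if x ∈ B then 2 * (q : ℝ) ^ 2 * (1 / (s * ((N / l : ℕ) : ℝ) ^ 2 * (1 / b / (l : ℝ) ^ 2)) +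
        (1 + Real.log ((N / l : ℕ) : ℝ)) / (1 / b / (l : ℝ) ^ 2) ^ 2) else 0 := by
    intro x
    have e1 : bE B q T * Gnc N l b t s =
        H859.dB B * ((1 - cellP (N / l) q) * T * Gnc N l b t s) := by
      unfold H663.bE
      simp only [Matrix.mul_assoc]
    rw [e1]
    simp only [dB_mul_apply]
    split_ifs with hx
    · have e2 : ((1 - cellP (N / l) q) * T * Gnc N l b t s) x =
          T *ᵥ (Gnc N l b t s *ᵥ ravg x (cellP (N / l) q x)) := by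
        rw [row_ti hG, row_ti hT.ti]
        have e3 : (1 - cellP (N / l) q : Matrix (V (N / l)) (V (N / l)) ℝ) x =
            ravg x (cellP (N / l) q x) := by
          funext z
          unfold H859.ravg
          rw [Matrix.sub_apply, Matrix.one_apply]
          congr 1
          by_cases hz : x = z
          · subst hz
            simp
          · rw [if_neg hz, Pi.single_eq_of_ne (Ne.symm hz)]
        rw [e3, mulVec_mulVec, mulVec_mulVec, hG.comm hT.ti]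
      rw [e2]
      refine (hT.contr _).trans ?_
      rw [← sq_eq_sum]
      refine (H859.sq_mulVec_le hG hs hκ.le (H963.sym_Gnc_nonneg hb.le hl hs h)
        (fun k => H859.Gnck_dom hb.le hl hs h (κ := 1 / b) (by positivity)
          (by rw [mul_one_div_cancel hb.ne']) k) _).trans ?_
      exact H859.sq_row hs hκ x (hA.nn x) (hA.one x hx) (hA.dist x hx)
    · simp
  refine (Finset.sum_le_sum fun x _ => key x).trans (le_of_eq ?_)
  rw [← Finset.sum_filter, Finset.sum_const, nsmul_eq_mul]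
  congr 2
  simp

/-- **the mean part of a block condition** -/
theorem te_rs (hb : 0 < b) (hl : l ∣ N) (h : s < t) {q : ℕ}
    (hq : q ∣ N / l) (B : Finset (V (N / l))) {T : Matrix (V (N / l)) (V (N / l)) ℝ} (hT : TC T)
    {t₀ : ℝ} (ht₀ : 0 < t₀) {X Q₁ δ : ℝ} (hX : 0 < X) (hQ : 0 < Q₁)
    (hAP : (gau (V (N / l))).real {g | δ < rsC N l b t₀ ((X * √t₀) • (H859.dB B *ᵥ g))} ≤ 1 / 30)
    {I : Type*} [Fintype I] {K : Matrix (V (N / l)) I ℝ} {a : ℝ}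
    (ha : 0 < a) (hK : ∀ φ : V (N / l) → ℝ, ∑ i, (Kᵀ *ᵥ φ) i ^ 2 ≤ a ^ 2 * ∑ i, φ i ^ 2)
    (hKn : ∀ g, Neu (K *ᵥ g)) (ha1 : 36 * Q₁ ^ 2 * a ^ 2 ≤ X ^ 2 * t₀) {r : ℝ} (hr : 0 < r)
    (h2 : ((bE B q T * Gnc N l b t s) * (bE B q T * Gnc N l b t s)ᵀ).trace ≤ r) :
    (gau I).real {g | δ < rsC N l b t₀ ((3 * Q₁) • (bE B q T *ᵥ (cobV N l *ᵥ ((cobV N l)ᵀ *ᵥ
      (K *ᵥ g) + (t - s) • (Gm (nMC N l b t s 0) *ᵥ ((cobV N l)ᵀ *ᵥ (K *ᵥ g)))))))} ≤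
      2 * Real.exp (-(X ^ 2 * t₀ / (252 * Q₁ ^ 2 * a ^ 2))) +
        Real.exp (1 / 2 - X ^ 2 * t₀ / (192 * Q₁ ^ 2 * (t - s) ^ 2 * a ^ 2 * r)) := by
  classical
  have hst : 0 < √t₀ := Real.sqrt_pos.2 ht₀
  have hts : 0 < t - s := sub_pos.2 h
  -- the noise
  set c : ℝ := X * √t₀ / (6 * Q₁ * a) with hc
  have hc1 : 1 ≤ c := by
    rw [hc, le_div_iff₀ (by positivity), one_mul]
    refine le_of_sq_le_sq ?_ (by positivity)
    rw [mul_pow, mul_pow, mul_pow, Real.sq_sqrt ht₀.le]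
    linarith
  have hp : (gau (V (N / l))).real {g | δ < rsC N l b t₀ (((X * √t₀) • H859.dB B) *ᵥ g)} ≤ 1 / 30 := by
    simpa only [smul_mulVec] using hAP
  have hpsd : (((X * √t₀) • H859.dB B) * ((X * √t₀) • H859.dB B)ᵀ -
      ((X * √t₀ * a⁻¹) • (bE B q T * K)) * ((X * √t₀ * a⁻¹) • (bE B q T * K))ᵀ).PosSemidef := by
    refine H859.psd_of ?_ fun φ => ?_
    · rw [transpose_sub, transpose_mul, transpose_mul, transpose_transpose, transpose_transpose]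
    · have e0 : qf (((X * √t₀) • H859.dB B) * ((X * √t₀) • H859.dB B)ᵀ -
          ((X * √t₀ * a⁻¹) • (bE B q T * K)) * ((X * √t₀ * a⁻¹) • (bE B q T * K))ᵀ) φ =
          (X * √t₀) ^ 2 * ∑ i, ((H859.dB B)ᵀ *ᵥ φ) i ^ 2 -
            (X * √t₀ * a⁻¹) ^ 2 * ∑ i, ((bE B q T * K)ᵀ *ᵥ φ) i ^ 2 := by
        rw [H864.qf_sub_mat, qf_mul_tr, qf_mul_tr, sq_smul_tr, sq_smul_tr]
      rw [e0, sub_nonneg]
      have e1 : ∑ i, ((bE B q T * K)ᵀ *ᵥ φ) i ^ 2 ≤ a ^ 2 * ∑ i, ((bE B q T)ᵀ *ᵥ φ) i ^ 2 := by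
        rw [transpose_mul, ← mulVec_mulVec]
        exact hK _
      have e2 : ∑ i, ((bE B q T)ᵀ *ᵥ φ) i ^ 2 ≤ ∑ i, ((H859.dB B)ᵀ *ᵥ φ) i ^ 2 := by
        rw [H663.bE_tr B hT, H663.dB_tr]
        exact (hT.contr _).trans (H663.fineP_sq_le hq _)
      have e3 : (X * √t₀ * a⁻¹) ^ 2 * (a ^ 2 * ∑ i, ((bE B q T)ᵀ *ᵥ φ) i ^ 2) =
          (X * √t₀) ^ 2 * ∑ i, ((bE B q T)ᵀ *ᵥ φ) i ^ 2 := by
        field_simp
      calc (X * √t₀ * a⁻¹) ^ 2 * ∑ i, ((bE B q T * K)ᵀ *ᵥ φ) i ^ 2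
          ≤ (X * √t₀ * a⁻¹) ^ 2 * (a ^ 2 * ∑ i, ((bE B q T)ᵀ *ᵥ φ) i ^ 2) :=
            mul_le_mul_of_nonneg_left e1 (sq_nonneg _)
        _ = (X * √t₀) ^ 2 * ∑ i, ((bE B q T)ᵀ *ᵥ φ) i ^ 2 := e3
        _ ≤ _ := mul_le_mul_of_nonneg_left e2 (sq_nonneg _)
  have h3 := H586.fern_small_f (rsC_meas (N := N) (l := l) hb.le ht₀) (rsC_convex hb.le ht₀)
    (fun v => rsC_even v) hpsd hp hc1
  -- the smooth part
  have h4 : ((((2 * (t - s)) • (bE B q T * Gnc N l b t s)) * K) *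
      (((2 * (t - s)) • (bE B q T * Gnc N l b t s)) * K)ᵀ).trace ≤ 4 * (t - s) ^ 2 * a ^ 2 * r := by
    refine (sum_tr_le hK _).trans ?_
    have e1 : (((2 * (t - s)) • (bE B q T * Gnc N l b t s)) *
        ((2 * (t - s)) • (bE B q T * Gnc N l b t s))ᵀ).trace =
        (2 * (t - s)) ^ 2 * ((bE B q T * Gnc N l b t s) * (bE B q T * Gnc N l b t s)ᵀ).trace := by
      rw [transpose_smul, Matrix.smul_mul, Matrix.mul_smul, smul_smul, trace_smul, smul_eq_mul]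
      ring
    rw [e1]
    calc a ^ 2 * ((2 * (t - s)) ^ 2 *
          ((bE B q T * Gnc N l b t s) * (bE B q T * Gnc N l b t s)ᵀ).trace)
        ≤ a ^ 2 * ((2 * (t - s)) ^ 2 * r) :=
          mul_le_mul_of_nonneg_left (mul_le_mul_of_nonneg_left h2 (sq_nonneg _)) (sq_nonneg _)
      _ = _ := by ring
  have h5 := gtail _ (T0 := 4 * (t - s) ^ 2 * a ^ 2 * r) (by positivity) h4
    (X ^ 2 * t₀ / (12 * Q₁ ^ 2))
  -- inclusion
  have hsub : {g : I → ℝ | δ < rsC N l b t₀ ((3 * Q₁) • (bE B q T *ᵥ (cobV N l *ᵥ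
      ((cobV N l)ᵀ *ᵥ (K *ᵥ g) +
        (t - s) • (Gm (nMC N l b t s 0) *ᵥ ((cobV N l)ᵀ *ᵥ (K *ᵥ g)))))))} ⊆
      {g | δ < rsC N l b t₀ (c⁻¹ • (((X * √t₀ * a⁻¹) • (bE B q T * K)) *ᵥ g))} ∪
        {g | X ^ 2 * t₀ / (12 * Q₁ ^ 2) <
          ∑ w, ((((2 * (t - s)) • (bE B q T * Gnc N l b t s)) * K) *ᵥ g) w ^ 2} := by
    intro g hg
    by_contra hno
    rw [Set.mem_union, not_or] at hno
    obtain ⟨n1, n2⟩ := hno
    have m1 : rsC N l b t₀ (c⁻¹ • (((X * √t₀ * a⁻¹) • (bE B q T * K)) *ᵥ g)) ≤ δ := not_lt.1 n1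
    have m2 : ∑ w, ((((2 * (t - s)) • (bE B q T * Gnc N l b t s)) * K) *ᵥ g) w ^ 2 ≤
        X ^ 2 * t₀ / (12 * Q₁ ^ 2) := not_lt.1 n2
    have e1 : c⁻¹ • (((X * √t₀ * a⁻¹) • (bE B q T * K)) *ᵥ g) =
        (6 * Q₁) • (bE B q T *ᵥ (K *ᵥ g)) := by
      rw [smul_mulVec, smul_smul, mulVec_mulVec]
      congr 1
      rw [hc]
      field_simp
    have e2 : (((2 * (t - s)) • (bE B q T * Gnc N l b t s)) * K) *ᵥ g =
        (2 * (t - s)) • (bE B q T *ᵥ (Gnc N l b t s *ᵥ (K *ᵥ g))) := by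
      rw [Matrix.smul_mul, smul_mulVec]
      simp only [mulVec_mulVec, Matrix.mul_assoc]
    rw [e1] at m1
    rw [e2] at m2
    have m3 := cRs_ball (N := N) (l := l) hb.le ht₀ hX hQ B hAP
      (w := (2 * (t - s)) • (bE B q T *ᵥ (Gnc N l b t s *ᵥ (K *ᵥ g)))) (by
        rw [mulVec_smul, bE_supp]) m2
    have m4 : rsC N l b t₀ (Q₁ • ((3 : ℝ) • ((2 * (t - s)) • (bE B q T *ᵥ
      (Gnc N l b t s *ᵥ (K *ᵥ g)))))) ≤ δ := m3
    have m5 := (rsC_convex (N := N) (l := l) hb.le ht₀).2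
      (Set.mem_univ ((6 * Q₁) • (bE B q T *ᵥ (K *ᵥ g))))
      (Set.mem_univ (Q₁ • ((3 : ℝ) • ((2 * (t - s)) • (bE B q T *ᵥ
        (Gnc N l b t s *ᵥ (K *ᵥ g)))))))
      (show (0 : ℝ) ≤ 1 / 2 by norm_num) (show (0 : ℝ) ≤ 1 / 2 by norm_num) (by norm_num)
    have e3 : (1 / 2 : ℝ) • ((6 * Q₁) • (bE B q T *ᵥ (K *ᵥ g))) +
        (1 / 2 : ℝ) • (Q₁ • ((3 : ℝ) • ((2 * (t - s)) • (bE B q T *ᵥ
          (Gnc N l b t s *ᵥ (K *ᵥ g)))))) =
        (3 * Q₁) • (bE B q T *ᵥ (cobV N l *ᵥ ((cobV N l)ᵀ *ᵥ (K *ᵥ g) +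
        (t - s) • (Gm (nMC N l b t s 0) *ᵥ ((cobV N l)ᵀ *ᵥ (K *ᵥ g)))))) := by
      rw [mean_field hl _ (bE_neu hq B hT) (hKn g)]
      module
    rw [e3] at m5
    simp only [smul_eq_mul] at m5
    have hg' : δ < rsC N l b t₀ ((3 * Q₁) • (bE B q T *ᵥ (cobV N l *ᵥ
      ((cobV N l)ᵀ *ᵥ (K *ᵥ g) +
        (t - s) • (Gm (nMC N l b t s 0) *ᵥ ((cobV N l)ᵀ *ᵥ (K *ᵥ g))))))) := hg
    linarith
  refine (measureReal_mono hsub (measure_ne_top _ _)).trans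
    ((measureReal_union_le _ _).trans (add_le_add (h3.trans (le_of_eq ?_))
      (h5.trans (le_of_eq ?_))))
  · congr 2
    rw [hc, div_pow, mul_pow, mul_pow, mul_pow, Real.sq_sqrt ht₀.le]
    field_simp
    ring
  · congr 2
    field_simp
    ring

end field

end

end Vale.Agent.P159.H276
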