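import Vale.Agent.P159.H276.Te1

/-!
P159 / typical source of the AP step (helper276), part 2.
* `Hs_row`  : variance of the difference of two block means of the mean field;
* `bsrc`    : the source `b` of the posterior, `e = b - Q G b` (hypothesis `he` of `ap4S`);
* `te_K4`   : the fourth cumulant at the typical `b`;
* `te_cls`  : all mean hypotheses of `H663.gs_class` and `hb4` of `ap4S`, one union bound.
-/

set_option linter.unusedSectionVars false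

namespace Vale.Agent.P159.H276

open Finset Matrix MeasureTheory ProbabilityTheory
open Vale.Agent.P159.TM.H104 (EM Ex Cv K3 Lg li nh Gr)
open Vale.Agent.P159.H37
open Vale.Agent.P159.TM.H764 (EE nrm)
open Vale.Agent.P159.TM.Spec (V)
open Vale.Agent.P159.H864 (TI sym fc ti_fc sym_fc cobV)
open Vale.Agent.P159.H963 (Neu Pn nMC nwt Gnc obsN)
open Vale.Agent.P159.H859 (Rk ti_Rk sym_Rk ravg)
open Vale.Agent.P159.H447 (K4S SN CN)
open Vale.Agent.P159.H663 (TC bE rsC cRs rowM trace_gram sq_vec_nonneg dot_self qf_mul_tr gau_tail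
  dB_mul_apply cRs_ball rsC_meas rsC_convex rsC_even bE_supp bE_neu mul_Pn_of_neu)

noncomputable section

variable {N l : ℕ} [NeZero N] [NeZero (N / l)] {b t s : ℝ}

/-! ### rows -/

lemma rowM_mul {S : Matrix (V (N / l)) (V (N / l)) ℝ} (hS : TI S) (r : V (N / l) → ℝ) :
    rowM r * S = rowM (S *ᵥ r) := by
  refine Matrix.ext_of_mulVec_single fun x => ?_
  rw [← mulVec_mulVec, H663.rowM_mulVec, H663.rowM_mulVec]
  congr 1
  rw [dotProduct_mulVec, ← mulVec_transpose, hS.transpose]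

/-- the response to the difference of two averages -/
lemma Gnc_diff (hb : 0 < b) (hl : l ∣ N) (hs : 0 < s) (h : s ≤ t) (x : V (N / l))
    {a a' : V (N / l) → ℝ} (a0 : ∀ y, 0 ≤ a y) (a1 : ∑ y, a y = 1) (a0' : ∀ y, 0 ≤ a' y)
    (a1' : ∑ y, a' y = 1) {D : ℝ} (hD : ∀ y, a y ≠ 0 → (nrm (y - x) : ℝ) ≤ D)
    (hD' : ∀ y, a' y ≠ 0 → (nrm (y - x) : ℝ) ≤ D) :
    ∑ y, (Gnc N l b t s *ᵥ (a - a')) y ^ 2 ≤
      4 * (2 * D ^ 2 * (1 / (s * ((N / l : ℕ) : ℝ) ^ 2 * (1 / b / (l : ℝ) ^ 2)) +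
        (1 + Real.log ((N / l : ℕ) : ℝ)) / (1 / b / (l : ℝ) ^ 2) ^ 2)) := by
  have hlR : (0 : ℝ) < l := by exact_mod_cast H864.l_pos hl
  have hκ : (0 : ℝ) < 1 / b / (l : ℝ) ^ 2 := by positivity
  have hG := H963.ti_Gnc (N := N) hb.le hl hs h
  have e1 : a - a' = ravg x a' - ravg x a := by
    funext y
    unfold H859.ravg
    simp only [Pi.sub_apply]
    ring
  have key : ∀ {c : V (N / l) → ℝ}, (∀ y, 0 ≤ c y) → ∑ y, c y = 1 →
      (∀ y, c y ≠ 0 → (nrm (y - x) : ℝ) ≤ D) →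
      ∑ y, (Gnc N l b t s *ᵥ ravg x c) y ^ 2 ≤
      2 * D ^ 2 * (1 / (s * ((N / l : ℕ) : ℝ) ^ 2 * (1 / b / (l : ℝ) ^ 2)) +
        (1 + Real.log ((N / l : ℕ) : ℝ)) / (1 / b / (l : ℝ) ^ 2) ^ 2) := by
    intro c c0 c1 cD
    rw [← sq_eq_sum]
    refine (H859.sq_mulVec_le hG hs hκ.le (H963.sym_Gnc_nonneg hb.le hl hs h)
      (fun k => H859.Gnck_dom hb.le hl hs h (κ := 1 / b) (by positivity)
        (by rw [mul_one_div_cancel hb.ne']) k) _).trans ?_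
    exact H859.sq_row hs hκ x c0 c1 cD
  have h1 := key a0' a1' hD'
  have h2 := key a0 a1 hD
  rw [e1, mulVec_sub]
  have h3 : ∑ y, (Gnc N l b t s *ᵥ ravg x a' - Gnc N l b t s *ᵥ ravg x a) y ^ 2 ≤
      2 * ∑ y, (Gnc N l b t s *ᵥ ravg x a') y ^ 2 + 2 * ∑ y, (Gnc N l b t s *ᵥ ravg x a) y ^ 2 := by
    rw [Finset.mul_sum, Finset.mul_sum, ← Finset.sum_add_distrib]
    refine Finset.sum_le_sum fun y _ => ?_
    rw [Pi.sub_apply]
    nlinarith [sq_nonneg ((Gnc N l b t s *ᵥ ravg x a') y + (Gnc N l b t s *ᵥ ravg x a) y)]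
  linarith

/-- **variance of the difference of two block means** -/
theorem Hs_row (hb : 0 < b) (hl : l ∣ N) (hs : 0 < s) (h : s ≤ t)
    {T : Matrix (V (N / l)) (V (N / l)) ℝ} (hT : TC T) (x : V (N / l))
    {a a' : V (N / l) → ℝ} (a0 : ∀ y, 0 ≤ a y) (a1 : ∑ y, a y = 1) (a0' : ∀ y, 0 ≤ a' y)
    (a1' : ∑ y, a' y = 1) {D m₂ : ℝ} (hD : ∀ y, a y ≠ 0 → (nrm (y - x) : ℝ) ≤ D)
    (hD' : ∀ y, a' y ≠ 0 → (nrm (y - x) : ℝ) ≤ D) (hm : ∑ y, (a - a') y ^ 2 ≤ m₂) :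
    ((rowM (T *ᵥ (a - a')) * Hs N l b t s) * (rowM (T *ᵥ (a - a')) * Hs N l b t s)ᵀ).trace ≤
      2 * m₂ + 16 * (t - s) ^ 2 * D ^ 2 *
        (1 / (s * ((N / l : ℕ) : ℝ) ^ 2 * (1 / b / (l : ℝ) ^ 2)) +
        (1 + Real.log ((N / l : ℕ) : ℝ)) / (1 / b / (l : ℝ) ^ 2) ^ 2) := by
  have hH := ti_Hs (N := N) hb.le hl hs h
  rw [rowM_mul hH, H663.rowM_trace, mulVec_mulVec, hH.comm hT.ti, ← mulVec_mulVec]
  refine (hT.contr _).trans ?_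
  have e1 : Hs N l b t s *ᵥ (a - a') = (a - a') + (t - s) • (Gnc N l b t s *ᵥ (a - a')) := by
    unfold Hs
    rw [Matrix.add_mulVec, Matrix.one_mulVec, Matrix.smul_mulVec]
  have h1 := Gnc_diff (N := N) hb hl hs h x a0 a1 a0' a1' hD hD'
  have h2 : ∑ y, ((a - a') + (t - s) • (Gnc N l b t s *ᵥ (a - a'))) y ^ 2 ≤
      2 * ∑ y, (a - a') y ^ 2 + 2 * ((t - s) ^ 2 * ∑ y, (Gnc N l b t s *ᵥ (a - a')) y ^ 2) := by
    rw [Finset.mul_sum, Finset.mul_sum, Finset.mul_sum, ← Finset.sum_add_distrib]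
    refine Finset.sum_le_sum fun y _ => ?_
    rw [Pi.add_apply, Pi.smul_apply, smul_eq_mul]
    nlinarith [sq_nonneg ((a - a') y - (t - s) * (Gnc N l b t s *ᵥ (a - a')) y)]
  rw [e1]
  refine h2.trans ?_
  have h3 := mul_le_mul_of_nonneg_left h1 (sq_nonneg (t - s))
  set Q : ℝ := 1 / (s * ((N / l : ℕ) : ℝ) ^ 2 * (1 / b / (l : ℝ) ^ 2)) +
    (1 + Real.log ((N / l : ℕ) : ℝ)) / (1 / b / (l : ℝ) ^ 2) ^ 2
  have e2 : (t - s) ^ 2 * (4 * (2 * D ^ 2 * Q)) = 8 * (t - s) ^ 2 * D ^ 2 * Q := by ring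
  rw [e2] at h3
  have e3 : 16 * (t - s) ^ 2 * D ^ 2 * Q = 2 * (8 * (t - s) ^ 2 * D ^ 2 * Q) := by ring
  rw [e3]
  linarith

/-! ### the source of the posterior -/

/-- the inverse response at the posterior mass -/
def Hp (N l : ℕ) [NeZero N] [NeZero (N / l)] (b t s : ℝ) : Matrix (V (N / l)) (V (N / l)) ℝ :=
  fc (fun x => 1 / (1 - (t - s) * x)) (Gnc N l b t t)

lemma ti_Hp (t s : ℝ) : TI (Hp N l b t s) := ti_fc _ _

lemma hp_pos (hb : 0 ≤ b) (hl : l ∣ N) (hs : 0 < s) (h : s ≤ t) (k : V (N / l)) :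
    s / t ≤ 1 - (t - s) * sym (Gnc N l b t t) k := by
  have ht : 0 < t := hs.trans_le h
  have h1 := H963.sym_Gnc_le (N := N) hb hl ht le_rfl k
  have h2 : (t - s) * sym (Gnc N l b t t) k ≤ (t - s) * t⁻¹ :=
    mul_le_mul_of_nonneg_left h1 (by linarith)
  have h3 : (t - s) * t⁻¹ = 1 - s / t := by
    field_simp
  linarith

lemma sym_Hp (hb : 0 ≤ b) (hl : l ∣ N) (hs : 0 < s) (h : s ≤ t) (k : V (N / l)) :
    0 < sym (Hp N l b t s) k ∧ sym (Hp N l b t s) k ≤ t / s := by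
  have ht : 0 < t := hs.trans_le h
  have h1 := hp_pos (N := N) hb hl hs h k
  have h0 : 0 < s / t := by positivity
  unfold Hp
  rw [sym_fc]
  refine ⟨one_div_pos.2 (h0.trans_le h1), ?_⟩
  refine (one_div_le_one_div_of_le h0 h1).trans (le_of_eq ?_)
  rw [one_div_div]

lemma Hp_sq (hb : 0 ≤ b) (hl : l ∣ N) (hs : 0 < s) (h : s ≤ t) (u : V (N / l) → ℝ) :
    ∑ x, (Hp N l b t s *ᵥ u) x ^ 2 ≤ (t / s) ^ 2 * ∑ x, u x ^ 2 := by
  refine sq_ti (ti_Hp t s) (fun k => ?_) u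
  obtain ⟨h1, h2⟩ := sym_Hp (N := N) hb hl hs h k
  nlinarith

lemma one_sub_mul_Hp (hb : 0 ≤ b) (hl : l ∣ N) (hs : 0 < s) (h : s ≤ t) :
    (1 - (t - s) • Gnc N l b t t) * Hp N l b t s = 1 := by
  have ht : 0 < t := hs.trans_le h
  have tG := H963.ti_Gnc (N := N) hb hl ht le_rfl
  have t1 : TI (1 - (t - s) • Gnc N l b t t : Matrix (V (N / l)) (V (N / l)) ℝ) :=
    TI.one.sub (tG.smul _)
  refine H864.sym_inj (t1.mul (ti_Hp t s)) TI.one fun k => ?_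
  have h1 := hp_pos (N := N) hb hl hs h k
  have h0 : 0 < s / t := by positivity
  rw [H864.sym_mul t1 (ti_Hp t s), H864.sym_sub, H864.sym_one, H864.sym_smul]
  unfold Hp
  rw [sym_fc]
  exact mul_one_div_cancel (h0.trans_le h1).ne'

/-- the source of the posterior -/
def bsrc (N l : ℕ) [NeZero N] [NeZero (N / l)] (b t s : ℝ) (e : V (N / l) → ℝ) : V N → ℝ :=
  (cobV N l)ᵀ *ᵥ (Hp N l b t s *ᵥ e)

lemma neu_ti {S : Matrix (V (N / l)) (V (N / l)) ℝ} (hS : TI S) {u : V (N / l) → ℝ} (hu : Neu u) :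
    Neu (S *ᵥ u) := by
  unfold H963.Neu at hu ⊢
  rw [H663.ti_sum hS, hu, mul_zero]

/-- the relation between the two sources (`he` of `ap4S`) -/
theorem bsrc_rel (hb : 0 ≤ b) (hl : l ∣ N) (hs : 0 < s) (h : s ≤ t) {e : V (N / l) → ℝ}
    (he : Neu e) :
    (cobV N l)ᵀ *ᵥ e = bsrc N l b t s e - (obsN N l (t - s))ᵀ *ᵥ (obsN N l (t - s) *ᵥ
      (Gm (post (nMC N l b t s 0) (obsN N l (t - s))) *ᵥ bsrc N l b t s e)) := by
  have ht : 0 < t := hs.trans_le h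
  have hp : post (nMC N l b t s 0) (obsN N l (t - s)) = nMC N l b t t 0 :=
    H963.post_nMC hl b h 0
  rw [hp]
  set β : V (N / l) → ℝ := Hp N l b t s *ᵥ e with hβ
  have hβn : Neu β := neu_ti (ti_Hp t s) he
  have hbs : bsrc N l b t s e = (cobV N l)ᵀ *ᵥ β := rfl
  rw [hbs]
  have e1 : (Pn : Matrix (V N) (V N) ℝ) *ᵥ ((cobV N l)ᵀ *ᵥ β) = (cobV N l)ᵀ *ᵥ β :=
    H963.Pn_of_neu (H963.neu_cobV_tr hl hβn)
  have e3 : Gnc N l b t t = cobV N l * ((Pn : Matrix (V N) (V N) ℝ) *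
      Gm (nMC N l b t t 0) * Pn) * (cobV N l)ᵀ := rfl
  have e4 : (Pn : Matrix (V (N / l)) (V (N / l)) ℝ) * cobV N l =
      cobV N l * (Pn : Matrix (V N) (V N) ℝ) := (H963.cobV_mul_Pn hl).symm
  have e5 : (obsN N l (t - s))ᵀ *ᵥ (obsN N l (t - s) *ᵥ
      (Gm (nMC N l b t t 0) *ᵥ ((cobV N l)ᵀ *ᵥ β))) =
      (t - s) • ((cobV N l)ᵀ *ᵥ (Gnc N l b t t *ᵥ β)) := by
    have f1 : (obsN N l (t - s))ᵀ * obsN N l (t - s) =
        (t - s) • ((cobV N l)ᵀ * ((Pn : Matrix (V (N / l)) (V (N / l)) ℝ) * cobV N l)) := by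
      unfold H963.obsN
      rw [transpose_smul, Matrix.smul_mul, Matrix.mul_smul, smul_smul,
        Real.mul_self_sqrt (sub_nonneg.2 h), transpose_mul, H963.Pn_transpose]
      congr 1
      rw [Matrix.mul_assoc, ← Matrix.mul_assoc Pn Pn, H963.Pn_mul_Pn]
    rw [mulVec_mulVec, f1, e4, smul_mulVec]
    congr 1
    conv_lhs => rw [← e1]
    rw [e3]
    simp only [mulVec_mulVec, Matrix.mul_assoc]
  rw [e5, ← mulVec_smul, ← mulVec_sub]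
  congr 1
  have e6 : β - (t - s) • (Gnc N l b t t *ᵥ β) = (1 - (t - s) • Gnc N l b t t) *ᵥ β := by
    rw [Matrix.sub_mulVec, Matrix.one_mulVec, Matrix.smul_mulVec]
  rw [e6, hβ, mulVec_mulVec, one_sub_mul_Hp hb hl hs h, one_mulVec]

/-- the trace form at the covariance of `b` -/
lemma K4S_bsrc (hb : 0 ≤ b) (hl : l ∣ N) (hs : 0 < s) (h : s ≤ t) {I : Type*} [Fintype I]
    {K : Matrix (V (N / l)) I ℝ} {a : ℝ}
    (hK : ∀ φ : V (N / l) → ℝ, ∑ i, (Kᵀ *ᵥ φ) i ^ 2 ≤ a ^ 2 * ∑ i, φ i ^ 2)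
    (hKn : ∀ g, Neu (K *ᵥ g)) :
    K4S (nwt N b t 0) (((cobV N l)ᵀ * (Hp N l b t s * K)) * ((cobV N l)ᵀ * (Hp N l b t s * K))ᵀ)
      (((cobV N l)ᵀ * (Hp N l b t s * K)) * ((cobV N l)ᵀ * (Hp N l b t s * K))ᵀ) ≤
      (a * (t / s)) ^ 4 * K4S (nwt N b t 0) (SN N l) (SN N l) := by
  have ht : 0 < t := hs.trans_le h
  set A : Matrix (V N) I ℝ := (cobV N l)ᵀ * (Hp N l b t s * K) with hA
  have hS : (A * Aᵀ).PosSemidef := H859.psd_of (by rw [transpose_mul, transpose_transpose])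
    fun φ => by rw [qf_mul_tr]; exact sq_vec_nonneg _
  have hd : (((a * (t / s)) ^ 2) • SN N l - A * Aᵀ).PosSemidef := by
    refine H859.psd_of ?_ fun φ => ?_
    · rw [transpose_sub, transpose_smul, H447.SN_tr hl, transpose_mul, transpose_transpose]
    · rw [H864.qf_sub_mat, H864.qf_smul_mat, qf_mul_tr, sub_nonneg, ← H447.CN_gram hl]
      have e1 : qf ((CN N l)ᵀ * CN N l) φ = ∑ i, (CN N l *ᵥ φ) i ^ 2 := by
        have := qf_mul_tr (CN N l)ᵀ φ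
        rwa [transpose_transpose] at this
      rw [e1]
      -- columns of `K` are neutral
      have e2 : Kᵀ *ᵥ (Hp N l b t s *ᵥ (cobV N l *ᵥ φ)) =
          Kᵀ *ᵥ (Hp N l b t s *ᵥ (CN N l *ᵥ φ)) := by
        have f1 : (Pn : Matrix (V (N / l)) (V (N / l)) ℝ) * K = K := by
          classical
          refine Matrix.ext_of_mulVec_single fun i => ?_
          rw [← mulVec_mulVec]
          exact H963.Pn_of_neu (hKn _)
        have f2 : Kᵀ = Kᵀ * (Pn : Matrix (V (N / l)) (V (N / l)) ℝ) := by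
          have := congrArg Matrix.transpose f1
          rw [transpose_mul, H963.Pn_transpose] at this
          exact this.symm
        have f3 : (Pn : Matrix (V (N / l)) (V (N / l)) ℝ) * Hp N l b t s =
            Hp N l b t s * Pn := (H963.ti_Pn.comm (ti_Hp t s))
        unfold H447.CN
        have f4 : ∀ v : V (N / l) → ℝ, Kᵀ *ᵥ v =
            Kᵀ *ᵥ ((Pn : Matrix (V (N / l)) (V (N / l)) ℝ) *ᵥ v) := by
          intro v
          conv_lhs => rw [f2]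
          rw [mulVec_mulVec]
        have f5 : (Pn : Matrix (V (N / l)) (V (N / l)) ℝ) *ᵥ (Hp N l b t s *ᵥ (cobV N l *ᵥ φ)) =
            Hp N l b t s *ᵥ ((Pn : Matrix (V (N / l)) (V (N / l)) ℝ) *ᵥ (cobV N l *ᵥ φ)) := by
          rw [mulVec_mulVec, f3, ← mulVec_mulVec]
        rw [f4, f5, mulVec_mulVec _ Pn]
      have e3 : Aᵀ *ᵥ φ = Kᵀ *ᵥ (Hp N l b t s *ᵥ (CN N l *ᵥ φ)) := by
        rw [← e2, hA, transpose_mul, transpose_mul, transpose_transpose, (ti_Hp t s).transpose]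
        simp only [mulVec_mulVec, Matrix.mul_assoc]
      rw [e3]
      refine (hK _).trans ?_
      have e4 := mul_le_mul_of_nonneg_left (Hp_sq (N := N) hb hl hs h (CN N l *ᵥ φ)) (sq_nonneg a)
      refine e4.trans (le_of_eq ?_)
      ring
  have h1 := H447.K4S_psd (H963.em_nwt (N := N) hb ht 0) (H963.ev_nwt hb t 0)
    (H963.pk_nwt hb ht 0) hS hd
  rw [H447.K4S_smul2] at h1
  refine h1.trans (le_of_eq ?_)
  ring

/-- **the fourth cumulant at the typical `b`** -/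
theorem te_K4 (hb : 0 ≤ b) (hl : l ∣ N) (hs : 0 < s) (h : s ≤ t) {I : Type*} [Fintype I]
    {K : Matrix (V (N / l)) I ℝ} {a : ℝ} (ha : 0 < a)
    (hK : ∀ φ : V (N / l) → ℝ, ∑ i, (Kᵀ *ᵥ φ) i ^ 2 ≤ a ^ 2 * ∑ i, φ i ^ 2)
    (hKn : ∀ g, Neu (K *ᵥ g)) {D₄ : ℝ} (hD : 0 < D₄)
    (hD4 : K4S (nwt N b t 0) (SN N l) (SN N l) ≤ D₄) {lam : ℝ} (hlam : 0 ≤ lam) :
    (gau I).real {g | lam * ((a * (t / s)) ^ 4 * D₄) <
      K4 (nwt N b t 0) (bsrc N l b t s (K *ᵥ g)) (bsrc N l b t s (K *ᵥ g))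
        (bsrc N l b t s (K *ᵥ g)) (bsrc N l b t s (K *ᵥ g))} ≤
      6 * Real.exp (-(√lam / 10)) := by
  have ht : 0 < t := hs.trans_le h
  have hc : 0 < (a * (t / s)) ^ 4 := by positivity
  have h1 := (K4S_bsrc (N := N) hb hl hs h hK hKn).trans (mul_le_mul_of_nonneg_left hD4 hc.le)
  have h2 := H447.K4_tail_exp (H963.em_nwt (N := N) hb ht 0) (H963.ev_nwt hb t 0)
    (H963.pk_nwt hb ht 0) ((cobV N l)ᵀ * (Hp N l b t s * K)) (by positivity) h1 hlam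
  refine le_trans (measureReal_mono (fun g hg => ?_) (measure_ne_top _ _)) h2
  have e1 : bsrc N l b t s (K *ᵥ g) = ((cobV N l)ᵀ * (Hp N l b t s * K)) *ᵥ g := by
    unfold bsrc
    simp only [mulVec_mulVec]
  have hg' : lam * ((a * (t / s)) ^ 4 * D₄) <
      K4 (nwt N b t 0) (bsrc N l b t s (K *ᵥ g)) (bsrc N l b t s (K *ᵥ g))
        (bsrc N l b t s (K *ᵥ g)) (bsrc N l b t s (K *ᵥ g)) := hg
  rw [e1] at hg'
  exact hg'.le

/-! ### the union bound -/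

/-- the mean conditions of `H663.gs_class` for the source `e` -/
structure MeanOK (N l : ℕ) [NeZero N] [NeZero (N / l)] (b t s t₀ Q₁ δ : ℝ) (q : ℕ)
    (T : Matrix (V (N / l)) (V (N / l)) ℝ) {ι₁ ι₂ : Type*} (Bl : ι₁ → Finset (V (N / l)))
    (F : ι₂ → Matrix (V (N / l)) (V (N / l)) ℝ) (u : ι₂ → ℝ) (e : V (N / l) → ℝ) : Prop where
  hm : ∀ i, rsC N l b t₀ ((3 * Q₁) • (bE (Bl i) q T *ᵥ (cobV N l *ᵥ ((cobV N l)ᵀ *ᵥ e +
      (t - s) • (Gm (nMC N l b t s 0) *ᵥ ((cobV N l)ᵀ *ᵥ e)))))) ≤ δ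
  hm2 : ∀ j, 9 * ∑ w, (F j *ᵥ (cobV N l *ᵥ ((cobV N l)ᵀ *ᵥ e +
      (t - s) • (Gm (nMC N l b t s 0) *ᵥ ((cobV N l)ᵀ *ᵥ e))))) w ^ 2 ≤ u j

/-- **the mean conditions hold for the typical source** -/
theorem te_cls (hb : 0 < b) (hl : l ∣ N) (h : s < t) {q : ℕ} (hq : q ∣ N / l)
    {ι₁ ι₂ : Type*} [Fintype ι₁] [Fintype ι₂] (Bl : ι₁ → Finset (V (N / l)))
    {T : Matrix (V (N / l)) (V (N / l)) ℝ} (hT : TC T)
    {t₀ : ℝ} (ht₀ : 0 < t₀) {X Q₁ δ : ℝ} (hX : 0 < X) (hQ : 0 < Q₁)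
    (hAP : ∀ i, (gau (V (N / l))).real
      {g | δ < rsC N l b t₀ ((X * √t₀) • (H859.dB (Bl i) *ᵥ g))} ≤ 1 / 30)
    {I : Type*} [Fintype I] {K : Matrix (V (N / l)) I ℝ} {a : ℝ}
    (ha : 0 < a) (hK : ∀ φ : V (N / l) → ℝ, ∑ i, (Kᵀ *ᵥ φ) i ^ 2 ≤ a ^ 2 * ∑ i, φ i ^ 2)
    (hKn : ∀ g, Neu (K *ᵥ g)) (ha1 : 36 * Q₁ ^ 2 * a ^ 2 ≤ X ^ 2 * t₀) {r₁ : ι₁ → ℝ}
    (hr1 : ∀ i, 0 < r₁ i)
    (h1 : ∀ i, ((bE (Bl i) q T * Gnc N l b t s) * (bE (Bl i) q T * Gnc N l b t s)ᵀ).trace ≤ r₁ i)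
    (F : ι₂ → Matrix (V (N / l)) (V (N / l)) ℝ) (hF : ∀ j w, Neu (F j w)) {r₂ : ι₂ → ℝ}
    (hr2 : ∀ j, 0 < r₂ j)
    (h2 : ∀ j, ((F j * Hs N l b t s) * (F j * Hs N l b t s)ᵀ).trace ≤ r₂ j) (u : ι₂ → ℝ) :
    (gau I).real {g | ¬ MeanOK N l b t s t₀ Q₁ δ q T Bl F u (K *ᵥ g)} ≤
      ∑ i, (2 * Real.exp (-(X ^ 2 * t₀ / (252 * Q₁ ^ 2 * a ^ 2))) +
        Real.exp (1 / 2 - X ^ 2 * t₀ / (192 * Q₁ ^ 2 * (t - s) ^ 2 * a ^ 2 * r₁ i))) +
      ∑ j, Real.exp (1 / 2 - u j / (36 * a ^ 2 * r₂ j)) := by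
  set A : ι₁ → Set (I → ℝ) := fun i => {g | δ < rsC N l b t₀ ((3 * Q₁) • (bE (Bl i) q T *ᵥ
    (cobV N l *ᵥ ((cobV N l)ᵀ *ᵥ (K *ᵥ g) +
      (t - s) • (Gm (nMC N l b t s 0) *ᵥ ((cobV N l)ᵀ *ᵥ (K *ᵥ g)))))))} with hA
  set B : ι₂ → Set (I → ℝ) := fun j => {g | u j < 9 * ∑ w, (F j *ᵥ (cobV N l *ᵥ
    ((cobV N l)ᵀ *ᵥ (K *ᵥ g) +
      (t - s) • (Gm (nMC N l b t s 0) *ᵥ ((cobV N l)ᵀ *ᵥ (K *ᵥ g)))))) w ^ 2} with hB
  have hsub : {g : I → ℝ | ¬ MeanOK N l b t s t₀ Q₁ δ q T Bl F u (K *ᵥ g)} ⊆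
      (⋃ i, A i) ∪ ⋃ j, B j := by
    intro g hg
    by_contra hno
    rw [Set.mem_union, not_or, Set.mem_iUnion, Set.mem_iUnion, not_exists, not_exists] at hno
    exact hg ⟨fun i => not_lt.1 (hno.1 i), fun j => not_lt.1 (hno.2 j)⟩
  refine (measureReal_mono hsub (measure_ne_top _ _)).trans
    ((measureReal_union_le _ _).trans (add_le_add ?_ ?_))
  · refine (measureReal_iUnion_fintype_le _).trans (Finset.sum_le_sum fun i _ => ?_)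
    exact te_rs hb hl h hq (Bl i) hT ht₀ hX hQ (hAP i) ha hK hKn ha1 (hr1 i) (h1 i)
  · refine (measureReal_iUnion_fintype_le _).trans (Finset.sum_le_sum fun j _ => ?_)
    exact te_ball hl ha hK hKn (hF j) (hr2 j) (h2 j) (u j)

end

end Vale.Agent.P159.H276
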