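import Vale.Agent.P159.H276.Uf2

/-!
P159, module UBF (helper276), part 3: fields on the plane and on the tori.  `dec`, `decE` carry a
function and an edge field of finite support to any torus; divergences and sums; charts.
-/

set_option linter.unusedSectionVars false

namespace Vale.Agent.P159.H276

open Finset
open Vale.Agent.P159.TM.Spec (V)
open Vale.Agent.P159.H817 (gr dv nrm e1 e2 eb sz dec SuppD)

noncomputable section

/-- divergence on the plane -/
def dvZ (j : ℤ → ℤ → Bool → ℝ) (a c : ℤ) : ℝ :=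
  (j (a - 1) c false - j a c false) + (j a (c - 1) true - j a c true)

/-- edge field supported in the box of radius `ρ` -/
def SuppJ (ρ : ℕ) (j : ℤ → ℤ → Bool → ℝ) : Prop :=
  ∀ a c o, j a c o ≠ 0 → a.natAbs ≤ ρ ∧ c.natAbs ≤ ρ

/-- sum over the box of radius `ρ` -/
def bxs (ρ : ℕ) (G : ℤ → ℤ → ℝ) : ℝ := ∑ a ∈ Icc (-(ρ : ℤ)) ρ, ∑ c ∈ Icc (-(ρ : ℤ)) ρ, G a c

lemma mem_bx {ρ : ℕ} {a : ℤ} : a ∈ Icc (-(ρ : ℤ)) ρ ↔ a.natAbs ≤ ρ := by
  rw [mem_Icc]
  omega

/-- an edge field of the plane on the torus -/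
def decE {N : ℕ} (j : ℤ → ℤ → Bool → ℝ) (p : V N) (e : V N × Bool) : ℝ :=
  j (e.1 - p).1.valMinAbs (e.1 - p).2.valMinAbs e.2

/-- the chart -/
def crt {N : ℕ} (G : V N → ℝ) (p : V N) (ρ : ℕ) (a c : ℤ) : ℝ :=
  if a.natAbs ≤ ρ ∧ c.natAbs ≤ ρ then G (p + ((a : ZMod N), (c : ZMod N))) else 0

lemma supp_crt {N : ℕ} (G : V N → ℝ) (p : V N) (ρ : ℕ) : SuppD ρ (crt G p ρ) := by
  intro a c h
  unfold crt at h
  by_contra hcon
  exact h (if_neg hcon)

section tor

variable {N : ℕ} [NeZero N]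

lemma vma_of {k : ℤ} (h : 2 * k.natAbs < N) : ((k : ℤ) : ZMod N).valMinAbs = k := by
  rw [ZMod.valMinAbs_spec]
  refine ⟨rfl, ?_⟩
  rw [Set.mem_Ioc]
  omega

/-- one step to the left -/
lemma vma_pred {ρ : ℕ} (hN : 2 * ρ + 4 < N) {g : ℤ → ℝ} (hg : ∀ a, g a ≠ 0 → a.natAbs ≤ ρ)
    (v : ZMod N) : g ((v - 1).valMinAbs) = g (v.valMinAbs - 1) := by
  rcases Nat.lt_or_ge (ρ + 1) v.valMinAbs.natAbs with h | h
  · have h1 : g (v.valMinAbs - 1) = 0 := by
      by_contra h0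
      have := hg _ h0
      omega
    have h2 : g ((v - 1).valMinAbs) = 0 := by
      by_contra h0
      have h3 := hg _ h0
      have h4 := ZMod.natAbs_valMinAbs_add_le (v - 1) 1
      rw [sub_add_cancel] at h4
      have h5 : ((v - 1).valMinAbs + (1 : ZMod N).valMinAbs).natAbs ≤ ρ + 1 := by
        have h6 : (1 : ZMod N).valMinAbs = 1 := by
          have := vma_of (N := N) (k := 1) (by omega)
          rwa [Int.cast_one] at this
        rw [h6]
        omega
      omega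
    rw [h1, h2]
  · congr 1
    have e : v - 1 = (((v.valMinAbs - 1 : ℤ)) : ZMod N) := by
      rw [Int.cast_sub, ZMod.coe_valMinAbs, Int.cast_one]
    rw [e]
    exact vma_of (by omega)

/-- **the divergence on the torus** -/
theorem dv_decE {ρ : ℕ} (hN : 2 * ρ + 4 < N) {j : ℤ → ℤ → Bool → ℝ} (hj : SuppJ ρ j) (p x : V N) :
    dv (decE j p) x = dec (dvZ j) p x := by
  have h1 := vma_pred hN (g := fun a => j a (x - p).2.valMinAbs false)
    (fun a h => (hj _ _ _ h).1) (x - p).1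
  have h2 := vma_pred hN (g := fun c => j (x - p).1.valMinAbs c true)
    (fun a h => (hj _ _ _ h).2) (x - p).2
  have k1 : ((x - e1 - p : V N)).1 = (x - p).1 - 1 := by
    show x.1 - 1 - p.1 = x.1 - p.1 - 1
    ring
  have k2 : ((x - e1 - p : V N)).2 = (x - p).2 := by
    show x.2 - 0 - p.2 = x.2 - p.2
    ring
  have k3 : ((x - e2 - p : V N)).1 = (x - p).1 := by
    show x.1 - 0 - p.1 = x.1 - p.1
    ring
  have k4 : ((x - e2 - p : V N)).2 = (x - p).2 - 1 := by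
    show x.2 - 1 - p.2 = x.2 - p.2 - 1
    ring
  unfold dv decE dec dvZ
  rw [← h1, ← h2, k1, k2, k3, k4]

/-- the sum in one direction -/
lemma sum_vma {ρ : ℕ} (hN : 2 * ρ < N) {g : ℤ → ℝ} (hg : ∀ a : ℤ, ρ < a.natAbs → g a = 0) :
    ∑ v : ZMod N, g v.valMinAbs = ∑ a ∈ Icc (-(ρ : ℤ)) ρ, g a := by
  classical
  rw [← sum_filter_add_sum_filter_not univ (fun v : ZMod N => v.valMinAbs.natAbs ≤ ρ)]
  have h0 : ∑ v ∈ univ.filter (fun v : ZMod N => ¬ v.valMinAbs.natAbs ≤ ρ), g v.valMinAbs = 0 :=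
    sum_eq_zero fun v hv => hg _ (not_le.1 (mem_filter.1 hv).2)
  rw [h0, add_zero]
  refine sum_nbij' (fun v => v.valMinAbs) (fun a => (a : ZMod N)) ?_ ?_ ?_ ?_ ?_
  · intro v hv
    exact mem_bx.2 (mem_filter.1 hv).2
  · intro a ha
    refine mem_filter.2 ⟨mem_univ _, ?_⟩
    have := mem_bx.1 ha
    rw [vma_of (by omega)]
    exact this
  · intro v _
    exact ZMod.coe_valMinAbs v
  · intro a ha
    have := mem_bx.1 ha
    exact vma_of (by omega)
  · intro v _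
    rfl

/-- **sums over the torus** -/
theorem sum_dec {ρ : ℕ} (hN : 2 * ρ < N) {G : ℤ → ℤ → ℝ} (hG : SuppD ρ G) (p : V N) :
    ∑ x, dec G p x = bxs ρ G := by
  have h0 : ∑ x, dec G p x = ∑ x : V N, G x.1.valMinAbs x.2.valMinAbs :=
    Equiv.sum_comp (Equiv.subRight p) fun x : V N => G x.1.valMinAbs x.2.valMinAbs
  have h1 : ∑ x : V N, G x.1.valMinAbs x.2.valMinAbs =
      ∑ v : ZMod N, ∑ w : ZMod N, G v.valMinAbs w.valMinAbs := by
    rw [Fintype.sum_prod_type]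
  have hG1 : ∀ a c : ℤ, ρ < a.natAbs → G a c = 0 := by
    intro a c h
    by_contra h2
    have := (hG _ _ h2).1
    omega
  have hG2 : ∀ a c : ℤ, ρ < c.natAbs → G a c = 0 := by
    intro a c h
    by_contra h2
    have := (hG _ _ h2).2
    omega
  rw [h0, h1]
  have h2 : ∀ v : ZMod N, ∑ w : ZMod N, G v.valMinAbs w.valMinAbs =
      ∑ c ∈ Icc (-(ρ : ℤ)) ρ, G v.valMinAbs c := fun v =>
    sum_vma hN fun c hc => hG2 _ _ hc
  rw [sum_congr rfl fun v _ => h2 v]
  exact sum_vma hN (g := fun a => ∑ c ∈ Icc (-(ρ : ℤ)) ρ, G a c)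
    fun a ha => sum_eq_zero fun c _ => hG1 _ _ ha

lemma dec_crt {G : V N → ℝ} {p : V N} {ρ : ℕ} (hG : ∀ x, G x ≠ 0 → sz (x - p) ≤ ρ) (x : V N) :
    dec (crt G p ρ) p x = G x := by
  unfold dec crt
  have e : p + (((x - p).1.valMinAbs : ZMod N), ((x - p).2.valMinAbs : ZMod N)) = x := by
    rw [ZMod.coe_valMinAbs, ZMod.coe_valMinAbs]
    show p + (x - p) = x
    abel
  rw [e]
  split_ifs with h
  · rfl
  · by_contra h0
    refine h ?_
    have h1 := hG x (Ne.symm h0)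
    unfold H817.sz at h1
    exact max_le_iff.1 h1

lemma crt_dec {F : ℤ → ℤ → ℝ} {ρ ρ' : ℕ} (hN : 2 * ρ' < N) (hF : SuppD ρ F) (hρ : ρ ≤ ρ')
    (p : V N) : crt (dec F p) p ρ' = F := by
  funext a c
  unfold crt
  split_ifs with h
  · unfold dec
    rw [add_sub_cancel_left]
    simp only
    rw [vma_of (by omega), vma_of (by omega)]
  · by_contra h0
    have := hF a c (Ne.symm h0)
    omega

/-- functions of finite support on the plane are determined by the torus -/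
lemma dec_inj {F F' : ℤ → ℤ → ℝ} {ρ : ℕ} (hN : 2 * ρ < N) (hF : SuppD ρ F) (hF' : SuppD ρ F')
    {p : V N} (h : ∀ x, dec F p x = dec F' p x) : F = F' := by
  rw [← crt_dec hN hF le_rfl p, ← crt_dec hN hF' le_rfl p, funext h]

lemma supp_dvZ {ρ : ℕ} {j : ℤ → ℤ → Bool → ℝ} (hj : SuppJ ρ j) : SuppD (ρ + 1) (dvZ j) := by
  intro a c h
  by_contra hcon
  refine h ?_
  have h1 : j (a - 1) c false = 0 := by
    by_contra h0
    have := hj _ _ _ h0
    omega
  have h2 : j a c false = 0 := by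
    by_contra h0
    have := hj _ _ _ h0
    omega
  have h3 : j a (c - 1) true = 0 := by
    by_contra h0
    have := hj _ _ _ h0
    omega
  have h4 : j a c true = 0 := by
    by_contra h0
    have := hj _ _ _ h0
    omega
  unfold dvZ
  rw [h1, h2, h3, h4]
  ring

/-- the chart of an edge field -/
def crtE (j : V N × Bool → ℝ) (p : V N) (ρ : ℕ) (a c : ℤ) (o : Bool) : ℝ :=
  crt (fun x => j (x, o)) p ρ a c

lemma supp_crtE (j : V N × Bool → ℝ) (p : V N) (ρ : ℕ) : SuppJ ρ (crtE j p ρ) := fun a c _ h =>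
  supp_crt _ p ρ a c h

lemma decE_crtE {j : V N × Bool → ℝ} {p : V N} {ρ : ℕ} (hj : ∀ e, j e ≠ 0 → sz (e.1 - p) ≤ ρ)
    (e : V N × Bool) : decE (crtE j p ρ) p e = j e :=
  dec_crt (G := fun x => j (x, e.2)) (fun x h => hj (x, e.2) h) e.1

end tor

end

end Vale.Agent.P159.H276
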