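import Vale.Agent.P159.H276.Uf3

/-!
P159, module UBF (helper276), part 4: **the class `FlD`** of decorations with a flow; closures; the
class from the numbers `Qa, Qb, Qc` of one torus.
-/

set_option linter.unusedSectionVars false

namespace Vale.Agent.P159.H276

open Finset
open Vale.Agent.P159.TM.Spec (V)
open Vale.Agent.P159.H817 (gr dv nrm e1 e2 eb sz dec SuppD rfl2 U gr_eq)
open Vale.Agent.P159.H864 (lapM)

noncomputable section

/-- **a flow of the decoration `F`** : `t F = K + div j` in the box of radius `ρ`, `j = 0` near the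
origin -/
structure Flo (t : ℝ) (ρ r : ℕ) (F K : ℤ → ℤ → ℝ) (j : ℤ → ℤ → Bool → ℝ) : Prop where
  F0 : SuppD ρ F
  K0 : SuppD ρ K
  j0 : SuppJ ρ j
  jr : ∀ a c o, a.natAbs ≤ r + 1 → c.natAbs ≤ r + 1 → j a c o = 0
  j1 : ∀ a c o, |j a c o| ≤ 1
  eq : ∀ a c, t * F a c = K a c + dvZ j a c

/-- **the class** : `|K|² ≤ t A`, `|j|² ≤ J` -/
def FlD (t : ℝ) (ρ r : ℕ) (A J : ℝ) (F : ℤ → ℤ → ℝ) : Prop :=
  ∃ K j, Flo t ρ r F K j ∧ bxs ρ (fun a c => K a c ^ 2) ≤ t * A ∧
    bxs ρ (fun a c => j a c false ^ 2 + j a c true ^ 2) ≤ J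

lemma bxs_mono {ρ ρ' : ℕ} {G : ℤ → ℤ → ℝ} (h : ρ ≤ ρ') (hG : ∀ a c, 0 ≤ G a c) :
    bxs ρ G ≤ bxs ρ' G := by
  unfold bxs
  have hs : Icc (-(ρ : ℤ)) ρ ⊆ Icc (-(ρ' : ℤ)) ρ' := Icc_subset_Icc (by omega) (by omega)
  refine (sum_le_sum fun a _ => sum_le_sum_of_subset_of_nonneg hs fun c _ _ => hG a c).trans ?_
  exact sum_le_sum_of_subset_of_nonneg hs fun a _ _ => sum_nonneg fun c _ => hG a c

lemma bxs_eq {ρ ρ' : ℕ} {G : ℤ → ℤ → ℝ} (h : ρ ≤ ρ') (hG : SuppD ρ G) : bxs ρ G = bxs ρ' G := by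
  have h1 := sum_dec (N := 2 * ρ' + 1) (by omega) hG 0
  have hG' : SuppD ρ' G := fun a c hh => ⟨(hG a c hh).1.trans h, (hG a c hh).2.trans h⟩
  have h2 := sum_dec (N := 2 * ρ' + 1) (by omega) hG' 0
  rw [← h1, h2]

section clo

variable {t A J : ℝ} {ρ r : ℕ} {F : ℤ → ℤ → ℝ}

lemma FlD.mono (h : FlD t ρ r A J F) (ht : 0 ≤ t) {ρ' r' : ℕ} {A' J' : ℝ} (h1 : ρ ≤ ρ')
    (h2 : r' ≤ r) (h3 : A ≤ A') (h4 : J ≤ J') : FlD t ρ' r' A' J' F := by
  obtain ⟨K, j, hf, hK, hj⟩ := h
  refine ⟨K, j, ⟨fun a c hh => ?_, fun a c hh => ?_, fun a c o hh => ?_, fun a c o ha hc => ?_,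
    hf.j1, hf.eq⟩, ?_, ?_⟩
  · have := hf.F0 a c hh
    omega
  · have := hf.K0 a c hh
    omega
  · have := hf.j0 a c o hh
    omega
  · exact hf.jr a c o (by omega) (by omega)
  · rw [← bxs_eq h1 fun a c hh => hf.K0 a c fun h0 => hh (by rw [h0]; ring)]
    exact hK.trans (mul_le_mul_of_nonneg_left h3 ht)
  · rw [← bxs_eq h1]
    · exact hj.trans h4
    · intro a c hh
      by_contra hcon
      refine hh ?_
      have e : ∀ o, j a c o = 0 := fun o => by
        by_contra h0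
        exact hcon (hf.j0 a c o h0)
      show j a c false ^ 2 + j a c true ^ 2 = 0
      rw [e, e]
      ring

lemma FlD.neg (h : FlD t ρ r A J F) : FlD t ρ r A J (fun a c => -F a c) := by
  obtain ⟨K, j, hf, hK, hj⟩ := h
  refine ⟨fun a c => -K a c, fun a c o => -j a c o, ⟨fun a c hh => hf.F0 a c fun h0 => hh (by
    rw [h0, neg_zero]), fun a c hh => hf.K0 a c fun h0 => hh (by rw [h0, neg_zero]),
    fun a c o hh => hf.j0 a c o fun h0 => hh (by rw [h0, neg_zero]),
    fun a c o ha hc => by rw [hf.jr a c o ha hc, neg_zero], fun a c o => by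
    rw [abs_neg]; exact hf.j1 a c o, fun a c => ?_⟩, ?_, ?_⟩
  · have h1 := hf.eq a c
    unfold dvZ at h1 ⊢
    linarith
  · simpa only [neg_sq] using hK
  · simpa only [neg_sq] using hj

/-- sums over a box are invariant under the reflection of the second coordinate -/
lemma bxs_rfl {ρ : ℕ} {G : ℤ → ℤ → ℝ} (hG : SuppD ρ G) :
    bxs (ρ + 1) (fun a c => G a (1 - c)) = bxs ρ G := by
  have h1 : ∀ a, ∑ c ∈ Icc (-((ρ + 1 : ℕ) : ℤ)) ((ρ + 1 : ℕ) : ℤ), G a (1 - c) =
      ∑ c ∈ Icc (-(ρ : ℤ)) ρ, G a c := by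
    intro a
    have h2 : ∑ c ∈ Icc (-(ρ : ℤ)) ρ, G a c = ∑ c ∈ Icc (1 - (ρ : ℤ)) (1 + ρ), G a (1 - c) := by
      refine sum_nbij' (fun c => 1 - c) (fun c => 1 - c) ?_ ?_ ?_ ?_ ?_
      · intro c hc
        rw [mem_Icc] at hc ⊢
        omega
      · intro c hc
        rw [mem_Icc] at hc ⊢
        omega
      · intro c _
        ring
      · intro c _
        ring
      · intro c _
        congr 1
        ring
    rw [h2]
    symm
    refine sum_subset (Icc_subset_Icc (by push_cast; omega) (by push_cast; omega)) fun c _ hc => ?_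
    by_contra h0
    have := (hG _ _ h0).2
    rw [mem_Icc] at hc
    omega
  unfold bxs
  simp only [h1]
  symm
  refine sum_subset (Icc_subset_Icc (by push_cast; omega) (by push_cast; omega)) fun a _ ha => ?_
  refine sum_eq_zero fun c _ => ?_
  by_contra h0
  have := (hG _ _ h0).1
  rw [mem_Icc] at ha
  omega

lemma bxs_rfl0 {ρ : ℕ} {G : ℤ → ℤ → ℝ} (hG : SuppD ρ G) :
    bxs (ρ + 1) (fun a c => G a (-c)) = bxs ρ G := by
  have h1 : ∀ a, ∑ c ∈ Icc (-((ρ + 1 : ℕ) : ℤ)) ((ρ + 1 : ℕ) : ℤ), G a (-c) =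
      ∑ c ∈ Icc (-(ρ : ℤ)) ρ, G a c := by
    intro a
    have h2 : ∑ c ∈ Icc (-(ρ : ℤ)) ρ, G a c = ∑ c ∈ Icc (-(ρ : ℤ)) ρ, G a (-c) := by
      refine sum_nbij' (fun c => -c) (fun c => -c) ?_ ?_ ?_ ?_ ?_
      · intro c hc
        rw [mem_Icc] at hc ⊢
        omega
      · intro c hc
        rw [mem_Icc] at hc ⊢
        omega
      · intro c _
        ring
      · intro c _
        ring
      · intro c _
        congr 1
        ring
    rw [h2]
    symm
    refine sum_subset (Icc_subset_Icc (by push_cast; omega) (by push_cast; omega)) fun c _ hc => ?_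
    by_contra h0
    have := (hG _ _ h0).2
    rw [mem_Icc] at hc
    omega
  unfold bxs
  simp only [h1]
  symm
  refine sum_subset (Icc_subset_Icc (by push_cast; omega) (by push_cast; omega)) fun a _ ha => ?_
  refine sum_eq_zero fun c _ => ?_
  by_contra h0
  have := (hG _ _ h0).1
  rw [mem_Icc] at ha
  omega

lemma bxs_add (ρ : ℕ) (G G' : ℤ → ℤ → ℝ) :
    bxs ρ (fun a c => G a c + G' a c) = bxs ρ G + bxs ρ G' := by
  unfold bxs
  simp only [sum_add_distrib]

/-- **the reflected decoration** (helper817's `rfl2`) -/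
lemma FlD.rfl2 (h : FlD t ρ (r + 1) A J F) : FlD t (ρ + 1) r A J (rfl2 F) := by
  obtain ⟨K, j, hf, hK, hj⟩ := h
  refine ⟨fun a c => K a (1 - c), fun a c o => if o then -j a (-c) true else j a (1 - c) false,
    ⟨fun a c hh => ?_, fun a c hh => ?_, fun a c o hh => ?_, fun a c o ha hc => ?_,
      fun a c o => ?_, fun a c => ?_⟩, ?_, ?_⟩
  · have := hf.F0 a (1 - c) hh
    omega
  · have := hf.K0 a (1 - c) hh
    omega
  · cases o
    · simp only [Bool.false_eq_true, if_false] at hh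
      have := hf.j0 _ _ _ hh
      omega
    · simp only [if_true] at hh
      have := hf.j0 a (-c) true fun h0 => hh (by rw [h0, neg_zero])
      omega
  · cases o
    · simp only [Bool.false_eq_true, if_false]
      exact hf.jr _ _ _ (by omega) (by omega)
    · simp only [if_true]
      rw [hf.jr _ _ _ (by omega) (by omega), neg_zero]
  · cases o
    · simp only [Bool.false_eq_true, if_false]
      exact hf.j1 _ _ _
    · simp only [if_true]
      rw [abs_neg]
      exact hf.j1 _ _ _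
  · have h1 := hf.eq a (1 - c)
    have e1 : -(c - 1) = 1 - c := by ring
    have e2 : (1 - c) - 1 = -c := by ring
    unfold dvZ at h1 ⊢
    simp only [Bool.false_eq_true, if_false, if_true]
    rw [e1]
    rw [e2] at h1
    unfold H817.rfl2
    linarith
  · have h1 := bxs_rfl (ρ := ρ) (G := fun a c => K a c ^ 2)
      fun a c hh => hf.K0 a c fun h0 => hh (by
        show K a c ^ 2 = 0
        rw [h0]
        ring)
    have h2 : (bxs (ρ + 1) fun a c => K a (1 - c) ^ 2) = bxs ρ fun a c => K a c ^ 2 := h1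
    rw [h2]
    exact hK
  · have h1 := bxs_rfl (ρ := ρ) (G := fun a c => j a c false ^ 2)
      fun a c hh => hf.j0 a c false fun h0 => hh (by
        show j a c false ^ 2 = 0
        rw [h0]
        ring)
    have h2 := bxs_rfl0 (ρ := ρ) (G := fun a c => j a c true ^ 2)
      fun a c hh => hf.j0 a c true fun h0 => hh (by
        show j a c true ^ 2 = 0
        rw [h0]
        ring)
    rw [bxs_add] at hj
    simp only [Bool.false_eq_true, if_false, if_true, neg_sq]
    rw [bxs_add]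
    have h1' : (bxs (ρ + 1) fun a c => j a (1 - c) false ^ 2) = bxs ρ fun a c => j a c false ^ 2 := h1
    have h2' : (bxs (ρ + 1) fun a c => j a (-c) true ^ 2) = bxs ρ fun a c => j a c true ^ 2 := h2
    rw [h1', h2']
    exact hj

end clo

/-! ### the class from the numbers of one torus -/

section tor

variable {N : ℕ} [NeZero N] {t κ : ℝ}

/-- the two cut-offs -/
def ch2 (z : V N) (r m l : ℕ) (x : V N) : ℝ := U m l (x - z) * chZ {z} r x

lemma ch2_nonneg (z : V N) (r m l : ℕ) (x : V N) : 0 ≤ ch2 z r m l x :=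
  mul_nonneg (H817.U_nonneg _ _ _) (chZ_nonneg _ _ _)

lemma ch2_le_one (z : V N) (r m l : ℕ) (x : V N) : ch2 z r m l x ≤ 1 :=
  mul_le_one₀ (H817.U_le_one _ _ _) (chZ_nonneg _ _ _) (chZ_le_one _ _ _)

lemma gr_ch2 (z : V N) (r m : ℕ) {l : ℕ} (hl : 0 < l) (e : V N × Bool) :
    gr (ch2 z r m l) e ^ 2 ≤ 2 * gr (chZ {z} r) e ^ 2 + 2 * (1 / (l : ℝ)) ^ 2 := by
  obtain ⟨x, b⟩ := e
  have h1 : gr (ch2 z r m l) (x, b) = U m l (x + eb b - z) * gr (chZ {z} r) (x, b) +
      chZ {z} r x * gr (fun y => U m l (y - z)) (x, b) := by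
    rw [gr_eq, gr_eq, gr_eq]
    unfold ch2
    ring
  have h2 : (U m l (x + eb b - z) * gr (chZ {z} r) (x, b)) ^ 2 ≤ gr (chZ {z} r) (x, b) ^ 2 := by
    rw [mul_pow]
    have h3 : U m l (x + eb b - z) ^ 2 ≤ 1 := pow_le_one₀ (H817.U_nonneg _ _ _) (H817.U_le_one _ _ _)
    calc _ ≤ 1 * gr (chZ {z} r) (x, b) ^ 2 := mul_le_mul_of_nonneg_right h3 (sq_nonneg _)
      _ = _ := one_mul _
  have h4 : (chZ {z} r x * gr (fun y => U m l (y - z)) (x, b)) ^ 2 ≤ (1 / (l : ℝ)) ^ 2 := by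
    rw [mul_pow]
    have h3 : chZ {z} r x ^ 2 ≤ 1 := pow_le_one₀ (chZ_nonneg _ _ _) (chZ_le_one _ _ _)
    have h5 : gr (fun y => U m l (y - z)) (x, b) ^ 2 ≤ (1 / (l : ℝ)) ^ 2 := by
      rw [← sq_abs]
      exact pow_le_pow_left₀ (abs_nonneg _) (H817.U_shift_GB m hl z (x, b)) 2
    calc _ ≤ 1 * gr (fun y => U m l (y - z)) (x, b) ^ 2 :=
          mul_le_mul_of_nonneg_right h3 (sq_nonneg _)
      _ = gr (fun y => U m l (y - z)) (x, b) ^ 2 := one_mul _
      _ ≤ _ := h5
  rw [h1]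
  nlinarith [sq_nonneg (U m l (x + eb b - z) * gr (chZ {z} r) (x, b) -
    chZ {z} r x * gr (fun y => U m l (y - z)) (x, b))]

/-- **the class from `Qa, Qb, Qc`** -/
theorem flD_of_Q (ht : 0 < t) (hκ : 0 ≤ κ) {l0 l1 r : ℕ} (hr : 0 < r) (hl1 : 0 < l1)
    (hκl : 4 * κ ≤ (l1 : ℝ) ^ 2) (hN : 2 * (l0 + l1 + 1) + 4 < N) {F : ℤ → ℤ → ℝ}
    (hF : SuppD l0 F) (z : V N) {u : V N → ℝ} (hu : ∀ x, u x + κ * (lapM.mulVec u) x = dec F z x)
    (h1 : ∀ e, |t * κ * gr u e| ≤ 1) :
    FlD t (l0 + l1 + 1) r (3 * (2 * Qa t κ u + Qb t {z} r (dec F z) + 4 * Qc t κ {z} r u))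
      (t * κ * Qa t κ u) F := by
  classical
  set f : V N → ℝ := dec F z with hf
  set χ : V N → ℝ := ch2 z r l0 l1 with hχ
  set ρ : ℕ := l0 + l1 + 1 with hρ
  have hQa : t * κ * nrm (gr u) ≤ Qa t κ u := by
    unfold Qa
    have : 0 ≤ t * ∑ x, u x ^ 2 := by positivity
    linarith
  have hQa' : t * ∑ x, u x ^ 2 ≤ Qa t κ u := by
    unfold Qa nrm
    have : 0 ≤ t * κ * ∑ e, gr u e ^ 2 := by positivity
    linarith
  have hfz : ∀ x, l0 < sz (x - z) → f x = 0 := fun x hx => H817.dec_zero hF hx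
  -- supports
  have hjs : ∀ e, jU t κ χ u e ≠ 0 → sz (e.1 - z) ≤ l0 + l1 := by
    intro e he
    by_contra h
    refine he ?_
    unfold jU
    rw [hχ]
    unfold ch2
    rw [H817.U_zero (by omega)]
    ring
  have hjs' : ∀ e, jU t κ χ u e ≠ 0 → sz (e.1 - z) ≤ ρ := fun e he => (hjs e he).trans (by omega)
  have hKs : ∀ x, kU t κ χ u f x ≠ 0 → sz (x - z) ≤ ρ := by
    intro x hx
    by_contra h
    refine hx ?_
    have a1 : ∀ o, jU t κ χ u (x, o) = 0 := fun o => by
      by_contra h0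
      have := hjs (x, o) h0
      simp only at this
      omega
    have a2 : jU t κ χ u (x - e1, false) = 0 := by
      by_contra h0
      have g1 := hjs _ h0
      simp only at g1
      have g2 := (H817.sz_step (x - e1 - z) false).2
      have g3 : x - e1 - z + eb false = x - z := by
        unfold eb
        simp only [Bool.false_eq_true, if_false]
        abel
      rw [g3] at g2
      omega
    have a3 : jU t κ χ u (x - e2, true) = 0 := by
      by_contra h0
      have g1 := hjs _ h0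
      simp only at g1
      have g2 := (H817.sz_step (x - e2 - z) true).2
      have g3 : x - e2 - z + eb true = x - z := by
        unfold eb
        simp only [if_true]
        abel
      rw [g3] at g2
      omega
    unfold kU dv
    rw [a1, a1, a2, a3, hfz x (by omega)]
    ring
  -- the numbers
  have hK2 := kU_sq (t := t) (ch2_nonneg z r l0 l1) (ch2_le_one z r l0 l1) hu
  have hj2 : ∑ e, jU t κ χ u e ^ 2 ≤ t * κ * Qa t κ u := by
    refine (jU_sq (ch2_nonneg z r l0 l1) (ch2_le_one z r l0 l1) u).trans ?_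
    have h3 : 0 ≤ t * κ := by positivity
    calc (t * κ) ^ 2 * nrm (gr u) = t * κ * (t * κ * nrm (gr u)) := by ring
      _ ≤ _ := mul_le_mul_of_nonneg_left hQa h3
  have hj1 : ∀ e, |jU t κ χ u e| ≤ 1 := abs_jU_le (ch2_nonneg z r l0 l1) (ch2_le_one z r l0 l1) h1
  have hloss : ∑ x, ((1 - χ x) * f x) ^ 2 ≤ ∑ x ∈ nbZ {z} (2 * r), f x ^ 2 := by
    refine le_trans (le_of_eq ?_) (chZ_loss {z} r f)
    refine sum_congr rfl fun x _ => ?_
    rcases Nat.lt_or_ge l0 (sz (x - z)) with h | h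
    · rw [hfz x h]
      ring
    · rw [hχ]
      unfold ch2
      rw [H817.U_one hl1 h, one_mul]
  have hlay : lyU t κ χ u ≤ 2 * lyU t κ (chZ {z} r) u + 1 / 2 * t * Qa t κ u := by
    unfold lyU
    have h3 : ∀ e, gr χ e ^ 2 * (t * κ * gr u e) ^ 2 ≤
        2 * (gr (chZ {z} r) e ^ 2 * (t * κ * gr u e) ^ 2) +
          2 * (1 / (l1 : ℝ)) ^ 2 * (t * κ) ^ 2 * gr u e ^ 2 := by
      intro e
      have h4 := mul_le_mul_of_nonneg_right (gr_ch2 z r l0 hl1 e) (sq_nonneg (t * κ * gr u e))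
      refine h4.trans (le_of_eq ?_)
      ring
    refine (sum_le_sum fun e _ => h3 e).trans ?_
    rw [sum_add_distrib, ← mul_sum, ← mul_sum]
    have h5 : 2 * (1 / (l1 : ℝ)) ^ 2 * (t * κ) ^ 2 * ∑ e, gr u e ^ 2 ≤ 1 / 2 * t * Qa t κ u := by
      have hl0 : (0 : ℝ) < l1 := by exact_mod_cast hl1
      have h6 : (1 / (l1 : ℝ)) ^ 2 * κ ≤ 1 / 4 := by
        have : (1 / (l1 : ℝ)) ^ 2 * κ = κ / (l1 : ℝ) ^ 2 := by ring
        rw [this, div_le_iff₀ (by positivity)]
        linarith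
      have h7 : t * κ * ∑ e, gr u e ^ 2 ≤ Qa t κ u := hQa
      have h8 : 0 ≤ t * κ * ∑ e, gr u e ^ 2 := by positivity
      calc 2 * (1 / (l1 : ℝ)) ^ 2 * (t * κ) ^ 2 * ∑ e, gr u e ^ 2 =
          2 * t * ((1 / (l1 : ℝ)) ^ 2 * κ) * (t * κ * ∑ e, gr u e ^ 2) := by ring
        _ ≤ 2 * t * (1 / 4) * (t * κ * ∑ e, gr u e ^ 2) := by gcongr
        _ ≤ 2 * t * (1 / 4) * Qa t κ u := by gcongr
        _ = _ := by ring
    linarith
  have hK : ∑ x, kU t κ χ u f x ^ 2 ≤
      t * (3 * (2 * Qa t κ u + Qb t {z} r f + 4 * Qc t κ {z} r u)) := by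
    have h3 := lyU_le t κ {z} hr u
    have h4 : t * Qc t κ {z} r u = ((#({z} : Finset (V N)) : ℝ) / r) ^ 2 * (t * κ) ^ 2 *
        ∑ x ∈ nbZ {z} (2 * r + 1), (gr u (x, false) ^ 2 + gr u (x, true) ^ 2) := by
      unfold Qc
      ring
    rw [← h4] at h3
    have h5 : t * Qb t {z} r f = t ^ 2 * ∑ x ∈ nbZ {z} (2 * r), f x ^ 2 := by
      unfold Qb
      ring
    have h6 := mul_le_mul_of_nonneg_left hloss (sq_nonneg t)
    rw [← h5] at h6
    have h7 : t ^ 2 * ∑ x, u x ^ 2 ≤ t * Qa t κ u := by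
      have := mul_le_mul_of_nonneg_left hQa' ht.le
      calc t ^ 2 * ∑ x, u x ^ 2 = t * (t * ∑ x, u x ^ 2) := by ring
        _ ≤ _ := this
    refine hK2.trans ?_
    have h8 : lyU t κ χ u ≤ 2 * (t * Qc t κ {z} r u) + 1 / 2 * t * Qa t κ u := by linarith
    linarith
  refine ⟨crt (kU t κ χ u f) z ρ, crtE (jU t κ χ u) z ρ, ⟨fun a c hh => ?_, supp_crt _ _ _,
    supp_crtE _ _ _, fun a c o ha hc => ?_, fun a c o => ?_, ?_⟩, ?_, ?_⟩
  · have := hF a c hh
    omega
  · unfold crtE crt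
    split_ifs with h
    · have hz0 : chZ {z} r (z + ((a : ZMod N), (c : ZMod N))) = 0 := by
        refine chZ_zero hr (mem_singleton_self z) ?_
        rw [add_sub_cancel_left]
        unfold H817.sz
        simp only
        rw [vma_of (by omega), vma_of (by omega)]
        omega
      show χ (z + ((a : ZMod N), (c : ZMod N))) *
        (t * κ * gr u (z + ((a : ZMod N), (c : ZMod N)), o)) = 0
      rw [hχ]
      unfold ch2
      rw [hz0]
      ring
    · rfl
  · unfold crtE crt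
    split_ifs with h
    · exact hj1 _
    · rw [abs_zero]
      exact zero_le_one
  · -- the equation
    have hjE : ∀ x, dec (dvZ (crtE (jU t κ χ u) z ρ)) z x = dv (jU t κ χ u) x := by
      intro x
      rw [← dv_decE (ρ := ρ) (by omega) (supp_crtE _ _ _)]
      congr 1
      funext e
      exact decE_crtE hjs' e
    have hs : SuppD (ρ + 1) (fun a c => crt (kU t κ χ u f) z ρ a c +
        dvZ (crtE (jU t κ χ u) z ρ) a c) := by
      intro a c hh
      by_contra hcon
      refine hh ?_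
      have b1 : crt (kU t κ χ u f) z ρ a c = 0 := by
        by_contra h0
        have := supp_crt _ _ _ _ _ h0
        omega
      have b2 : dvZ (crtE (jU t κ χ u) z ρ) a c = 0 := by
        by_contra h0
        exact hcon (supp_dvZ (supp_crtE _ _ _) _ _ h0)
      show crt (kU t κ χ u f) z ρ a c + dvZ (crtE (jU t κ χ u) z ρ) a c = 0
      rw [b1, b2, add_zero]
    have hs' : SuppD (ρ + 1) (fun a c => t * F a c) := by
      intro a c hh
      have := hF a c fun h0 => hh (by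
        show t * F a c = 0
        rw [h0, mul_zero])
      omega
    have h3 := dec_inj (N := N) (by omega) hs' hs (p := z) fun x => by
      show t * dec F z x = dec (crt (kU t κ χ u f) z ρ) z x +
        dec (dvZ (crtE (jU t κ χ u) z ρ)) z x
      rw [dec_crt hKs, hjE]
      exact kU_add t κ χ u f x
    intro a c
    exact congrFun (congrFun h3 a) c
  · have h3 := sum_dec (N := N) (ρ := ρ) (by omega)
      (G := fun a c => crt (kU t κ χ u f) z ρ a c ^ 2)
      (fun a c hh => supp_crt _ _ _ _ _ fun h0 => hh (by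
        show crt (kU t κ χ u f) z ρ a c ^ 2 = 0
        rw [h0]
        ring)) z
    rw [← h3]
    refine le_trans (le_of_eq ?_) hK
    refine sum_congr rfl fun x _ => ?_
    show dec (crt (kU t κ χ u f) z ρ) z x ^ 2 = _
    rw [dec_crt hKs]
  · have h3 := sum_dec (N := N) (ρ := ρ) (by omega)
      (G := fun a c => crtE (jU t κ χ u) z ρ a c false ^ 2 + crtE (jU t κ χ u) z ρ a c true ^ 2)
      (fun a c hh => by
        by_contra hcon
        refine hh ?_
        have b : ∀ o, crtE (jU t κ χ u) z ρ a c o = 0 := fun o => by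
          by_contra h0
          exact hcon (supp_crtE _ _ _ _ _ _ h0)
        show crtE (jU t κ χ u) z ρ a c false ^ 2 + crtE (jU t κ χ u) z ρ a c true ^ 2 = 0
        rw [b, b]
        ring) z
    rw [← h3]
    refine le_trans (le_of_eq ?_) hj2
    rw [H817.sum_edges, ← sum_add_distrib]
    refine sum_congr rfl fun x _ => ?_
    show decE (crtE (jU t κ χ u) z ρ) z (x, false) ^ 2 +
      decE (crtE (jU t κ χ u) z ρ) z (x, true) ^ 2 = _
    rw [decE_crtE hjs', decE_crtE hjs']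

end tor

end

end Vale.Agent.P159.H276
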